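import Vale.Agent.P092.H790.Sec

/-!
P092 (helper790): a lattice gives a measure equivalence datum.
-/

open Set Filter Topology MeasureTheory

namespace Vale.Agent.P092.H790

/-- A probability measure preserving action of `D` with a cocycle with values in `Λ`, proper, and
with a strict fundamental domain `Y` for the action `g (x, v) = (g x, v c(g, x)⁻¹)` on `X × Λ`. -/
structure MEData (D Λ : Type) [Group D] [Group Λ] where
  X : Type
  [ms : MeasurableSpace X]
  μ : Measure X
  [prob : IsProbabilityMeasure μ]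
  act : D → X → X
  act_one : ∀ x, act 1 x = x
  act_mul : ∀ g h x, act (g * h) x = act g (act h x)
  mp : ∀ g, MeasurePreserving (act g) μ μ
  c : D → X → Λ
  c_meas : ∀ g v, MeasurableSet {x | c g x = v}
  c_mul : ∀ g h x, c (g * h) x = c g (act h x) * c h x
  escape : ∀ v, Tendsto (fun g : D => μ.real {x | c g x = v}) cofinite (𝓝 0)
  Y : Λ → Set X
  Y_meas : ∀ v, MeasurableSet (Y v)
  Y_dom : ∀ x v, ∃! g : D, act g x ∈ Y (v * (c g x)⁻¹)

attribute [instance] MEData.ms MEData.prob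

section lemmas

variable {E : Type*} [Group E] [TopologicalSpace E]

/-- A discrete subgroup of a second countable group is countable. -/
theorem countable_of_discrete [SecondCountableTopology E] (D : Subgroup E) [DiscreteTopology D] :
    Countable D := TopologicalSpace.separableSpace_iff_countable.1 inferInstance

/-- A discrete subgroup meets a compact set in a finite set. -/
theorem finite_inter [IsTopologicalGroup E] [T2Space E] (D : Subgroup E) [DiscreteTopology D] {Q : Set E}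
    (hQ : IsCompact Q) : {w : D | (w : E) ∈ Q}.Finite := by
  have hcl : IsClosed (D : Set E) := Subgroup.isClosed_of_discrete
  have hcomp : IsCompact ((↑) ⁻¹' Q : Set D) := by
    have he : Topology.IsClosedEmbedding ((↑) : D → E) := hcl.isClosedEmbedding_subtypeVal
    exact he.isCompact_preimage hQ
  exact hcomp.finite_of_discrete

end lemmas

section main

variable {E : Type} [Group E] [TopologicalSpace E] [IsTopologicalGroup E] [LocallyCompactSpace E]
  [SecondCountableTopology E] [T2Space E]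

/-- The escape of the cocycle. -/
theorem escape_aux (D Λ : Subgroup E) [DiscreteTopology D] [DiscreteTopology Λ]
    [MeasurableSpace (E ⧸ Λ)] [BorelSpace (E ⧸ Λ)] (ν : Measure (E ⧸ Λ)) [IsProbabilityMeasure ν]
    (hν : ∀ g : E, ν.map (fun x => g • x) = ν) (σ : E ⧸ Λ → E)
    (hK : ∀ K : Set (E ⧸ Λ), IsCompact K → ∃ C : Set E, IsCompact C ∧ ∀ x ∈ K, σ x ∈ C) (v : E) :
    Tendsto (fun w : D => ν.real {x | (σ ((w : E) • x))⁻¹ * w * σ x = v}) cofinite (𝓝 0) := by
  obtain ⟨P, hP⟩ : ∃ P : ℕ → Set (E ⧸ Λ), P = fun n =>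
    ((↑) : E → E ⧸ Λ) '' interior (CompactExhaustion.choice E n) := ⟨_, rfl⟩
  have hPo : ∀ n, IsOpen (P n) := fun n => by
    rw [hP]; exact QuotientGroup.isOpenMap_coe _ isOpen_interior
  have hPm : Monotone P := by
    rw [hP]
    refine monotone_nat_of_le_succ fun n => image_mono (interior_mono ?_)
    exact (CompactExhaustion.choice E).subset_succ n
  have hPu : ⋃ n, P n = univ := by
    refine eq_univ_of_forall fun x => ?_
    obtain ⟨e, rfl⟩ := QuotientGroup.mk_surjective x
    obtain ⟨n, hn⟩ := mem_iUnion.1 ((CompactExhaustion.choice E).iUnion_eq ▸ mem_univ e :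
      e ∈ ⋃ n, CompactExhaustion.choice E n)
    refine mem_iUnion.2 ⟨n + 1, ?_⟩
    rw [hP]
    exact ⟨e, (CompactExhaustion.choice E).subset_interior_succ n hn, rfl⟩
  have hlim : Tendsto (fun n => ν.real (P n)ᶜ) atTop (𝓝 0) := by
    have h1 : Tendsto (fun n => ν.real (P n)) atTop (𝓝 1) := by
      have h2 := tendsto_measure_iUnion_atTop (μ := ν) hPm
      rw [hPu, measure_univ] at h2
      have h3 := (ENNReal.tendsto_toReal ENNReal.one_ne_top).comp h2
      simpa [Function.comp_def, Measure.real] using h3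
    have h4 : ∀ n, ν.real (P n)ᶜ = 1 - ν.real (P n) := fun n =>
      probReal_compl_eq_one_sub (hPo n).measurableSet
    simp_rw [h4]
    simpa using h1.const_sub 1
  rw [Metric.tendsto_nhds]
  intro ε hε
  obtain ⟨n, hn⟩ := (hlim.eventually (gt_mem_nhds (half_pos hε))).exists
  have hKc : IsCompact (((↑) : E → E ⧸ Λ) '' (CompactExhaustion.choice E n)) :=
    ((CompactExhaustion.choice E).isCompact n).image continuous_quotient_mk'
  obtain ⟨C, hC, hσC⟩ := hK _ hKc
  have hPK : P n ⊆ ((↑) : E → E ⧸ Λ) '' (CompactExhaustion.choice E n) := by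
    rw [hP]; exact image_mono interior_subset
  have hQ : IsCompact ((fun p : E × E => p.1 * v * p.2⁻¹) '' (C ×ˢ C)) :=
    (hC.prod hC).image (by fun_prop)
  have hfin := finite_inter D hQ
  refine (hfin.eventually_cofinite_notMem).mono fun w hw => ?_
  rw [Real.dist_eq, sub_zero, abs_of_nonneg measureReal_nonneg]
  have hmeas : Measurable fun x : E ⧸ Λ => (w : E) • x := (continuous_const_smul _).measurable
  have hsub : {x | (σ ((w : E) • x))⁻¹ * w * σ x = v} ⊆
      (P n)ᶜ ∪ (fun x : E ⧸ Λ => (w : E) • x) ⁻¹' (P n)ᶜ := by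
    intro x hx
    by_contra hcon
    simp only [mem_union, mem_compl_iff, mem_preimage, not_or, not_not] at hcon
    refine hw ?_
    refine ⟨(σ ((w : E) • x), σ x), ⟨hσC _ (hPK hcon.2), hσC _ (hPK hcon.1)⟩, ?_⟩
    have hx' : (σ ((w : E) • x))⁻¹ * w * σ x = v := hx
    simp only
    rw [← hx']
    group
  have hpre : ν.real ((fun x : E ⧸ Λ => (w : E) • x) ⁻¹' (P n)ᶜ) = ν.real (P n)ᶜ := by
    rw [← map_measureReal_apply hmeas (hPo n).measurableSet.compl, hν]
  calc ν.real {x | (σ ((w : E) • x))⁻¹ * w * σ x = v} ≤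
      ν.real ((P n)ᶜ ∪ (fun x : E ⧸ Λ => (w : E) • x) ⁻¹' (P n)ᶜ) := measureReal_mono hsub
    _ ≤ ν.real (P n)ᶜ + ν.real ((fun x : E ⧸ Λ => (w : E) • x) ⁻¹' (P n)ᶜ) :=
      measureReal_union_le _ _
    _ < ε := by rw [hpre]; linarith

/-- **A lattice gives a measure equivalence datum with every discrete subgroup.** -/
theorem exists_meData (D Λ : Subgroup E) [DiscreteTopology D] [DiscreteTopology Λ]
    [MeasurableSpace (E ⧸ Λ)] [BorelSpace (E ⧸ Λ)] (ν : Measure (E ⧸ Λ)) [IsProbabilityMeasure ν]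
    (hν : ∀ g : E, ν.map (fun x => g • x) = ν) : Nonempty (MEData D Λ) := by
  classical
  borelize E
  let _ : MeasurableSpace (E ⧸ D) := borel _
  have _ : BorelSpace (E ⧸ D) := ⟨rfl⟩
  obtain ⟨σ, hσm, hσ, hσK⟩ := exists_section Λ
  obtain ⟨τ, hτm, hτ, -⟩ := exists_section D
  have hmem : ∀ (g : E) (x : E ⧸ Λ), (σ (g • x))⁻¹ * g * σ x ∈ Λ := by
    intro g x
    rw [mul_assoc]
    refine QuotientGroup.eq.1 ?_
    rw [hσ]
    conv_lhs => rw [← hσ x]
    rfl
  have hsm : ∀ g : E, Measurable fun x : E ⧸ Λ => g • x := fun g =>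
    (continuous_const_smul g).measurable
  have hmpe : ∀ g : E, MeasurePreserving (fun x : E ⧸ Λ => g • x) ν ν := fun g => ⟨hsm g, hν g⟩
  have hcm : ∀ g : E, Measurable fun x : E ⧸ Λ => (σ (g • x))⁻¹ * g * σ x := fun g =>
    (((hσm.comp (hsm g)).inv.mul_const g).mul hσm)
  refine ⟨{
    X := E ⧸ Λ
    μ := ν
    act := fun g x => (g : E) • x
    act_one := fun x => by simp
    act_mul := fun g h x => by
      rw [Subgroup.coe_mul, mul_smul]
    mp := fun g => hmpe g
    c := fun g x => ⟨(σ ((g : E) • x))⁻¹ * g * σ x, hmem g x⟩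
    c_meas := fun g v => by
      have e : {x : E ⧸ Λ | (⟨(σ ((g : E) • x))⁻¹ * g * σ x, hmem g x⟩ : Λ) = v} =
          (fun x : E ⧸ Λ => (σ ((g : E) • x))⁻¹ * g * σ x) ⁻¹' {(v : E)} := by
        ext x
        simp [Subtype.ext_iff]
      rw [e]
      exact hcm g (measurableSet_singleton _)
    c_mul := fun g h x => by
      apply Subtype.ext
      simp only [Subgroup.coe_mul, mul_smul]
      group
    escape := fun v => by
      have h := escape_aux D Λ ν hν σ hσK (v : E)
      refine h.congr fun w => ?_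
      congr 1
      ext x
      simp [Subtype.ext_iff]
    Y := fun v => {x | (σ x * (v : E)⁻¹)⁻¹ = τ ((σ x * (v : E)⁻¹)⁻¹ : E)}
    Y_meas := fun v => by
      have h1 : Measurable fun x : E ⧸ Λ => (σ x * (v : E)⁻¹)⁻¹ := (hσm.mul_const _).inv
      have h2 : Measurable fun x : E ⧸ Λ => τ ((σ x * (v : E)⁻¹)⁻¹ : E) :=
        (hτm.comp (continuous_quotient_mk'.measurable)).comp h1
      exact measurableSet_eq_fun h1 h2
    Y_dom := fun x v => by
      obtain ⟨e, he⟩ : ∃ e : E, e = σ x * (v : E)⁻¹ := ⟨_, rfl⟩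
      have key : ∀ g : D, (σ ((g : E) • x) * (((v * (⟨(σ ((g : E) • x))⁻¹ * g * σ x,
          hmem g x⟩ : Λ)⁻¹ : Λ) : E))⁻¹)⁻¹ = e⁻¹ * (g : E)⁻¹ := by
        intro g
        rw [he]
        push_cast
        group
      have hq : ∀ g : D, ((e⁻¹ * (g : E)⁻¹ : E) : E ⧸ D) = ((e⁻¹ : E) : E ⧸ D) := by
        intro g
        exact QuotientGroup.mk_mul_of_mem _ (D.inv_mem g.2)
      have hd : (τ ((e⁻¹ : E) : E ⧸ D))⁻¹ * e⁻¹ ∈ D :=
        QuotientGroup.eq.1 (hτ ((e⁻¹ : E) : E ⧸ D))
      have hiff : ∀ g : D, ((σ ((g : E) • x) * (((v * (⟨(σ ((g : E) • x))⁻¹ * g * σ x,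
          hmem g x⟩ : Λ)⁻¹ : Λ) : E))⁻¹)⁻¹ = τ (((σ ((g : E) • x) * (((v *
          (⟨(σ ((g : E) • x))⁻¹ * g * σ x, hmem g x⟩ : Λ)⁻¹ : Λ) : E))⁻¹)⁻¹ : E) : E ⧸ D)) ↔
          e⁻¹ * (g : E)⁻¹ = τ ((e⁻¹ : E) : E ⧸ D) := by
        intro g
        rw [key, hq]
      refine ⟨⟨_, hd⟩, (hiff _).2 ?_, fun g hg => ?_⟩
      · simp only
        group
      · have h1 := (hiff g).1 hg
        apply Subtype.ext
        simp only
        rw [← h1]
        group }⟩

end main

end Vale.Agent.P092.H790
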