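import Vale.Agent.P092.H790.Fld
import Vale.Agent.P092.H790.ME

/-!
P092 (helper790): induced representations on `L²(X; K)`.
-/

set_option linter.all false

open scoped InnerProductSpace ENNReal
open MeasureTheory Filter Topology ContinuousLinearMap

namespace Vale.Agent.P092.H790

/-- A probability measure preserving action of `D` with a cocycle with values in `Λ`. -/
structure CData (D Λ : Type) [Group D] [Group Λ] where
  X : Type
  [ms : MeasurableSpace X]
  μ : Measure X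
  [prob : IsProbabilityMeasure μ]
  act : D → X → X
  act_one : ∀ x, act 1 x = x
  act_mul : ∀ g h x, act (g * h) x = act g (act h x)
  mp : ∀ g, MeasurePreserving (act g) μ μ
  c : D → X → Λ
  c_meas : ∀ g v, MeasurableSet {x | c g x = v}
  c_mul : ∀ g h x, c (g * h) x = c g (act h x) * c h x

attribute [instance] CData.ms CData.prob

/-- the cocycle datum of a measure equivalence datum -/
def MEData.toC {D Λ : Type} [Group D] [Group Λ] (m : MEData D Λ) : CData D Λ where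
  X := m.X
  μ := m.μ
  act := m.act
  act_one := m.act_one
  act_mul := m.act_mul
  mp := m.mp
  c := m.c
  c_meas := m.c_meas
  c_mul := m.c_mul

section koo

variable {X : Type*} [MeasurableSpace X] {μ : Measure X} {K : Type*} [NormedAddCommGroup K]
  [InnerProductSpace ℂ K]

/-- composition with a measure preserving map -/
noncomputable def koo (f : X → X) (hf : MeasurePreserving f μ μ) : Lp K 2 μ →L[ℂ] Lp K 2 μ :=
  (Lp.compMeasurePreservingₗᵢ ℂ f hf).toContinuousLinearMap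

theorem koo_ae (f : X → X) (hf : MeasurePreserving f μ μ) (ξ : Lp K 2 μ) :
    ⇑(koo f hf ξ) =ᵐ[μ] fun x => ξ (f x) := Lp.coeFn_compMeasurePreserving ξ hf

theorem norm_koo (f : X → X) (hf : MeasurePreserving f μ μ) (ξ : Lp K 2 μ) :
    ‖koo f hf ξ‖ = ‖ξ‖ := (Lp.compMeasurePreservingₗᵢ ℂ f hf).norm_map ξ

theorem ae_comp {f : X → X} (hf : MeasurePreserving f μ μ) {p : X → Prop} (h : ∀ᵐ x ∂μ, p x) :
    ∀ᵐ x ∂μ, p (f x) := hf.quasiMeasurePreserving.ae h

theorem koo_fld {f : X → X} (hf : MeasurePreserving f μ μ) {T T' : Lp K 2 μ →L[ℂ] Lp K 2 μ}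
    {A : X → K →L[ℂ] K} (hT : Fld T A) (hT' : Fld T' (fun x => A (f x))) :
    koo f hf * T = T' * koo f hf := by
  refine ContinuousLinearMap.ext fun ξ => Lp.ext ?_
  filter_upwards [koo_ae f hf (T ξ), ae_comp hf (hT ξ), hT' (koo f hf ξ), koo_ae f hf ξ]
    with x h1 h2 h3 h4
  change (koo f hf (T ξ)) x = (T' (koo f hf ξ)) x
  rw [h1, h2, h3, h4]

/-- constant fields -/
theorem fld_comp (A : K →L[ℂ] K) : Fld (A.compLpL 2 μ) (fun _ => A) :=
  fun ξ => A.coeFn_compLpL ξ

theorem comp_mul (A B : K →L[ℂ] K) :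
    (A * B).compLpL 2 μ = A.compLpL 2 μ * B.compLpL 2 μ :=
  (fld_comp (A * B)).ext ((fld_comp A).mul (fld_comp B)) (Eventually.of_forall fun _ => rfl)

theorem comp_one : (1 : K →L[ℂ] K).compLpL 2 μ = 1 :=
  (fld_comp 1).ext fld_one (Eventually.of_forall fun _ => rfl)

theorem comp_add (A B : K →L[ℂ] K) :
    (A + B).compLpL 2 μ = A.compLpL 2 μ + B.compLpL 2 μ :=
  (fld_comp (A + B)).ext ((fld_comp A).add (fld_comp B)) (Eventually.of_forall fun _ => rfl)

theorem comp_sub (A B : K →L[ℂ] K) :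
    (A - B).compLpL 2 μ = A.compLpL 2 μ - B.compLpL 2 μ :=
  (fld_comp (A - B)).ext ((fld_comp A).sub (fld_comp B)) (Eventually.of_forall fun _ => rfl)

theorem comp_smul (c : ℂ) (A : K →L[ℂ] K) : (c • A).compLpL 2 μ = c • A.compLpL 2 μ :=
  (fld_comp (c • A)).ext ((fld_comp A).smul c) (Eventually.of_forall fun _ => rfl)

theorem comp_adjoint [CompleteSpace K] (A : K →L[ℂ] K) :
    adjoint (A.compLpL 2 μ) = (adjoint A).compLpL 2 μ :=
  (fld_comp A).adjoint (fld_comp _) (Eventually.of_forall fun _ => rfl)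

end koo

section ind

variable {X : Type*} [MeasurableSpace X] {μ : Measure X} {K : Type*} [NormedAddCommGroup K]
  [InnerProductSpace ℂ K]

open Classical in
/-- multiplication by an indicator function -/
noncomputable def ind (μ : Measure X) (K : Type*) [NormedAddCommGroup K] [InnerProductSpace ℂ K]
    (S : Set X) : Lp K 2 μ →L[ℂ] Lp K 2 μ := fop μ (fun x => if x ∈ S then 1 else 0)

open Classical in
theorem fld_ind {S : Set X} (hS : MeasurableSet S) :
    Fld (ind μ K S) (fun x => if x ∈ S then 1 else 0) := by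
  refine fop_spec (C := 1) (fun y => ?_) (fun x => ?_)
  · have h1 : (fun x => (if x ∈ S then (1 : K →L[ℂ] K) else 0) y) = S.indicator fun _ => y := by
      funext x
      by_cases hx : x ∈ S
      · rw [if_pos hx, Set.indicator_of_mem hx]; rfl
      · rw [if_neg hx, Set.indicator_of_notMem hx]; rfl
    rw [h1]
    exact aestronglyMeasurable_const.indicator hS
  · split_ifs
    · exact ContinuousLinearMap.norm_id_le
    · rw [norm_zero]; exact zero_le_one

theorem ind_ae {S : Set X} (hS : MeasurableSet S) (ξ : Lp K 2 μ) :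
    ⇑(ind μ K S ξ) =ᵐ[μ] S.indicator ξ := by
  classical
  filter_upwards [fld_ind hS ξ] with x h1
  rw [h1]
  by_cases hx : x ∈ S
  · rw [if_pos hx, Set.indicator_of_mem hx]; rfl
  · rw [if_neg hx, Set.indicator_of_notMem hx]; rfl

theorem ind_comp {S : Set X} (hS : MeasurableSet S) (A : K →L[ℂ] K) :
    A.compLpL 2 μ * ind μ K S = ind μ K S * A.compLpL 2 μ := by
  classical
  refine ((fld_comp A).mul (fld_ind hS)).ext ((fld_ind hS).mul (fld_comp A))
    (Eventually.of_forall fun x => ?_)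
  split_ifs
  · rw [mul_one, one_mul]
  · rw [mul_zero, zero_mul]

theorem Fld.ind {T : Lp K 2 μ →L[ℂ] Lp K 2 μ} {A : X → K →L[ℂ] K} (hT : Fld T A) {S : Set X}
    (hS : MeasurableSet S) : T * ind μ K S = ind μ K S * T := by
  classical
  refine (hT.mul (fld_ind hS)).ext ((fld_ind hS).mul hT) (Eventually.of_forall fun x => ?_)
  split_ifs
  · rw [mul_one, one_mul]
  · rw [mul_zero, zero_mul]

theorem ind_mul {S S' : Set X} (hS : MeasurableSet S) (hS' : MeasurableSet S') :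
    ind μ K S * ind μ K S' = ind μ K (S ∩ S') := by
  classical
  refine ((fld_ind hS).mul (fld_ind hS')).ext (fld_ind (hS.inter hS'))
    (Eventually.of_forall fun x => ?_)
  by_cases h1 : x ∈ S <;> by_cases h2 : x ∈ S' <;> simp [h1, h2]

theorem ind_univ : ind μ K Set.univ = 1 := by
  classical
  refine (fld_ind MeasurableSet.univ).ext fld_one (Eventually.of_forall fun x => ?_)
  rw [if_pos (Set.mem_univ x)]

theorem adjoint_ind [CompleteSpace K] {S : Set X} (hS : MeasurableSet S) :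
    adjoint (ind μ K S) = ind μ K S := by
  classical
  refine (fld_ind hS).adjoint (fld_ind hS) (Eventually.of_forall fun x => ?_)
  split_ifs
  · exact adjoint_one.symm
  · exact (map_zero _).symm

theorem norm_ind_le {S : Set X} (hS : MeasurableSet S) : ‖ind μ K S‖ ≤ 1 := by
  classical
  refine ContinuousLinearMap.opNorm_le_bound _ zero_le_one fun ξ => ?_
  refine Lp.norm_le_mul_norm_of_ae_le_mul ?_
  filter_upwards [ind_ae hS ξ] with x hx
  rw [hx, one_mul]
  exact norm_indicator_le_norm_self _ _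

theorem koo_ind {f : X → X} (hf : MeasurePreserving f μ μ) {S : Set X} (hS : MeasurableSet S) :
    koo f hf * ind μ K S = ind μ K (f ⁻¹' S) * koo f hf := by
  classical
  refine koo_fld hf (fld_ind hS) ?_
  exact fld_ind (hf.measurable hS)

end ind

section ri

variable {D Λ : Type} [Group D] [Group Λ] (d : CData D Λ) {K : Type} [NormedAddCommGroup K]
  [InnerProductSpace ℂ K] {R : Λ → K →L[ℂ] K}

/-- the Koopman operators -/
noncomputable def kp (K : Type) [NormedAddCommGroup K] [InnerProductSpace ℂ K] (g : D) :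
    Lp K 2 d.μ →L[ℂ] Lp K 2 d.μ := koo (d.act g⁻¹) (d.mp g⁻¹)

/-- the decomposable part of the induced representation -/
noncomputable def xf (R : Λ → K →L[ℂ] K) (g : D) : Lp K 2 d.μ →L[ℂ] Lp K 2 d.μ :=
  fop d.μ (fun x => R (d.c g (d.act g⁻¹ x)))

/-- the induced representation `(R~ g ξ)(x) = R(c(g, g⁻¹ x)) ξ(g⁻¹ x)` -/
noncomputable def Ri (R : Λ → K →L[ℂ] K) (g : D) : Lp K 2 d.μ →L[ℂ] Lp K 2 d.μ :=
  xf d R g * kp d K g

theorem act_inv (g : D) (x : d.X) : d.act g (d.act g⁻¹ x) = x := by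
  rw [← d.act_mul, mul_inv_cancel, d.act_one]

theorem act_inv' (g : D) (x : d.X) : d.act g⁻¹ (d.act g x) = x := by
  rw [← d.act_mul, inv_mul_cancel, d.act_one]

theorem c_one (x : d.X) : d.c 1 x = 1 := by
  have h := d.c_mul 1 1 x
  rw [mul_one, d.act_one] at h
  exact left_eq_mul.mp h

theorem c_inv (g : D) (x : d.X) : d.c g⁻¹ (d.act g x) = (d.c g x)⁻¹ := by
  have h := d.c_mul g⁻¹ g x
  rw [inv_mul_cancel, c_one] at h
  exact eq_inv_of_mul_eq_one_left h.symm

theorem aesm_xf [Countable Λ] (g : D) (y : K) :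
    AEStronglyMeasurable (fun x => R (d.c g (d.act g⁻¹ x)) y) d.μ := by
  refine aesm_countable (F := fun v _ => R v y) (k := fun x => d.c g (d.act g⁻¹ x)) (fun v => ?_)
    (fun v => aestronglyMeasurable_const)
  exact (d.mp g⁻¹).measurable (d.c_meas g v)

variable [Countable Λ] (hb : ∀ v, ‖R v‖ ≤ 1)

include hb in
theorem fld_xf (g : D) : Fld (xf d R g) (fun x => R (d.c g (d.act g⁻¹ x))) :=
  fop_spec (aesm_xf d g) (fun x => hb _)

include hb in
theorem norm_xf_le (g : D) : ‖xf d R g‖ ≤ 1 := norm_fop_le (aesm_xf d g) zero_le_one (fun x => hb _)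

theorem kp_ae (g : D) (ξ : Lp K 2 d.μ) : ⇑(kp d K g ξ) =ᵐ[d.μ] fun x => ξ (d.act g⁻¹ x) :=
  koo_ae _ _ _

include hb in
theorem ri_ae (g : D) (ξ : Lp K 2 d.μ) :
    ⇑(Ri d R g ξ) =ᵐ[d.μ] fun x => R (d.c g (d.act g⁻¹ x)) (ξ (d.act g⁻¹ x)) := by
  filter_upwards [fld_xf d hb g (kp d K g ξ), kp_ae d g ξ] with x h1 h2
  change (xf d R g (kp d K g ξ)) x = _
  rw [h1, h2]

include hb in
theorem norm_ri_le (g : D) : ‖Ri d R g‖ ≤ 1 := by
  refine ContinuousLinearMap.opNorm_le_bound _ zero_le_one fun ξ => ?_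
  change ‖xf d R g (kp d K g ξ)‖ ≤ _
  refine ((xf d R g).le_opNorm _).trans ?_
  rw [show ‖kp d K g ξ‖ = ‖ξ‖ from norm_koo _ _ _]
  have := norm_xf_le d hb g
  gcongr

include hb in
theorem ri_mul (hm : ∀ v w, R (v * w) = R v * R w) (g h : D) :
    Ri d R (g * h) = Ri d R g * Ri d R h := by
  refine ContinuousLinearMap.ext fun ξ => Lp.ext ?_
  filter_upwards [ri_ae d hb (g * h) ξ, ri_ae d hb g (Ri d R h ξ),
    ae_comp (d.mp g⁻¹) (ri_ae d hb h ξ)] with x h1 h2 h3
  change (Ri d R (g * h) ξ) x = (Ri d R g (Ri d R h ξ)) x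
  have e1 : d.act (g * h)⁻¹ x = d.act h⁻¹ (d.act g⁻¹ x) := by rw [mul_inv_rev, d.act_mul]
  rw [h1, h2, h3, e1, d.c_mul, act_inv, hm]
  rfl

theorem kp_mul (g h : D) : kp d K (g * h) = kp d K g * kp d K h := by
  refine ContinuousLinearMap.ext fun ξ => Lp.ext ?_
  filter_upwards [kp_ae d (g * h) ξ, kp_ae d g (kp d K h ξ),
    ae_comp (d.mp g⁻¹) (kp_ae d h ξ)] with x h1 h2 h3
  change (kp d K (g * h) ξ) x = (kp d K g (kp d K h ξ)) x
  have e1 : d.act (g * h)⁻¹ x = d.act h⁻¹ (d.act g⁻¹ x) := by rw [mul_inv_rev, d.act_mul]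
  rw [h1, h2, h3, e1]

theorem kp_one : kp d K (1 : D) = 1 := by
  refine ContinuousLinearMap.ext fun ξ => Lp.ext ?_
  filter_upwards [kp_ae d 1 ξ] with x h1
  rw [h1, inv_one, d.act_one]
  rfl

theorem kp_inv_mul (g : D) : kp d K g⁻¹ * kp d K g = 1 := by
  rw [← kp_mul, inv_mul_cancel, kp_one]

theorem kp_mul_inv (g : D) : kp d K g * kp d K g⁻¹ = 1 := by
  rw [← kp_mul, mul_inv_cancel, kp_one]

theorem inner_kp (g : D) (ξ η : Lp K 2 d.μ) : ⟪kp d K g ξ, kp d K g η⟫_ℂ = ⟪ξ, η⟫_ℂ :=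
  (Lp.compMeasurePreservingₗᵢ ℂ (d.act g⁻¹) (d.mp g⁻¹)).inner_map_map ξ η

theorem adjoint_kp [CompleteSpace K] (g : D) : adjoint (kp d K g) = kp d K g⁻¹ := by
  rw [eq_comm, ContinuousLinearMap.eq_adjoint_iff]
  intro ξ η
  rw [← inner_kp d g (kp d K g⁻¹ ξ) η]
  congr 1
  exact congrArg (fun T : Lp K 2 d.μ →L[ℂ] Lp K 2 d.μ => T ξ) (kp_mul_inv d g)

theorem kp_comp (g : D) (A : K →L[ℂ] K) :
    kp d K g * A.compLpL 2 d.μ = A.compLpL 2 d.μ * kp d K g :=
  koo_fld _ (fld_comp A) (fld_comp A)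

theorem kp_ind (g : D) {S : Set d.X} (hS : MeasurableSet S) :
    kp d K g * ind d.μ K S = ind d.μ K (d.act g⁻¹ ⁻¹' S) * kp d K g := koo_ind _ hS

include hb in
theorem xf_ind (g : D) {S : Set d.X} (hS : MeasurableSet S) :
    xf d R g * ind d.μ K S = ind d.μ K S * xf d R g := (fld_xf d hb g).ind hS

include hb in
theorem ri_ind (g : D) {S : Set d.X} (hS : MeasurableSet S) :
    Ri d R g * ind d.μ K S = ind d.μ K (d.act g⁻¹ ⁻¹' S) * Ri d R g := by
  rw [Ri, mul_assoc, kp_ind d g hS, ← mul_assoc, xf_ind d hb g ((d.mp g⁻¹).measurable hS),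
    mul_assoc]

include hb in
theorem xf_comp (g : D) {A : K →L[ℂ] K} (hA : ∀ v, A * R v = R v * A) :
    xf d R g * A.compLpL 2 d.μ = A.compLpL 2 d.μ * xf d R g :=
  ((fld_xf d hb g).mul (fld_comp A)).ext ((fld_comp A).mul (fld_xf d hb g))
    (Eventually.of_forall fun x => (hA _).symm)

include hb in
theorem ri_comp (g : D) {A : K →L[ℂ] K} (hA : ∀ v, A * R v = R v * A) :
    Ri d R g * A.compLpL 2 d.μ = A.compLpL 2 d.μ * Ri d R g := by
  rw [Ri, mul_assoc, kp_comp, ← mul_assoc, xf_comp d hb g hA, mul_assoc]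

include hb in
theorem ri_one : Ri d R 1 = (R 1).compLpL 2 d.μ := by
  rw [Ri, kp_one, mul_one]
  refine (fld_xf d hb 1).ext (fld_comp _) (Eventually.of_forall fun x => ?_)
  rw [c_one]

include hb in
theorem adjoint_ri [CompleteSpace K] (ha : ∀ v, adjoint (R v) = R v⁻¹) (g : D) :
    adjoint (Ri d R g) = Ri d R g⁻¹ := by
  rw [eq_comm, ContinuousLinearMap.eq_adjoint_iff]
  intro ξ η
  rw [← inner_kp d g (Ri d R g⁻¹ ξ) η, L2.inner_def, L2.inner_def]
  refine integral_congr_ae ?_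
  filter_upwards [kp_ae d g (Ri d R g⁻¹ ξ), ae_comp (d.mp g⁻¹) (ri_ae d hb g⁻¹ ξ), kp_ae d g η,
    ri_ae d hb g η] with x h1 h2 h3 h4
  simp only [h1, h2, h3, h4]
  rw [inv_inv, act_inv]
  have e1 : d.c g⁻¹ x = (d.c g (d.act g⁻¹ x))⁻¹ := by
    have := c_inv d g (d.act g⁻¹ x)
    rwa [act_inv] at this
  rw [e1, ← ha, adjoint_inner_left]

end ri

end Vale.Agent.P092.H790
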