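import Vale.Agent.P092.H790.Row3
import Vale.Agent.P092.H132.TRep

/-!
P092 (helper790): the row model over a probability space is an instance of helper132's `Base`, and
induced representations are instances of `TRep`.
-/

set_option linter.all false

open scoped InnerProductSpace ENNReal
open MeasureTheory Filter Topology ContinuousLinearMap

namespace Vale.Agent.P092.H790

open Vale.Agent.P092.H160 Vale.Agent.P092.H553 Vale.Agent.P092.H432
open Vale.Agent.P092.H132 (Base Koop NR TRep RAof)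

section base

variable {X : Type} [MeasurableSpace X] (μ : Measure X) [IsProbabilityMeasure μ]
  {Γ ι : Type} [Group Γ]

theorem rat_iff {T : Lp (Ell2 (Γ × ι)) 2 μ →L[ℂ] Lp (Ell2 (Γ × ι)) 2 μ} :
    RAof (lxt μ) {a | ∃ S : Set X, MeasurableSet S ∧ a = ind μ _ S} T ↔ RAt μ T := by
  constructor
  · rintro ⟨h1, h2⟩
    exact ⟨h1, fun S hS => h2 _ ⟨S, hS, rfl⟩⟩
  · rintro ⟨h1, h2⟩
    refine ⟨h1, ?_⟩
    rintro a ⟨S, hS, rfl⟩
    exact h2 S hS

theorem mp_one' : (mp ι (fun _ => (1 : ℝ)) : Ell2 (Γ × ι) →L[ℂ] Ell2 (Γ × ι)) = 1 :=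
  ContinuousLinearMap.ext fun ξ => mo_one ξ

theorem mp_add' {F G : Γ → ℝ} {C D : ℝ} (hF : ∀ g, |F g| ≤ C) (hG : ∀ g, |G g| ≤ D) :
    (mp ι (fun g => F g + G g) : Ell2 (Γ × ι) →L[ℂ] Ell2 (Γ × ι)) = mp ι F + mp ι G :=
  ContinuousLinearMap.ext fun ξ =>
    mo_add (F := fun x : Γ × ι => F x.1) (G := fun x : Γ × ι => G x.1) (fun x => hF _)
      (fun x => hG _) ξ

theorem mp_smul' (c : ℝ) {F : Γ → ℝ} {C : ℝ} (hF : ∀ g, |F g| ≤ C) :
    (mp ι (fun g => c * F g) : Ell2 (Γ × ι) →L[ℂ] Ell2 (Γ × ι)) = (c : ℂ) • mp ι F :=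
  ContinuousLinearMap.ext fun ξ => mo_smul c (F := fun x : Γ × ι => F x.1) (fun x => hF _) ξ

theorem mp_mul' {F G : Γ → ℝ} {C D : ℝ} (hF : ∀ g, |F g| ≤ C) (hG : ∀ g, |G g| ≤ D) :
    (mp ι (fun g => F g * G g) : Ell2 (Γ × ι) →L[ℂ] Ell2 (Γ × ι)) = mp ι F * mp ι G := by
  refine ContinuousLinearMap.ext fun ξ => ?_
  ext x
  have hFG : ∀ x : Γ × ι, |F x.1 * G x.1| ≤ C * D := fun x => by
    rw [abs_mul]
    exact mul_le_mul (hF _) (hG _) (abs_nonneg _) ((abs_nonneg _).trans (hF x.1))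
  rw [mul_ap, mp, mp, mp, mo_apply (F := fun x : Γ × ι => F x.1 * G x.1) hFG,
    mo_apply (F := fun x : Γ × ι => F x.1) (fun x => hF _),
    mo_apply (F := fun x : Γ × ι => G x.1) (fun x => hG _)]
  push_cast
  ring

variable [Countable Γ] [Fintype ι]

/-- The row model over a probability space. -/
noncomputable def baseL (Γ ι : Type) [Group Γ] [Countable Γ] [Fintype ι] :
    Base Γ ι (Lp (Ell2 (Γ × ι)) 2 μ) where
  lx := lxt μ
  mp := mpt μ ι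
  sc := {a | ∃ S : Set X, MeasurableSet S ∧ a = ind μ _ S}
  ep := ept μ
  lx_mul := lxt_mul
  lx_one := lxt_one
  lx_adj := adjoint_lxt
  mp_one := by rw [mpt, mp_one', comp_one]
  mp_add := fun hF hG => by rw [mpt, mpt, mpt, mp_add' hF hG, comp_add]
  mp_smul := fun c F C hF => by rw [mpt, mpt, mp_smul' c hF, comp_smul]
  mp_mul := fun hF hG => by rw [mpt, mpt, mpt, mp_mul' hF hG, comp_mul]
  mp_adj := fun {F C} hF => by
    rw [mpt, comp_adjoint, mp, adjoint_mo (F := fun x : Γ × ι => F x.1) (fun x => hF _)]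
  lx_mp := fun {F C} hF s => by
    have h1 : (lx s : Ell2 (Γ × ι) →L[ℂ] Ell2 (Γ × ι)) * mp ι F =
        mp ι (fun g => F (s⁻¹ * g)) * lx s := ContinuousLinearMap.ext fun ξ => lx_mp hF s ξ
    rw [lxt, mpt, mpt, ← comp_mul, h1, comp_mul]
  sc_one := ⟨Set.univ, MeasurableSet.univ, ind_univ.symm⟩
  sc_adj := by
    rintro a ⟨S, hS, rfl⟩
    exact adjoint_ind hS
  sc_le := by
    rintro a ⟨S, hS, rfl⟩
    exact norm_ind_le hS
  sc_lx := by
    rintro a ⟨S, hS, rfl⟩ s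
    exact (lxt_ind s hS).symm
  sc_mp := by
    rintro a ⟨S, hS, rfl⟩ F C hF
    exact (ind_comp hS _).symm
  total := fun ξ h => total_row ξ fun s A i hA => h s _ ⟨A, hA, rfl⟩ i
  exch := fun {S T} hS hT {q C} hq => exch_row ((rat_iff μ).1 hS) ((rat_iff μ).1 hT) hq
  appr := fun {T} hT {ε} hε => by
    obtain ⟨Y, ⟨n, Z, u, h1, h2, rfl⟩, h3⟩ := exists_ap T hε
    exact ⟨n, Z, u, fun j => (rat_iff μ).2 (h1 j), fun j {F C} hF => h2 j hF, h3⟩

theorem ra_iff {T : Lp (Ell2 (Γ × ι)) 2 μ →L[ℂ] Lp (Ell2 (Γ × ι)) 2 μ} :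
    (baseL μ Γ ι).RA T ↔ RAt μ T := rat_iff μ

/-- Fields of operators of the right algebra are in the right algebra. -/
theorem ra_of_fld {T : Lp (Ell2 (Γ × ι)) 2 μ →L[ℂ] Lp (Ell2 (Γ × ι)) 2 μ}
    {A : X → Ell2 (Γ × ι) →L[ℂ] Ell2 (Γ × ι)} (hT : Fld T A) (hA : ∀ᵐ x ∂μ, RA (A x)) :
    (baseL μ Γ ι).RA T := by
  refine (ra_iff μ).2 ⟨fun s => ?_, fun S hS => hT.ind hS⟩
  refine (hT.mul (fld_comp _)).ext ((fld_comp _).mul hT) ?_
  filter_upwards [hA] with x hx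
  exact hx s

theorem inner_const (v w : Ell2 (Γ × ι)) :
    ⟪(Lp.constL 2 μ ℂ v : Lp (Ell2 (Γ × ι)) 2 μ), Lp.constL 2 μ ℂ w⟫_ℂ = ⟪v, w⟫_ℂ := by
  rw [L2.inner_def]
  have h1 : (fun x => ⟪(Lp.constL 2 μ ℂ v : Lp (Ell2 (Γ × ι)) 2 μ) x,
      (Lp.constL 2 μ ℂ w : Lp (Ell2 (Γ × ι)) 2 μ) x⟫_ℂ) =ᵐ[μ] fun _ => ⟪v, w⟫_ℂ := by
    filter_upwards [const_ae (μ := μ) v, const_ae (μ := μ) w] with x h1 h2
    rw [h1, h2]
  rw [integral_congr_ae h1]
  simp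

end base

section trep

variable {D Λ : Type} [Group D] [Group Λ] [Countable Λ] (d : CData D Λ) {Γ ι : Type} [Group Γ]
  [Countable Γ] [Fintype ι] {t : ℝ} {R : Λ → (Ell2 (Γ × ι) →L[ℂ] Ell2 (Γ × ι))}

theorem koop_kp (g : D) : Koop (baseL d.μ Γ ι) (kp d _ g) where
  left := by rw [adjoint_kp, kp_inv_mul]
  right := by rw [adjoint_kp, kp_mul_inv]
  lx := fun s => kp_comp d g _
  mp := fun hF => kp_comp d g _
  ep := fun i => kp_const d g _
  sc := by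
    rintro a ⟨S, hS, rfl⟩
    refine ⟨d.act g⁻¹ ⁻¹' S, (d.mp g⁻¹).measurable hS, ?_⟩
    rw [kp_ind d g hS, mul_assoc, adjoint_kp, kp_mul_inv, mul_one]
  sc' := by
    rintro a ⟨S, hS, rfl⟩
    refine ⟨d.act g⁻¹⁻¹ ⁻¹' S, (d.mp g⁻¹⁻¹).measurable hS, ?_⟩
    rw [adjoint_kp, kp_ind d g⁻¹ hS, mul_assoc, kp_inv_mul, mul_one]

theorem ra_xf (hR : ARep t R) (g : D) : (baseL d.μ Γ ι).RA (xf d R g) :=
  ra_of_fld _ (fld_xf d (fun v => hR.opNorm_le v) g) (Eventually.of_forall fun x => hR.ra _)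

/-- The induced representation. -/
theorem trep (hR : ARep t R) : TRep (baseL d.μ Γ ι) t (Ri d R) where
  nr := fun g => ⟨xf d R g, kp d _ g, ra_xf d hR g, koop_kp d g, rfl⟩
  mul := fun g h => ri_mul d (fun v => hR.opNorm_le v) hR.mul g h
  adj := fun g => adjoint_ri d (fun v => hR.opNorm_le v) hR.adj g
  one := by
    rw [ri_one d (fun v => hR.opNorm_le v)]
    exact ra_of_fld _ (fld_comp _) (Eventually.of_forall fun x => hR.ra _)
  pos := hR.pos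
  tr_one := by
    rw [← hR.tr_one, ri_one d (fun v => hR.opNorm_le v)]
    refine Finset.sum_congr rfl fun i _ => ?_
    change ⟪(ept d.μ i : Lp (Ell2 (Γ × ι)) 2 d.μ), (R 1).compLpL 2 d.μ (ept d.μ i)⟫_ℂ = _
    rw [ept, comp_const, inner_const]

end trep

end Vale.Agent.P092.H790
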