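import Vale.Agent.P092.H790.CTA
import Vale.Agent.P092.H103.Orb

/-!
P092 (helper790), team N, block [N-CNT]: (ORB) of the induced picture for an arbitrary locally
compact group `E`, an element `b` and a family `n : P → E` expanded by `b`.
-/

set_option linter.all false

open scoped InnerProductSpace ENNReal
open Set Filter Topology MeasureTheory ContinuousLinearMap

namespace Vale.Agent.P092.H790.CTA

open Vale.Agent.P092.H790 Vale.Agent.P092.H85 Vale.Agent.P092.H103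
open Vale.Agent.P092.RC (Cm TRN)

section exp

variable {E P : Type} [Group E] [TopologicalSpace E] [NormedAddCommGroup P] [MeasurableSpace P]

/-- the family `n` is expanded by conjugation with `b`, with the rate `ρ⁻¹` -/
def EXPG (μ : Measure P) (b : E) (n : P → E) (ρ : ℝ) : Prop :=
  ∀ C : Set E, IsCompact C → ∃ c : ℝ, ∀ (N : ℕ) (s₀ : P),
    μ ({s | b ^ N * n s * (n s₀)⁻¹ * (b ^ N)⁻¹ ∈ C} ∩ Metric.closedBall 0 1) ≤
      ENNReal.ofReal (c * ρ ^ N)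

end exp

section gen

variable {E : Type} [Group E] [TopologicalSpace E] [IsTopologicalGroup E] [LocallyCompactSpace E]
  [SecondCountableTopology E] [T2Space E] [MeasurableSpace E] [BorelSpace E]
  {Λ : Subgroup E} [DiscreteTopology Λ] [MeasurableSpace (E ⧸ Λ)] [BorelSpace (E ⧸ Λ)]
  {ν : Measure (E ⧸ Λ)} [IsProbabilityMeasure ν] (hν : ∀ g : E, ν.map (fun x => g • x) = ν)
  {K : Type} [NormedAddCommGroup K] [InnerProductSpace ℂ K] [CompleteSpace K]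
  {V : Λ →* (K →L[ℂ] K)} (hVa : ∀ v, adjoint (V v) = V v⁻¹) [Countable Λ]
  {P : Type} [NormedAddCommGroup P] [ProperSpace P] [MeasurableSpace P] [BorelSpace P]
  {μ : Measure P} [IsFiniteMeasureOnCompacts μ]

/-- (ORB) for the induced picture. -/
theorem orbG_of {Γ S : Type} [Group Γ] [Countable Γ] [Countable S]
    {W : Set (Lp K 2 ν →L[ℂ] Lp K 2 ν)}
    (hW : ∀ A : Set (E ⧸ Λ), MeasurableSet A → H790.ind ν K A ∈ W) {T : S → K →L[ℂ] K}
    (hWT : ∀ s, (T s).compLpL 2 ν ∈ W) {ω : K} (hω : ‖ω‖ ≤ 1)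
    {lam : Γ →* (Lp K 2 ν →L[ℂ] Lp K 2 ν)} {d : Γ → K} (hd : ∀ k, lam k (cst ν ω) = cst ν (d k))
    (hO : Orthonormal ℂ fun p : Λ × S => T p.2 (V p.1 ω))
    (hpar : ∀ y : K, ‖y‖ₑ ^ 2 ≤ ∑' (k : Γ) (s : S), ‖⟪d k, T s y⟫_ℂ‖ₑ ^ 2)
    (htr : ∀ T', Cm W T' → TRN lam (cst ν ω) (adjoint T') = TRN lam (cst ν ω) T')
    {b : E} {n : P → E} (hn : Measurable n) {ρ : ℝ} (hexp : EXPG μ b n ρ) :
    ORBG μ b n ρ (irep hν hVa) lam W (cst ν ω) := by
  intro g δ hδ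
  -- the total mass
  obtain ⟨v, hv⟩ : ∃ v : ℝ, v = (μ (Metric.closedBall (0 : P) 1)).toReal + 1 := ⟨_, rfl⟩
  have hμt : μ (Metric.closedBall (0 : P) 1) ≠ ∞ := (isCompact_closedBall (0 : P) 1).measure_ne_top
  have hv0 : 0 < v := by rw [hv]; positivity
  have hvm : μ (Metric.closedBall (0 : P) 1) ≤ ENNReal.ofReal v := by
    rw [hv]
    calc μ (Metric.closedBall (0 : P) 1) =
        ENNReal.ofReal (μ (Metric.closedBall (0 : P) 1)).toReal := (ENNReal.ofReal_toReal hμt).symm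
      _ ≤ _ := ENNReal.ofReal_le_ofReal (by linarith)
  obtain ⟨X₀, hX₀c, hX₀m, hX₀⟩ := exists_compact_large Λ ν (div_pos hδ hv0)
  obtain ⟨C₀, hC₀, hsC₀⟩ := sec_bdd Λ X₀ hX₀c
  have hCC : IsCompact ((fun p : E × E => p.1 * p.2⁻¹) '' (C₀ ×ˢ C₀)) :=
    (hC₀.prod hC₀).image (by fun_prop)
  have hCg : IsCompact ((fun x : E => g⁻¹ * x * g) ''
      ((fun p : E × E => p.1 * p.2⁻¹) '' (C₀ ×ˢ C₀))) := hCC.image (by fun_prop)
  obtain ⟨c, hc⟩ := hexp _ hCg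
  refine ⟨c, fun N T' hT' hT'1 => ?_⟩
  have hTd : Dcp T' := fun A hA => hT' _ (hW A hA)
  obtain ⟨μ', hμ'⟩ : ∃ μ' : Measure P, μ' = μ.restrict (Metric.closedBall (0 : P) 1) := ⟨_, rfl⟩
  haveI : IsFiniteMeasure μ' := by
    rw [hμ']
    exact ⟨by rw [Measure.restrict_apply_univ]; exact hμt.lt_top⟩
  have hμu : μ' univ ≤ ENNReal.ofReal v := by
    rw [hμ', Measure.restrict_apply_univ]
    exact hvm
  obtain ⟨φ, hφ⟩ : ∃ φ : P → E, φ = fun s => g * b ^ N * n s * g⁻¹ := ⟨_, rfl⟩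
  have hφm : Measurable φ := by
    rw [hφ]
    exact (hn.const_mul (g * b ^ N)).mul_const g⁻¹
  have hm : ∀ (x : E ⧸ Λ) (v : Λ), μ' {s | (coc Λ (φ s) x)⁻¹ = v ∧
      φ s • x ∈ X₀} ≤ ENNReal.ofReal (c * ρ ^ N) := by
    refine mult_param hsC₀ fun s₀ => ?_
    rw [hμ', Measure.restrict_apply' Metric.isClosed_closedBall.measurableSet]
    refine (measure_mono ?_).trans (hc N s₀)
    rintro s ⟨hs, hs'⟩
    refine ⟨⟨φ s * (φ s₀)⁻¹, hs, ?_⟩, hs'⟩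
    change g⁻¹ * (φ s * (φ s₀)⁻¹) * g = b ^ N * n s * (n s₀)⁻¹ * (b ^ N)⁻¹
    rw [hφ]
    group
  have h1 := main_param hν hVa hφm hTd hω hX₀m hm
  have h2 := hs_le (V := V) hO hpar hTd (fun s => hT' _ (hWT s))
  have h3 : ∑' k : Γ, ‖adjoint T' (cst ν (d k))‖ₑ ^ 2 = TRN lam (cst ν ω) T' := by
    rw [← htr T' hT', TRN]
    simp_rw [hd]
  rw [h3] at h2
  have h4 : ‖T'‖ₑ ^ 2 * ν X₀ᶜ * μ' univ ≤ ENNReal.ofReal δ := by
    have a1 : ‖T'‖ₑ ≤ 1 := by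
      rw [← ofReal_norm, ← ENNReal.ofReal_one]
      exact ENNReal.ofReal_le_ofReal hT'1
    calc ‖T'‖ₑ ^ 2 * ν X₀ᶜ * μ' univ ≤ 1 ^ 2 * ENNReal.ofReal (δ / v) * ENNReal.ofReal v := by
          gcongr
          rw [← ofReal_measureReal]
          exact ENNReal.ofReal_le_ofReal hX₀
      _ = ENNReal.ofReal δ := by
          rw [one_pow, one_mul, ← ENNReal.ofReal_mul (by positivity)]
          congr 1
          field_simp
  have h5 : ∫⁻ s in Metric.closedBall (0 : P) 1,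
      ‖T' (irep hν hVa (g * b ^ N * n s * g⁻¹)⁻¹ (cst ν ω))‖ₑ ^ 2 ∂μ =
      ∫⁻ s, ‖T' (iro hν V (φ s)⁻¹ (cst ν ω))‖ₑ ^ 2 ∂μ' := by
    rw [hμ', hφ]
    rfl
  rw [h5]
  refine h1.trans (add_le_add ?_ h4)
  gcongr

end gen

end Vale.Agent.P092.H790.CTA
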