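import Vale.Agent.P092.H790.CT

/-!
P092 (helper790), team N, block [N-CNT]: the counting principle for an arbitrary topological group
`G`, an element `b` of `G` and a family `n : V → G` which is expanded by it.
-/

set_option linter.all false

open scoped InnerProductSpace ENNReal
open Filter Topology ContinuousLinearMap MeasureTheory TopologicalSpace

namespace Vale.Agent.P092.H790.CTA

open Vale.Agent.P092.SD (Ms UC)
open Vale.Agent.P092.RC (Cm TRN Pic)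
open Vale.Agent.P092.H790.CT (PicL mulA oneA ms_inf_app ms_compl_app ms_idem ms_contr ms_norm
  ms_mono ms_split ms_lam pi_norm lam_norm tails all_vec trn_mask cyc_top norm_scale commute_smul)

section defs

variable {G Γ K V : Type} [Group G] [Group Γ] [NormedAddCommGroup K] [InnerProductSpace ℂ K]
  [CompleteSpace K] [NormedAddCommGroup V] [MeasurableSpace V]

/-- the orbit of `Ω` along the expanded family `n` is spread out; `ρ < 1` is the contraction -/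
def ORBG (μ : Measure V) (b : G) (n : V → G) (ρ : ℝ) (π : G →* (K →L[ℂ] K))
    (lam : Γ →* (K →L[ℂ] K)) (W : Set (K →L[ℂ] K)) (Ω : K) : Prop :=
  ∀ g : G, ∀ δ > 0, ∃ C : ℝ, ∀ N : ℕ, ∀ T, Cm W T → ‖T‖ ≤ 1 →
    ∫⁻ s in Metric.closedBall (0 : V) 1, ‖T (π (g * b ^ N * n s * g⁻¹)⁻¹ Ω)‖ₑ ^ 2 ∂μ ≤
      ENNReal.ofReal (C * ρ ^ N) * TRN lam Ω T + ENNReal.ofReal δ

/-- the masses of the double exponential tails of a size function -/
def SIZEG (b : G) (π : G →* (K →L[ℂ] K)) (Ω : K) (m : Set Γ → (K →L[ℂ] K)) (sz : Γ → ℝ) : Prop :=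
  ∀ g : G, ∀ η > 0, ∀ ε > 0, ∀ᶠ N : ℕ in atTop,
    ‖m {γ | Real.exp (Real.exp (η * N)) < sz γ} (π (g * b ^ N * g⁻¹)⁻¹ Ω)‖ ≤ ε

end defs

section main

variable {G Γ K V : Type} [Group G] [Group Γ] [NormedAddCommGroup K] [InnerProductSpace ℂ K]
  [CompleteSpace K] {π : G →* (K →L[ℂ] K)} {lam : Γ →* (K →L[ℂ] K)} {W : Set (K →L[ℂ] K)} {Ω : K}
  {m : Set Γ → (K →L[ℂ] K)}

theorem conj_pow' (g b : G) (N : ℕ) : g * b ^ N * g⁻¹ = (g * b * g⁻¹) ^ N := by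
  rw [conj_pow]

theorem comm_inv {B : K →L[ℂ] K} {g : G} (h : Commute B (π g)) : Commute B (π g⁻¹) := by
  have h1 : π g * π g⁻¹ = 1 := by rw [← map_mul, mul_inv_cancel, map_one]
  have h2 : π g⁻¹ * π g = 1 := by rw [← map_mul, inv_mul_cancel, map_one]
  change B * π g⁻¹ = π g⁻¹ * B
  calc B * π g⁻¹ = (π g⁻¹ * π g) * (B * π g⁻¹) := by rw [h2, one_mul]
    _ = π g⁻¹ * (π g * B) * π g⁻¹ := by simp only [mul_assoc]
    _ = π g⁻¹ * (B * π g) * π g⁻¹ := by rw [h.eq]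
    _ = π g⁻¹ * B * (π g * π g⁻¹) := by simp only [mul_assoc]
    _ = π g⁻¹ * B := by rw [h1, mul_one]

theorem comm_pow {B : K →L[ℂ] K} {g : G} (h : Commute B (π g)) (N : ℕ) :
    Commute B (π (g ^ N)) := by
  rw [map_pow]
  exact h.pow_right N

variable [TopologicalSpace G] [IsTopologicalGroup G] [NormedAddCommGroup V] [ProperSpace V]
  [MeasurableSpace V] [BorelSpace V] {μ : Measure V} [IsFiniteMeasureOnCompacts μ]
  [μ.IsOpenPosMeasure] {b : G} {n : V → G} {ρ : ℝ}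

/-- **Counting at the vector `Ω`**, pointwise form: `δ` depends only on `g` and `ε`. -/
theorem count_pt (hP : PicL π lam W Ω) (hM : Ms lam W Ω m) (hUC : UC π W Ω m)
    (hρ : 0 ≤ ρ) (hnc : Tendsto n (𝓝 0) (𝓝 1)) (hORB : ORBG μ b n ρ π lam W Ω) (g : G) {ε : ℝ} (hε : 0 < ε) :
    ∃ δ > 0, ∀ B : K →L[ℂ] K, Cm W B → ‖B‖ ≤ 1 → Commute B (π (g * b * g⁻¹)) →
      (∀ s, Commute B (π (g * n s * g⁻¹))) → ∀ (N : ℕ) (D : Set Γ),
      ENNReal.ofReal (ρ ^ N) * TRN lam Ω (m D * B) ≤ ENNReal.ofReal δ →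
        ‖m D (B (π (g * b ^ N * g⁻¹)⁻¹ Ω))‖ ≤ ε := by
  -- small group elements
  have h0 : Tendsto (fun s : V => (g * n s * g⁻¹)⁻¹) (𝓝 0) (𝓝 1) := by
    have hcont : Continuous fun x : G => (g * x * g⁻¹)⁻¹ := by fun_prop
    have h1 := (hcont.tendsto 1).comp hnc
    rw [mul_one, mul_inv_cancel, inv_one] at h1
    exact h1
  have h1 := h0.eventually (hUC (ε / 2) (half_pos hε))
  obtain ⟨r₀, hr₀, hr₀'⟩ := Metric.eventually_nhds_iff_ball.1 h1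
  obtain ⟨r, hrdef⟩ : ∃ r : ℝ, r = min (r₀ / 2) 1 := ⟨_, rfl⟩
  have hr : 0 < r := by rw [hrdef]; positivity
  have hr1 : r ≤ 1 := by rw [hrdef]; exact min_le_right _ _
  have hrr₀ : r < r₀ := by
    rw [hrdef]
    exact (min_le_left _ _).trans_lt (half_lt_self hr₀)
  have hμ0 : μ (Metric.closedBall (0 : V) r) ≠ 0 := (Metric.measure_closedBall_pos μ 0 hr).ne'
  have hμt : μ (Metric.closedBall (0 : V) r) ≠ ∞ := (isCompact_closedBall (0 : V) r).measure_ne_top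
  obtain ⟨v, hv⟩ : ∃ v : ℝ, v = (μ (Metric.closedBall (0 : V) r)).toReal := ⟨_, rfl⟩
  have hv0 : 0 < v := by rw [hv]; exact ENNReal.toReal_pos hμ0 hμt
  have hvm : μ (Metric.closedBall (0 : V) r) = ENNReal.ofReal v := by
    rw [hv, ENNReal.ofReal_toReal hμt]
  obtain ⟨q', hq'⟩ : ∃ q' : ℝ, q' = v * (ε / 2) ^ 2 / 4 := ⟨_, rfl⟩
  have hq0 : 0 < q' := by rw [hq']; positivity
  obtain ⟨C, hC⟩ := hORB g q' hq0
  have hC1 : (0 : ℝ) < |C| + 1 := by positivity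
  refine ⟨q' / (|C| + 1), div_pos hq0 hC1, fun B hB hB1 hb hn N D hN => ?_⟩
  obtain ⟨h, hh⟩ : ∃ h : G, h = (g * b ^ N * g⁻¹)⁻¹ := ⟨_, rfl⟩
  rw [← hh]
  by_contra hcon
  rw [not_le] at hcon
  have hTcm : Cm W (m D * B) := fun w' hw' => by
    rw [mul_assoc, hB w' hw', ← mul_assoc, hM.cm _ w' hw', mul_assoc]
  have hT1 : ‖m D * B‖ ≤ 1 := by
    refine (norm_mul_le _ _).trans ?_
    calc ‖m D‖ * ‖B‖ ≤ 1 * 1 :=
          mul_le_mul (ms_norm hM _) hB1 (norm_nonneg _) zero_le_one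
      _ = 1 := one_mul 1
  have hup := hC N (m D * B) hTcm hT1
  -- lower bound
  have hlow : ∀ s ∈ Metric.closedBall (0 : V) r, ENNReal.ofReal ((ε / 2) ^ 2) ≤
      ‖(m D * B) (π (g * b ^ N * n s * g⁻¹)⁻¹ Ω)‖ₑ ^ 2 := by
    intro s hs
    obtain ⟨g', hg'⟩ : ∃ g' : G, g' = (g * n s * g⁻¹)⁻¹ := ⟨_, rfl⟩
    have e1 : (g * b ^ N * n s * g⁻¹)⁻¹ = g' * h := by
      rw [hg', hh]
      group
    have hBg : Commute B (π g') := by
      rw [hg']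
      exact comm_inv (hn s)
    have e2 : (m D * B) (π (g * b ^ N * n s * g⁻¹)⁻¹ Ω) =
        m D (π g' (B (π h Ω))) := by
      rw [e1, map_mul, mulA, mulA]
      congr 1
      exact congrArg (fun A : K →L[ℂ] K => A (π h Ω)) hBg.eq
    have hs' : s ∈ Metric.ball (0 : V) r₀ := Metric.closedBall_subset_ball hrr₀ hs
    have h2 := hr₀' s hs' D B hB hB1 h
    rw [← hg'] at h2
    have h3 : (m D * π g' - π g' * m D) (B (π h Ω)) =
        m D (π g' (B (π h Ω))) - π g' (m D (B (π h Ω))) := rfl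
    rw [h3] at h2
    have h4 : ‖π g' (m D (B (π h Ω)))‖ = ‖m D (B (π h Ω))‖ := pi_norm hP _ _
    have h5 := norm_sub_norm_le (π g' (m D (B (π h Ω)))) (m D (π g' (B (π h Ω))))
    rw [norm_sub_rev, h4] at h5
    have h6 : ε / 2 ≤ ‖m D (π g' (B (π h Ω)))‖ := by linarith
    rw [e2, ← ofReal_norm, ← ENNReal.ofReal_pow (norm_nonneg _)]
    exact ENNReal.ofReal_le_ofReal (pow_le_pow_left₀ (by positivity) h6 2)
  have hlow2 : ENNReal.ofReal ((ε / 2) ^ 2) * ENNReal.ofReal v ≤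
      ∫⁻ s in Metric.closedBall (0 : V) 1,
        ‖(m D * B) (π (g * b ^ N * n s * g⁻¹)⁻¹ Ω)‖ₑ ^ 2 ∂μ := by
    rw [← hvm, ← setLIntegral_const]
    refine (setLIntegral_mono' Metric.isClosed_closedBall.measurableSet hlow).trans ?_
    exact lintegral_mono_set (Metric.closedBall_subset_closedBall hr1)
  have hup2 : ENNReal.ofReal (C * ρ ^ N) * TRN lam Ω (m D * B) ≤
      ENNReal.ofReal q' := by
    have e1 : ENNReal.ofReal (C * ρ ^ N) ≤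
        ENNReal.ofReal |C| * ENNReal.ofReal (ρ ^ N) := by
      rw [← ENNReal.ofReal_mul (abs_nonneg C)]
      refine ENNReal.ofReal_le_ofReal ?_
      gcongr
      exact le_abs_self C
    calc ENNReal.ofReal (C * ρ ^ N) * TRN lam Ω (m D * B)
        ≤ ENNReal.ofReal |C| * ENNReal.ofReal (ρ ^ N) *
            TRN lam Ω (m D * B) := by gcongr
      _ = ENNReal.ofReal |C| * (ENNReal.ofReal (ρ ^ N) *
            TRN lam Ω (m D * B)) := mul_assoc _ _ _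
      _ ≤ ENNReal.ofReal |C| * ENNReal.ofReal (q' / (|C| + 1)) := by gcongr
      _ = ENNReal.ofReal (|C| * (q' / (|C| + 1))) := (ENNReal.ofReal_mul (abs_nonneg C)).symm
      _ ≤ ENNReal.ofReal q' := by
          refine ENNReal.ofReal_le_ofReal ?_
          calc |C| * (q' / (|C| + 1)) ≤ (|C| + 1) * (q' / (|C| + 1)) := by
                gcongr
                linarith
            _ = q' := by field_simp
  have hfin := hlow2.trans (hup.trans (add_le_add_left hup2 _))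
  rw [← ENNReal.ofReal_mul (by positivity), ← ENNReal.ofReal_add hq0.le hq0.le] at hfin
  have h9 := (ENNReal.ofReal_le_ofReal_iff (by positivity)).1 hfin
  rw [hq'] at h9
  nlinarith [mul_pos hv0 (pow_pos (half_pos hε) 2)]

/-- the counting sum at time `N` over the set `D` -/
noncomputable def csm (ρ : ℝ) (lam : Γ →* (K →L[ℂ] K)) (Ω : K) (B : K →L[ℂ] K)
    (D : Set Γ) (N : ℕ) : ℝ≥0∞ :=
  ENNReal.ofReal (ρ ^ N) * ∑' γ : D, ‖adjoint B (lam γ Ω)‖ₑ ^ 2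

theorem csm_mono {B : K →L[ℂ] K} {D D' : Set Γ} (h : D ⊆ D') (N : ℕ) :
    csm ρ lam Ω B D N ≤ csm ρ lam Ω B D' N := by
  unfold csm
  refine mul_le_mul_right ?_ _
  exact ENNReal.tsum_mono_subtype (fun γ => ‖adjoint B (lam γ Ω)‖ₑ ^ 2) h

theorem csm_smul (z : ℂ) (B : K →L[ℂ] K) (D : Set Γ) (N : ℕ) :
    csm ρ lam Ω (z • B) D N = ‖z‖ₑ ^ 2 * csm ρ lam Ω B D N := by
  unfold csm
  rw [mul_left_comm]
  congr 1
  rw [← ENNReal.tsum_mul_left]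
  refine tsum_congr fun γ => ?_
  have e2 : adjoint (z • B : K →L[ℂ] K) (lam γ Ω) =
      (starRingEnd ℂ z) • adjoint B (lam γ Ω) := by
    have e3 : adjoint (z • B : K →L[ℂ] K) = (starRingEnd ℂ z) • adjoint B := by
      exact map_smulₛₗ (adjoint : (K →L[ℂ] K) ≃ₗᵢ⋆[ℂ] (K →L[ℂ] K)) z B
    rw [e3]
    rfl
  rw [e2, enorm_smul, mul_pow]
  congr 2
  rw [← ofReal_norm_eq_enorm, ← ofReal_norm_eq_enorm, RCLike.norm_conj]

theorem csm_trans (hP : PicL π lam W Ω) (γ : Γ) (B : K →L[ℂ] K) (D : Set Γ) (N : ℕ) :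
    csm ρ lam Ω (lam γ⁻¹ * B * lam γ) {y | γ * y ∈ D} N = csm ρ lam Ω B D N := by
  unfold csm
  congr 1
  have e1 : ∀ y : Γ, ‖adjoint (lam γ⁻¹ * B * lam γ) (lam y Ω)‖ₑ =
      ‖adjoint B (lam (γ * y) Ω)‖ₑ := by
    intro y
    have e2 : adjoint (lam γ⁻¹ * B * lam γ) = lam γ⁻¹ * adjoint B * lam γ := by
      rw [mul_def, mul_def, adjoint_comp, adjoint_comp, hP.adjL, hP.adjL, inv_inv]
      rfl
    rw [e2, mulA, mulA, ← mulA (lam γ), ← map_mul, ← ofReal_norm_eq_enorm,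
      ← ofReal_norm_eq_enorm, lam_norm hP]
  let e : {y | γ * y ∈ D} ≃ D :=
    { toFun := fun y => ⟨γ * y.1, y.2⟩
      invFun := fun x => ⟨γ⁻¹ * x.1, by
        change γ * (γ⁻¹ * x.1) ∈ D
        rw [mul_inv_cancel_left]
        exact x.2⟩
      left_inv := fun y => Subtype.ext (inv_mul_cancel_left γ y.1)
      right_inv := fun x => Subtype.ext (mul_inv_cancel_left γ x.1) }
  rw [← e.tsum_eq (fun x : D => ‖adjoint B (lam x Ω)‖ₑ ^ 2)]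
  refine tsum_congr fun y => ?_
  rw [e1]
  rfl

section gen

variable {I : Type} [Nonempty I] {l : Filter ℕ} {Sz : I → ℕ → Set Γ}

/-- The counting principle at `Ω`, norm at most one. -/
theorem gen_om1 (hP : PicL π lam W Ω) (hM : Ms lam W Ω m) (hUC : UC π W Ω m)
    (hρ : 0 ≤ ρ) (hnc : Tendsto n (𝓝 0) (𝓝 1)) (hORB : ORBG μ b n ρ π lam W Ω) {g : G}
    (hdir : ∀ i i', ∃ j, ∀ᶠ N in l, Sz j N ⊆ Sz i N ∧ Sz j N ⊆ Sz i' N)
    (htr : ∀ γ i, ∃ j, ∀ᶠ N in l, {y | γ * y ∈ Sz j N} ⊆ Sz i N)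
    (h0 : ∀ ε > 0, ∃ i, ∀ᶠ N in l, ‖m (Sz i N) (π (g * b ^ N * g⁻¹)⁻¹ Ω)‖ ≤ ε)
    {B : K →L[ℂ] K} (hB : Cm W B)
    (hB1 : ‖B‖ ≤ 1)
    (hb : Commute B (π (g * b * g⁻¹))) (hn : ∀ s, Commute B (π (g * n s * g⁻¹)))
    {A : Set Γ} (hc : ∀ i, Tendsto (fun N => csm ρ lam Ω B (A ∩ (Sz i N)ᶜ) N) l (𝓝 0)) :
    Tendsto (fun N : ℕ => m A (B (π (g * b ^ N * g⁻¹)⁻¹ Ω))) l (𝓝 0) := by
  rw [NormedAddCommGroup.tendsto_nhds_zero]
  intro ε hε
  obtain ⟨i, hsz⟩ := tails hP hM (fun N => (g * b ^ N * g⁻¹)⁻¹) Sz inferInstance hdir htr h0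
    (B Ω) (ε / 4) (by positivity)
  obtain ⟨δ, hδ, hcount⟩ := count_pt (μ := μ) hP hM hUC hρ hnc hORB g (ε := ε / 4) (by positivity)
  have h1 := (ENNReal.tendsto_nhds_zero.1 (hc i)) (ENNReal.ofReal δ) (ENNReal.ofReal_pos.2 hδ)
  filter_upwards [hsz, h1] with N h2 h3
  have h4 := hcount B hB hB1 hb hn N (A ∩ (Sz i N)ᶜ)
    (by rw [trn_mask hP hM hB]; exact h3)
  have hBh : Commute B (π (g * b ^ N * g⁻¹)⁻¹) := by
    rw [conj_pow']
    exact comm_inv (comm_pow hb _)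
  have eBh : π (g * b ^ N * g⁻¹)⁻¹ (B Ω) = B (π (g * b ^ N * g⁻¹)⁻¹ Ω) :=
    (congrArg (fun A : K →L[ℂ] K => A Ω) hBh.eq).symm
  rw [eBh] at h2
  rw [ms_split hM A (Sz i N)]
  refine (norm_add_le _ _).trans_lt ?_
  have h5 := (ms_mono hM (Set.inter_subset_right : A ∩ Sz i N ⊆ Sz i N)
    (B (π (g * b ^ N * g⁻¹)⁻¹ Ω))).trans h2
  linarith

/-- The counting principle at `Ω`. -/
theorem gen_om (hP : PicL π lam W Ω) (hM : Ms lam W Ω m) (hUC : UC π W Ω m)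
    (hρ : 0 ≤ ρ) (hnc : Tendsto n (𝓝 0) (𝓝 1)) (hORB : ORBG μ b n ρ π lam W Ω) {g : G}
    (hdir : ∀ i i', ∃ j, ∀ᶠ N in l, Sz j N ⊆ Sz i N ∧ Sz j N ⊆ Sz i' N)
    (htr : ∀ γ i, ∃ j, ∀ᶠ N in l, {y | γ * y ∈ Sz j N} ⊆ Sz i N)
    (h0 : ∀ ε > 0, ∃ i, ∀ᶠ N in l, ‖m (Sz i N) (π (g * b ^ N * g⁻¹)⁻¹ Ω)‖ ≤ ε)
    {B : K →L[ℂ] K} (hB : Cm W B)
    (hb : Commute B (π (g * b * g⁻¹))) (hn : ∀ s, Commute B (π (g * n s * g⁻¹)))
    {A : Set Γ} (hc : ∀ i, Tendsto (fun N => csm ρ lam Ω B (A ∩ (Sz i N)ᶜ) N) l (𝓝 0)) :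
    Tendsto (fun N : ℕ => m A (B (π (g * b ^ N * g⁻¹)⁻¹ Ω))) l (𝓝 0) := by
  obtain ⟨z, hz⟩ : ∃ z : ℂ, z = ((‖B‖ + 1 : ℝ) : ℂ)⁻¹ := ⟨_, rfl⟩
  have h1 : (0 : ℝ) < ‖B‖ + 1 := by positivity
  have hz0 : z ≠ 0 := by
    rw [hz]
    exact inv_ne_zero (by exact_mod_cast h1.ne')
  have hB' : Cm W (z • B) := fun w' hw' => by
    rw [smul_mul_assoc, hB w' hw', mul_smul_comm]
  have hc' : ∀ i, Tendsto (fun N => csm ρ lam Ω (z • B) (A ∩ (Sz i N)ᶜ) N) l (𝓝 0) := by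
    intro i
    simp_rw [csm_smul]
    have hzt : ‖z‖ₑ ^ 2 ≠ ∞ := ENNReal.pow_ne_top enorm_ne_top
    have h2 : Tendsto (fun N => ‖z‖ₑ ^ 2 * csm ρ lam Ω B (A ∩ (Sz i N)ᶜ) N) l
        (𝓝 (‖z‖ₑ ^ 2 * 0)) := ENNReal.Tendsto.const_mul (hc i) (Or.inr hzt)
    rwa [mul_zero] at h2
  have h3 := gen_om1 (μ := μ) hP hM hUC hρ hnc hORB hdir htr h0 hB' (by rw [hz]; exact norm_scale B)
    (commute_smul z hb) (fun s => commute_smul z (hn s)) hc'
  have h4 := h3.const_smul z⁻¹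
  rw [smul_zero] at h4
  refine h4.congr fun N => ?_
  have e5 : (z • B) (π (g * b ^ N * g⁻¹)⁻¹ Ω) =
      z • B (π (g * b ^ N * g⁻¹)⁻¹ Ω) := rfl
  rw [e5, map_smul, smul_smul, inv_mul_cancel₀ hz0, one_smul]

/-- **The counting principle**, general form: any filter of times, any family of tail sets. -/
theorem cnt_gen (hP : PicL π lam W Ω) (hM : Ms lam W Ω m) (hUC : UC π W Ω m)
    (hρ : 0 ≤ ρ) (hnc : Tendsto n (𝓝 0) (𝓝 1)) (hORB : ORBG μ b n ρ π lam W Ω) {g : G}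
    (hdir : ∀ i i', ∃ j, ∀ᶠ N in l, Sz j N ⊆ Sz i N ∧ Sz j N ⊆ Sz i' N)
    (htr : ∀ γ i, ∃ j, ∀ᶠ N in l, {y | γ * y ∈ Sz j N} ⊆ Sz i N)
    (h0 : ∀ ε > 0, ∃ i, ∀ᶠ N in l, ‖m (Sz i N) (π (g * b ^ N * g⁻¹)⁻¹ Ω)‖ ≤ ε)
    {B : K →L[ℂ] K} (hB : Cm W B)
    (hb : Commute B (π (g * b * g⁻¹))) (hn : ∀ s, Commute B (π (g * n s * g⁻¹)))
    {A : Set Γ} (hc : ∀ i, Tendsto (fun N => csm ρ lam Ω B (A ∩ (Sz i N)ᶜ) N) l (𝓝 0)) (ζ : K) :
    Tendsto (fun N : ℕ => m A (B (π (g * b ^ N * g⁻¹)⁻¹ ζ))) l (𝓝 0) := by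
  refine all_vec hP hM (fun N => (g * b ^ N * g⁻¹)⁻¹) (T := fun _ => m A * B)
    (fun _ w' hw' => by rw [mul_assoc, hB w' hw', ← mul_assoc, hM.cm _ w' hw', mul_assoc])
    (C := ‖m A * B‖) (fun _ => le_rfl) ?_ ζ
  intro γ
  -- the translated operator
  have hl1 : lam γ * lam γ⁻¹ = 1 := by rw [← map_mul, mul_inv_cancel, map_one]
  have hl2 : lam γ⁻¹ * lam γ = 1 := by rw [← map_mul, inv_mul_cancel, map_one]
  obtain ⟨B', hB'⟩ : ∃ B', B' = lam γ⁻¹ * B * lam γ := ⟨_, rfl⟩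
  have hcm : Cm W B' := fun w' hw' => by
    rw [hB']
    calc lam γ⁻¹ * B * lam γ * w' = lam γ⁻¹ * B * (lam γ * w') := by simp only [mul_assoc]
      _ = lam γ⁻¹ * B * (w' * lam γ) := by rw [hP.WL w' hw']
      _ = lam γ⁻¹ * (B * w') * lam γ := by simp only [mul_assoc]
      _ = lam γ⁻¹ * (w' * B) * lam γ := by rw [hB w' hw']
      _ = (lam γ⁻¹ * w') * (B * lam γ) := by simp only [mul_assoc]
      _ = (w' * lam γ⁻¹) * (B * lam γ) := by rw [hP.WL w' hw']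
      _ = w' * (lam γ⁻¹ * B * lam γ) := by simp only [mul_assoc]
  have hcom : ∀ h : G, Commute B (π h) → Commute B' (π h) := by
    intro h hh
    rw [hB']
    have h1 : Commute (lam γ⁻¹) (π h) := (hP.comm h γ⁻¹).symm
    have h2 : Commute (lam γ) (π h) := (hP.comm h γ).symm
    exact (h1.mul_left hh).mul_left h2
  obtain ⟨A', hA'⟩ : ∃ A' : Set Γ, A' = {y | γ * y ∈ A} := ⟨_, rfl⟩
  have hc' : ∀ i, Tendsto (fun N => csm ρ lam Ω B' (A' ∩ (Sz i N)ᶜ) N) l (𝓝 0) := by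
    intro i
    obtain ⟨j, hj⟩ := htr γ i
    refine tendsto_of_tendsto_of_tendsto_of_le_of_le' tendsto_const_nhds (hc j)
      (Eventually.of_forall fun N => zero_le) ?_
    filter_upwards [hj] with N hN
    rw [← csm_trans hP γ B (A ∩ (Sz j N)ᶜ) N, hB']
    refine csm_mono ?_ N
    intro y hy
    rw [hA'] at hy
    exact ⟨hy.1, fun hy2 => hy.2 (hN hy2)⟩
  have h1 := gen_om (μ := μ) hP hM hUC hρ hnc hORB hdir htr h0 hcm (hcom _ hb)
    (fun s => hcom _ (hn s)) hc'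
  have h2 := ((lam γ).continuous.tendsto 0).comp h1
  rw [map_zero] at h2
  refine h2.congr fun N => ?_
  change lam γ (m A' (B' (π (g * b ^ N * g⁻¹)⁻¹ Ω))) =
    (m A * B) (π (g * b ^ N * g⁻¹)⁻¹ (lam γ Ω))
  have e1 : π (g * b ^ N * g⁻¹)⁻¹ (lam γ Ω) =
      lam γ (π (g * b ^ N * g⁻¹)⁻¹ Ω) :=
    congrArg (fun A : K →L[ℂ] K => A Ω) (hP.comm _ γ)
  have e2 : B * lam γ = lam γ * B' := by
    rw [hB', ← mul_assoc, ← mul_assoc, hl1, one_mul]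
  rw [e1, mulA, ← mulA B, e2, mulA, ms_lam hM, ← hA']

end gen

end main

section sizes

variable {G Γ K V : Type} [Group G] [Group Γ] [NormedAddCommGroup K] [InnerProductSpace ℂ K]
  [CompleteSpace K] {π : G →* (K →L[ℂ] K)} {lam : Γ →* (K →L[ℂ] K)} {W : Set (K →L[ℂ] K)} {Ω : K}
  {m : Set Γ → (K →L[ℂ] K)}
  [TopologicalSpace G] [IsTopologicalGroup G] [NormedAddCommGroup V] [ProperSpace V]
  [MeasurableSpace V] [BorelSpace V] {μ : Measure V} [IsFiniteMeasureOnCompacts μ]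
  [μ.IsOpenPosMeasure] {b : G} {n : V → G} {ρ : ℝ} {sz : Γ → ℝ}

/-- **The counting principle with `SIZE`**: `A` any subset of `Γ`; the count is needed only up to
the size `exp (exp (η N))` at time `N`, for one `η > 0`. -/
theorem cnt_size (hP : PicL π lam W Ω) (hM : Ms lam W Ω m) (hUC : UC π W Ω m)
    (hρ : 0 ≤ ρ) (hnc : Tendsto n (𝓝 0) (𝓝 1)) (hORB : ORBG μ b n ρ π lam W Ω)
    (hsz : ∀ γ, ∃ d : ℝ, 1 ≤ d ∧ ∀ y, sz (γ * y) ≤ d * sz y)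
    (hS : SIZEG b π Ω m sz) {g : G} {B : K →L[ℂ] K} (hB : Cm W B)
    (hb : Commute B (π (g * b * g⁻¹))) (hn : ∀ s, Commute B (π (g * n s * g⁻¹)))
    {A : Set Γ} {η : ℝ} (hη : 0 < η)
    (hc : Tendsto (fun N : ℕ => csm ρ lam Ω B
      {γ | γ ∈ A ∧ sz γ ≤ Real.exp (Real.exp (η * N))} N) atTop (𝓝 0)) (ζ : K) :
    Tendsto (fun N : ℕ => m A (B (π (g * b ^ N * g⁻¹)⁻¹ ζ))) atTop (𝓝 0) := by
  haveI : Nonempty {i : ℝ // 0 < i ∧ i < η} := ⟨⟨η / 2, half_pos hη, half_lt_self hη⟩⟩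
  refine cnt_gen (μ := μ) hP hM hUC hρ hnc hORB (I := {i : ℝ // 0 < i ∧ i < η})
    (Sz := fun i N => {γ | Real.exp (Real.exp (i.1 * N)) < sz γ}) ?_ ?_ ?_ hB hb hn ?_ ζ
  · rintro ⟨i, hi, hi'⟩ ⟨i', hj, hj'⟩
    refine ⟨⟨max i i', lt_max_of_lt_left hi, max_lt hi' hj'⟩, Eventually.of_forall fun N =>
      ⟨fun γ hγ => ?_, fun γ hγ => ?_⟩⟩
    · refine lt_of_le_of_lt ?_ (show Real.exp (Real.exp (max i i' * N)) < sz γ from hγ)
      refine Real.exp_le_exp.2 (Real.exp_le_exp.2 ?_)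
      exact mul_le_mul_of_nonneg_right (le_max_left _ _) (Nat.cast_nonneg N)
    · refine lt_of_le_of_lt ?_ (show Real.exp (Real.exp (max i i' * N)) < sz γ from hγ)
      refine Real.exp_le_exp.2 (Real.exp_le_exp.2 ?_)
      exact mul_le_mul_of_nonneg_right (le_max_right _ _) (Nat.cast_nonneg N)
  · rintro γ ⟨i, hi, hi'⟩
    obtain ⟨d, hd, h1⟩ := hsz γ
    have hd0 : 0 < d := by linarith
    obtain ⟨j, hij, hjη⟩ := exists_between hi'
    refine ⟨⟨j, hi.trans hij, hjη⟩, ?_⟩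
    have h2 : Tendsto (fun N : ℕ => Real.exp (j * N) - Real.exp (i * N)) atTop atTop := by
      have h3 : Tendsto (fun N : ℕ => (j - i) * (N : ℝ)) atTop atTop :=
        Tendsto.const_mul_atTop (by linarith) tendsto_natCast_atTop_atTop
      refine tendsto_atTop_mono (fun N => ?_) h3
      have h4 : (0 : ℝ) ≤ N := Nat.cast_nonneg N
      have h5 : Real.exp (j * N) = Real.exp (i * N) * Real.exp ((j - i) * N) := by
        rw [← Real.exp_add]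
        congr 1
        ring
      have h6 : (1 : ℝ) ≤ Real.exp (i * N) := Real.one_le_exp (by positivity)
      have h7 : (j - i) * N + 1 ≤ Real.exp ((j - i) * N) := Real.add_one_le_exp _
      have h8 : 0 ≤ (j - i) * N := mul_nonneg (by linarith) h4
      rw [h5]
      nlinarith
    filter_upwards [h2.eventually (eventually_ge_atTop (Real.log d))] with N hN y hy
    have hy' : Real.exp (Real.exp (j * N)) < sz (γ * y) := hy
    change Real.exp (Real.exp (i * N)) < sz y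
    have h9 := hy'.trans_le (h1 y)
    have h10 : Real.exp (Real.exp (j * N)) = d * Real.exp (Real.exp (j * N) - Real.log d) := by
      rw [Real.exp_sub, Real.exp_log hd0]
      field_simp
    rw [h10] at h9
    have h11 := lt_of_mul_lt_mul_left h9 hd0.le
    refine lt_of_le_of_lt (Real.exp_le_exp.2 ?_) h11
    linarith
  · intro ε hε
    exact ⟨⟨η / 2, half_pos hη, half_lt_self hη⟩, hS g (η / 2) (half_pos hη) ε hε⟩
  · rintro ⟨i, hi, hi'⟩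
    refine tendsto_of_tendsto_of_tendsto_of_le_of_le tendsto_const_nhds hc
      (fun N => zero_le) fun N => csm_mono ?_ N
    rintro γ ⟨h1, h2⟩
    refine ⟨h1, (not_lt.1 (show ¬ Real.exp (Real.exp (i * N)) < sz γ from h2)).trans ?_⟩
    refine Real.exp_le_exp.2 (Real.exp_le_exp.2 ?_)
    exact mul_le_mul_of_nonneg_right hi'.le (Nat.cast_nonneg N)

/-- A polynomial count is enough. -/
theorem of_poly {ρ : ℝ} (hρ : 0 < ρ) (hρ1 : ρ < 1) (hsz0 : ∀ γ, 0 < sz γ) (d : ℕ) :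
    ∃ η > 0, ∀ (B : K →L[ℂ] K) (A : Set Γ) (C : ℝ),
    (∀ J : ℝ, 0 ≤ J → ∀ S : Finset Γ, (∀ γ ∈ S, γ ∈ A ∧ Real.log (sz γ) ≤ J) →
      ∑ γ ∈ S, ‖adjoint B (lam γ Ω)‖ ^ 2 ≤ C * (1 + J) ^ d) →
    Tendsto (fun N : ℕ => csm ρ lam Ω B
      {γ | γ ∈ A ∧ sz γ ≤ Real.exp (Real.exp (η * N))} N) atTop (𝓝 0) := by
  obtain ⟨η, hηdef⟩ : ∃ η : ℝ, η = -(Real.log ρ) / (2 * (d + 1)) := ⟨_, rfl⟩
  have hlog : Real.log ρ < 0 := Real.log_neg hρ hρ1
  have hη : 0 < η := by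
    rw [hηdef]
    refine div_pos (by linarith) (by positivity)
  refine ⟨η, hη, fun B A C h => ?_⟩
  obtain ⟨ρ', hρ'⟩ : ∃ ρ' : ℝ, ρ' = ρ * Real.exp (η * d) := ⟨_, rfl⟩
  have hρ'0 : 0 ≤ ρ' := by rw [hρ']; positivity
  have hρ'1 : ρ' < 1 := by
    have e1 : ρ = Real.exp (Real.log ρ) := (Real.exp_log hρ).symm
    have e2 : Real.log ρ = -(2 * (d + 1)) * η := by
      rw [hηdef]
      have : (2 * ((d : ℝ) + 1)) ≠ 0 := by positivity
      field_simp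
    rw [hρ', e1, ← Real.exp_add, Real.exp_lt_one_iff, e2]
    have h4 : (0 : ℝ) ≤ d := Nat.cast_nonneg d
    nlinarith
  have hreal : Tendsto (fun N : ℕ => |C| * 2 ^ d * ρ' ^ N) atTop (𝓝 0) := by
    have h1 := (tendsto_pow_atTop_nhds_zero_of_lt_one hρ'0 hρ'1).const_mul (|C| * 2 ^ d)
    rwa [mul_zero] at h1
  have henn := (ENNReal.continuous_ofReal.tendsto 0).comp hreal
  rw [ENNReal.ofReal_zero] at henn
  refine tendsto_of_tendsto_of_tendsto_of_le_of_le tendsto_const_nhds henn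
    (fun N => zero_le) fun N => ?_
  change csm ρ lam Ω B {γ | γ ∈ A ∧ sz γ ≤ Real.exp (Real.exp (η * N))} N ≤
    ENNReal.ofReal (|C| * 2 ^ d * ρ' ^ N)
  have hsum : ∑' γ : {γ | γ ∈ A ∧ sz γ ≤ Real.exp (Real.exp (η * N))},
      ‖adjoint B (lam γ Ω)‖ₑ ^ 2 ≤ ENNReal.ofReal (|C| * (2 * Real.exp (η * N)) ^ d) := by
    classical
    rw [ENNReal.tsum_eq_iSup_sum]
    refine iSup_le fun S => ?_
    have e1 : ∑ γ ∈ S, ‖adjoint B (lam γ Ω)‖ₑ ^ 2 =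
        ENNReal.ofReal (∑ γ ∈ S, ‖adjoint B (lam γ Ω)‖ ^ 2) := by
      rw [ENNReal.ofReal_sum_of_nonneg fun i _ => sq_nonneg _]
      refine Finset.sum_congr rfl fun γ _ => ?_
      rw [← ofReal_norm_eq_enorm, ENNReal.ofReal_pow (norm_nonneg _)]
    rw [e1]
    refine ENNReal.ofReal_le_ofReal ?_
    have e2 : ∑ γ ∈ S, ‖adjoint B (lam γ Ω)‖ ^ 2 =
        ∑ γ ∈ S.map ⟨Subtype.val, Subtype.val_injective⟩, ‖adjoint B (lam γ Ω)‖ ^ 2 := by
      rw [Finset.sum_map]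
      rfl
    rw [e2]
    refine (h (Real.exp (η * N)) (Real.exp_pos _).le _ fun γ hγ => ?_).trans ?_
    · rw [Finset.mem_map] at hγ
      obtain ⟨y, _, rfl⟩ := hγ
      refine ⟨y.2.1, ?_⟩
      have h1 : sz y ≤ Real.exp (Real.exp (η * N)) := y.2.2
      have h2 := Real.log_le_log (hsz0 _) h1
      rwa [Real.log_exp] at h2
    · have h6 : (1 : ℝ) ≤ Real.exp (η * N) := Real.one_le_exp (by positivity)
      calc C * (1 + Real.exp (η * N)) ^ d ≤ |C| * (2 * Real.exp (η * N)) ^ d := by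
            gcongr
            · exact le_abs_self C
            · linarith
        _ = _ := rfl
  unfold csm
  calc ENNReal.ofReal (ρ ^ N) *
        ∑' γ : {γ | γ ∈ A ∧ sz γ ≤ Real.exp (Real.exp (η * N))}, ‖adjoint B (lam γ Ω)‖ₑ ^ 2
      ≤ ENNReal.ofReal (ρ ^ N) *
          ENNReal.ofReal (|C| * (2 * Real.exp (η * N)) ^ d) := mul_le_mul_right hsum _
    _ = ENNReal.ofReal (ρ ^ N * (|C| * (2 * Real.exp (η * N)) ^ d)) :=
        (ENNReal.ofReal_mul (by positivity)).symm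
    _ = ENNReal.ofReal (|C| * 2 ^ d * ρ' ^ N) := by
        congr 1
        have e3 : Real.exp (η * N) ^ d = Real.exp (η * d) ^ N := by
          rw [← Real.exp_nat_mul, ← Real.exp_nat_mul]
          congr 1
          ring
        rw [hρ', mul_pow, mul_pow, e3]
        ring

/-- **The counting principle for an operator dominated by cut-offs.** -/
theorem mul_zero_of_dom (hP : PicL π lam W Ω) (hM : Ms lam W Ω m) (hUC : UC π W Ω m)
    (hρ : 0 ≤ ρ) (hnc : Tendsto n (𝓝 0) (𝓝 1)) (hORB : ORBG μ b n ρ π lam W Ω)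
    (hsz : ∀ γ, ∃ d : ℝ, 1 ≤ d ∧ ∀ y, sz (γ * y) ≤ d * sz y)
    (hS : SIZEG b π Ω m sz) {g : G} {B P : K →L[ℂ] K} (hB : Cm W B)
    (hb : Commute B (π (g * b * g⁻¹))) (hn : ∀ s, Commute B (π (g * n s * g⁻¹)))
    {c : ℝ} (hdom : ∀ ζ : K, ∀ ε > 0, ∃ A : Set Γ, (∃ η > 0, Tendsto (fun N : ℕ => csm ρ lam Ω B
      {γ | γ ∈ A ∧ sz γ ≤ Real.exp (Real.exp (η * N))} N) atTop (𝓝 0)) ∧
      ∀ᶠ N : ℕ in atTop, ‖P ζ‖ ≤ c * ‖m A (π (g * b ^ N * g⁻¹)⁻¹ ζ)‖ + ε) :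
    P * B = 0 := by
  refine ContinuousLinearMap.ext fun ζ => ?_
  change P (B ζ) = 0
  rw [← norm_eq_zero]
  refine le_antisymm (le_of_forall_pos_le_add fun ε hε => ?_) (norm_nonneg _)
  rw [zero_add]
  obtain ⟨A, ⟨η, hη, hcA⟩, hA⟩ := hdom (B ζ) ε hε
  have h1 := cnt_size (μ := μ) hP hM hUC hρ hnc hORB hsz hS hB hb hn hη hcA ζ
  have h4 : Tendsto (fun N : ℕ => c * ‖m A (B (π (g * b ^ N * g⁻¹)⁻¹ ζ))‖ + ε) atTop (𝓝 ε) := by
    have h5 := (h1.norm.const_mul c).add_const ε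
    rwa [norm_zero, mul_zero, zero_add] at h5
  refine ge_of_tendsto h4 (hA.mono fun N hN => ?_)
  have e1 : π (g * b ^ N * g⁻¹)⁻¹ (B ζ) = B (π (g * b ^ N * g⁻¹)⁻¹ ζ) := by
    have h6 : Commute B (π (g * b ^ N * g⁻¹)⁻¹) := by
      rw [conj_pow']
      exact comm_inv (comm_pow hb N)
    exact (congrArg (fun A : K →L[ℂ] K => A ζ) h6.eq).symm
  rw [← e1]
  exact hN

end sizes

end Vale.Agent.P092.H790.CTA
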