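import Vale.Agent.P092.H790.MrgB
import Vale.Agent.P092.H515.Tgt
import Vale.Agent.P092.H793.Re.Blocks
import Mathlib.LinearAlgebra.Matrix.Charpoly.Basic

/-!
P092 (helper790), project RE: closed subgroups of `SL_n(ℝ)` with a Cartan decomposition relative to
an `r`-dimensional space of diagonal matrices are target groups of rank `r`.
-/

set_option linter.all false

open Finset Module Matrix

namespace Vale.Agent.P092.H790.Mrg

open Vale.Agent.P092.H515 (GSys IsGauge EmbW gsys_all Tgt isCompact_hs_le)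
open Vale.Agent.P092.H944 (hs gap la sv kA kB isSVD IsSVD)

/-! ### Singular values up to order -/

theorem exists_perm {n : ℕ} {f g : Fin n → ℝ}
    (h : (Finset.univ : Finset (Fin n)).val.map f = (Finset.univ : Finset (Fin n)).val.map g) :
    ∃ σ : Equiv.Perm (Fin n), ∀ i, f i = g (σ i) := by
  classical
  have hc : ∀ y, Fintype.card {a // f a = y} = Fintype.card {b // g b = y} := by
    intro y
    have h1 := congrArg (Multiset.count y) h
    rw [Multiset.count_map, Multiset.count_map] at h1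
    rw [Fintype.card_subtype, Fintype.card_subtype, Finset.card_def, Finset.card_def,
      Finset.filter_val, Finset.filter_val]
    have e : ∀ f : Fin n → ℝ, Multiset.filter (fun a => y = f a) (Finset.univ : Finset (Fin n)).val =
        Multiset.filter (fun a => f a = y) (Finset.univ : Finset (Fin n)).val := fun f =>
      Multiset.filter_congr fun a _ => ⟨Eq.symm, Eq.symm⟩
    rw [e, e] at h1
    exact h1
  refine ⟨Equiv.ofFiberEquiv fun y => Fintype.equivOfCardEq (hc y), fun i => ?_⟩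
  exact (Equiv.ofFiberEquiv_map (fun y => Fintype.equivOfCardEq (hc y)) i).symm

theorem charpoly_svd {n : ℕ} {A k1 k2 : Matrix (Fin n) (Fin n) ℝ} {a : Fin n → ℝ}
    (h1 : k1ᵀ * k1 = 1) (h2 : k2 * k2ᵀ = 1) (h : A = k1 * diagonal a * k2) :
    (A * Aᵀ).charpoly = (diagonal fun i => a i * a i).charpoly := by
  have e : A * Aᵀ = k1 * ((diagonal fun i => a i * a i) * k1ᵀ) := by
    rw [h, transpose_mul, transpose_mul, diagonal_transpose]
    calc k1 * diagonal a * k2 * (k2ᵀ * (diagonal a * k1ᵀ))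
        = k1 * diagonal a * (k2 * k2ᵀ) * (diagonal a * k1ᵀ) := by simp only [Matrix.mul_assoc]
      _ = k1 * (diagonal a * diagonal a) * k1ᵀ := by
          rw [h2, Matrix.mul_one]
          simp only [Matrix.mul_assoc]
      _ = _ := by
          rw [diagonal_mul_diagonal, Matrix.mul_assoc]
  rw [e, charpoly_mul_comm, Matrix.mul_assoc, h1, Matrix.mul_one]

theorem roots_diag {n : ℕ} (d : Fin n → ℝ) :
    (diagonal d).charpoly.roots = (Finset.univ : Finset (Fin n)).val.map d := by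
  rw [charpoly_diagonal]
  have e : ∏ i, (Polynomial.X - Polynomial.C (d i)) =
      (((Finset.univ : Finset (Fin n)).val.map d).map fun a =>
        Polynomial.X - Polynomial.C a).prod := by
    rw [Multiset.map_map]
    rfl
  rw [e, Polynomial.roots_multiset_prod_X_sub_C]

/-- The logarithms of the singular values of `κ e^x κ'` are the coordinates of `x`, up to order. -/
theorem exists_perm_la {n : ℕ} {A κ κ' : Matrix (Fin n) (Fin n) ℝ} {x : Fin n → ℝ}
    (hA : A.det ≠ 0) (h1 : κ * κᵀ = 1) (h2 : κ' * κ'ᵀ = 1)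
    (h : A = κ * diagonal (fun a => Real.exp (x a)) * κ') :
    ∃ σ : Equiv.Perm (Fin n), ∀ i : Fin n, la A i = x (σ i) := by
  have hs := isSVD hA
  have e1 := charpoly_svd (mul_eq_one_comm.mp h1) h2 h
  have e2 := charpoly_svd hs.o1 hs.o2' hs.eq
  rw [e1] at e2
  have e3 := congrArg Polynomial.roots e2
  rw [roots_diag, roots_diag] at e3
  obtain ⟨σ, hσ⟩ := exists_perm e3.symm
  refine ⟨σ, fun i => ?_⟩
  have h3 : sv A i = Real.exp (x (σ i)) := by
    have h4 : sv A i * sv A i = Real.exp (x (σ i)) * Real.exp (x (σ i)) := hσ i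
    have h5 := hs.pos i
    have h6 := Real.exp_pos (x (σ i))
    nlinarith
  rw [H944.la_fin, h3, Real.log_exp]

/-! ### The family of subspaces -/

section fam
variable {n : ℕ} (E : Submodule ℝ (Fin n → ℝ))

/-- the gaps as linear functions -/
noncomputable def dl (j : Fin (n - 1)) : (Fin n → ℝ) →ₗ[ℝ] ℝ :=
  (2 : ℝ) • (LinearMap.proj (R := ℝ) (φ := fun _ : Fin n => ℝ) (⟨j, by omega⟩ : Fin n) -
    LinearMap.proj (R := ℝ) (φ := fun _ : Fin n => ℝ) (⟨(j : ℕ) + 1, by omega⟩ : Fin n))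

theorem dl_apply (j : Fin (n - 1)) (y : Fin n → ℝ) :
    dl j y = 2 * (y ⟨j, by omega⟩ - y ⟨(j : ℕ) + 1, by omega⟩) := rfl

/-- the permuted subspace -/
noncomputable def per (σ : Equiv.Perm (Fin n)) : Submodule ℝ (Fin n → ℝ) :=
  E.map (LinearMap.funLeft ℝ ℝ σ)

theorem mem_per {σ : Equiv.Perm (Fin n)} {x y : Fin n → ℝ} (hx : x ∈ E)
    (h : ∀ i, y i = x (σ i)) : y ∈ per E σ :=
  ⟨x, hx, by funext i; exact (h i).symm⟩

theorem finrank_per (σ : Equiv.Perm (Fin n)) : finrank ℝ (per E σ) ≤ finrank ℝ E :=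
  Submodule.finrank_map_le _ _

/-- the family -/
noncomputable def fam : Finset (Submodule ℝ (Fin n → ℝ)) :=
  open Classical in
  insert ⊥ (Finset.univ.image fun z : Equiv.Perm (Fin n) × Finset (Fin (n - 1)) =>
    per E z.1 ⊓ z.2.inf fun j => LinearMap.ker (dl j))

theorem mem_fam (σ : Equiv.Perm (Fin n)) (S : Finset (Fin (n - 1))) :
    per E σ ⊓ S.inf (fun j => LinearMap.ker (dl j)) ∈ fam E := by
  classical
  rw [fam, Finset.mem_insert]
  exact Or.inr (Finset.mem_image.mpr ⟨(σ, S), Finset.mem_univ _, rfl⟩)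

theorem bot_fam : ⊥ ∈ fam E := by
  classical
  rw [fam, Finset.mem_insert]
  exact Or.inl rfl

theorem cut_fam (M : Submodule ℝ (Fin n → ℝ)) (hM : M ∈ fam E) (j : Fin (n - 1)) :
    M ⊓ LinearMap.ker (dl j) ∈ fam E := by
  classical
  have hM' := hM
  rw [fam, Finset.mem_insert] at hM'
  rcases hM' with rfl | hM'
  · rw [bot_inf_eq]
    exact bot_fam E
  · obtain ⟨⟨σ, S⟩, -, rfl⟩ := Finset.mem_image.mp hM'
    have h := mem_fam E σ (insert j S)
    rw [Finset.inf_insert] at h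
    have e : per E σ ⊓ (LinearMap.ker (dl j) ⊓ S.inf fun j => LinearMap.ker (dl j)) =
        per E σ ⊓ (S.inf fun j => LinearMap.ker (dl j)) ⊓ LinearMap.ker (dl j) := by
      rw [inf_comm (LinearMap.ker (dl j)), inf_assoc]
    rw [e] at h
    exact h

end fam

/-! ### Target groups -/

/-- **Closed subgroups of `SL_n(ℝ)` with a Cartan decomposition are target groups.** -/
theorem tgt_of_cartan {n r : ℕ} (hn : 0 < n) {G : Type} [Group G] [TopologicalSpace G]
    (φ : G →* SpecialLinearGroup (Fin n) ℝ) (hφ : Topology.IsClosedEmbedding φ)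
    (E : Submodule ℝ (Fin n → ℝ)) (hr : finrank ℝ E ≤ r)
    (car : ∀ g, ∃ (κ κ' : Matrix (Fin n) (Fin n) ℝ) (x : Fin n → ℝ), x ∈ E ∧ κ * κᵀ = 1 ∧
      κ' * κ'ᵀ = 1 ∧ (φ g).1 = κ * diagonal (fun a => Real.exp (x a)) * κ') : Tgt G r := by
  have hdet : ∀ g, (φ g).1.det ≠ 0 := fun g => by rw [(φ g).2]; exact one_ne_zero
  have hE : EmbW (fun g : G => (φ g).1) :=
    ⟨fun g h => Or.inl (by rw [map_mul]; rfl), fun g => by rw [(φ g).2]; norm_num⟩
  have hS := gsys_all hn hE
  have hd : Dat (fun (j : Fin (n - 1)) g => gap (j : ℕ) (φ g).1) (fun g => fun i : Fin n =>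
      la (φ g).1 i) dl (fam E) r := by
    refine ⟨fun j g => ?_, fun j g => H944.gap_nonneg (hdet g) _, fun a b => ?_, bot_fam E,
      cut_fam E, fun g => ?_⟩
    · have hj : (j : ℕ) + 1 < n := by omega
      rw [gap, if_pos hj]
      rfl
    · refine ⟨H944.lc (φ a).1 + H944.lc (φ b).1, fun g => ?_⟩
      rw [pi_norm_le_iff_of_nonneg (add_nonneg (H944.lc_nonneg _) (H944.lc_nonneg _))]
      intro i
      rw [Pi.sub_apply, Real.norm_eq_abs]
      have e1 : (φ (a * g * b)).1 = (φ a).1 * (φ g).1 * (φ b).1 := by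
        rw [map_mul, map_mul]
        rfl
      rw [e1]
      have h1 := H944.abs_la_left (hdet a) (hdet g) (i : ℕ)
      have h2 := H944.abs_la_right (hdet b) (H944.mul_det_ne (hdet a) (hdet g)) (i : ℕ)
      calc |la ((φ a).1 * (φ g).1 * (φ b).1) i - la (φ g).1 i|
          = |(la ((φ a).1 * (φ g).1) i - la (φ g).1 i) +
            (la ((φ a).1 * (φ g).1 * (φ b).1) i - la ((φ a).1 * (φ g).1) i)| := by
            congr 1
            ring
        _ ≤ _ := (abs_add_le _ _).trans (add_le_add h1 h2)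
    · obtain ⟨κ, κ', x, hx, h1, h2, h3⟩ := car g
      obtain ⟨σ, hσ⟩ := exists_perm_la (hdet g) h1 h2 h3
      have h4 := mem_fam E σ ∅
      rw [Finset.inf_empty, inf_top_eq] at h4
      exact ⟨_, h4, (finrank_per E σ).trans hr, mem_per E hx hσ⟩
  have h3 : Topology.IsClosedEmbedding (fun g : SpecialLinearGroup (Fin n) ℝ =>
      (g : Matrix (Fin n) (Fin n) ℝ)) := SpecialLinearGroup.isClosedEmbedding_val
  refine ⟨Fin r, inferInstance, _, _, fun j => j, ⟨gsys hd hS, fun R => ⟨R, fun i j hij g hg => ?_⟩,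
    fun R => ⟨_, (h3.comp hφ).isCompact_preimage (isCompact_hs_le R), fun g hg => hg⟩⟩⟩
  have hij' : i = j := hij
  rw [← hij']
  exact hg

open Vale.Agent.P092.H793.Re in
/-- **[RE-T] from [RE-K].** -/
theorem tgt_real {n r : ℕ} {G : Type} [Group G] [TopologicalSpace G] {ρ : G →* SLn n}
    {h : Fin n → ℝ} {p q : Fin r → Fin n} {w : Fin r → Fin n → ℝ} {E : Fin r → Mat n}
    (hρ : RS ρ) (hS : Sr ρ h p q w E)
    (car : ∀ g, ∃ (κ κ' : G) (x : Fin n → ℝ), Ort ρ κ ∧ Ort ρ κ' ∧ Dom ρ p q x ∧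
      (ρ g).1 = (ρ κ).1 * diagonal (fun a => Real.exp (x a)) * (ρ κ').1) : Tgt G r := by
  have hn : 0 < n := Fin.pos (p ⟨0, hS.pos⟩)
  refine tgt_of_cartan hn ρ hρ.emb (Submodule.span ℝ (Set.range w)) ?_ fun g => ?_
  · refine (finrank_range_le_card w).trans ?_
    rw [Fintype.card_fin]
  · obtain ⟨κ, κ', x, h1, h2, h3, h4⟩ := car g
    refine ⟨_, _, x, ?_, h1, h2, h4⟩
    rw [hS.span x h3.1]
    exact Submodule.sum_mem _ fun j _ => Submodule.smul_mem _ _ (Submodule.subset_span ⟨j, rfl⟩)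

open Vale.Agent.P092.H793.Re in
/-- **[RE-T]** in the letters of the blocks. -/
theorem tgt_of_Car (hC : Car) {n r : ℕ} {G : Type} [Group G] [TopologicalSpace G]
    {ρ : G →* SLn n} {h : Fin n → ℝ} {p q : Fin r → Fin n} {w : Fin r → Fin n → ℝ}
    {E : Fin r → Mat n} (hρ : RS ρ) (hD : Dg ρ h) (hS : Sr ρ h p q w E) : Tgt G r :=
  tgt_real hρ hS (hC ρ h p q w E hρ hD hS)

end Vale.Agent.P092.H790.Mrg
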