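import Mathlib

/-!
P092 (helper790): Borel sections of the quotient by a discrete subgroup, bounded on compact sets.
-/

open Set Filter Topology MeasureTheory

namespace Vale.Agent.P092.H790

variable {E : Type*} [Group E] [TopologicalSpace E] [IsTopologicalGroup E]

section nbhd

/-- A neighbourhood `U` of `1`, relatively compact, with `U⁻¹ U ∩ Λ = 1`. -/
theorem exists_nbhd [LocallyCompactSpace E] (Λ : Subgroup E) [DiscreteTopology Λ] :
    ∃ (U C : Set E), IsOpen U ∧ (1 : E) ∈ U ∧ IsCompact C ∧ U ⊆ C ∧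
      ∀ u ∈ U, ∀ v ∈ U, u⁻¹ * v ∈ Λ → u = v := by
  obtain ⟨V, hV, hV1⟩ := isOpen_induced_iff.1 (isOpen_discrete ({1} : Set Λ))
  have h1V : (1 : E) ∈ V := by
    have : (1 : Λ) ∈ ((↑) : Λ → E) ⁻¹' V := by rw [hV1]; exact mem_singleton _
    simpa using this
  have hc : Tendsto (fun p : E × E => p.1⁻¹ * p.2) (𝓝 ((1 : E), (1 : E))) (𝓝 ((1 : E)⁻¹ * 1)) :=
    (by fun_prop : Continuous fun p : E × E => p.1⁻¹ * p.2).tendsto _
  have hVn : V ∈ 𝓝 ((1 : E)⁻¹ * 1) := by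
    simpa using hV.mem_nhds h1V
  have h2 := hc hVn
  rw [mem_map, nhds_prod_eq, mem_prod_iff] at h2
  obtain ⟨A, hA, B, hB, hAB⟩ := h2
  obtain ⟨C, hC, hC1⟩ := exists_compact_mem_nhds (1 : E)
  refine ⟨interior (A ∩ B ∩ C), C, isOpen_interior, ?_, hC, ?_, ?_⟩
  · rw [mem_interior_iff_mem_nhds]
    exact inter_mem (inter_mem hA hB) hC1
  · exact interior_subset.trans inter_subset_right
  · intro u hu v hv huv
    have hu' := interior_subset hu
    have hv' := interior_subset hv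
    have h3 : u⁻¹ * v ∈ V := hAB (mk_mem_prod hu'.1.1 hv'.1.2)
    have h4 : (⟨u⁻¹ * v, huv⟩ : Λ) ∈ ((↑) : Λ → E) ⁻¹' V := h3
    rw [hV1] at h4
    have h5 : u⁻¹ * v = 1 := congrArg Subtype.val (mem_singleton_iff.1 h4)
    exact (inv_mul_eq_one.1 h5)

end nbhd

section cover

variable [SecondCountableTopology E]

theorem exists_dense_mem {U : Set E} (hU : IsOpen U) (h1 : (1 : E) ∈ U) (e : E) :
    ∃ i : ℕ, (TopologicalSpace.denseSeq E i)⁻¹ * e ∈ U := by
  have ho : IsOpen ((fun g : E => g⁻¹ * e) ⁻¹' U) := hU.preimage (by fun_prop)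
  obtain ⟨x, hx⟩ := (TopologicalSpace.denseRange_denseSeq E).exists_mem_open ho
    ⟨e, by simpa using h1⟩
  exact ⟨x, hx⟩

end cover

section sec

variable [LocallyCompactSpace E] [SecondCountableTopology E]

/-- **A Borel section, bounded on compact sets.** -/
theorem exists_section (Λ : Subgroup E) [DiscreteTopology Λ] [MeasurableSpace E] [BorelSpace E]
    [MeasurableSpace (E ⧸ Λ)] [BorelSpace (E ⧸ Λ)] :
    ∃ σ : E ⧸ Λ → E, Measurable σ ∧ (∀ x, (σ x : E ⧸ Λ) = x) ∧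
      ∀ K : Set (E ⧸ Λ), IsCompact K → ∃ C : Set E, IsCompact C ∧ ∀ x ∈ K, σ x ∈ C := by
  classical
  obtain ⟨U, C0, hU, h1, hC0, hUC, hinj⟩ := exists_nbhd Λ
  obtain ⟨g, hg⟩ : ∃ g : ℕ → E, g = TopologicalSpace.denseSeq E := ⟨_, rfl⟩
  obtain ⟨W, hW⟩ : ∃ W : ℕ → Set (E ⧸ Λ), W = fun i =>
    ((↑) : E → E ⧸ Λ) '' {e | (g i)⁻¹ * e ∈ U} := ⟨_, rfl⟩
  have hUi : ∀ i, IsOpen {e | (g i)⁻¹ * e ∈ U} := fun i => hU.preimage (by fun_prop)
  have hWo : ∀ i, IsOpen (W i) := fun i => by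
    rw [hW]
    exact QuotientGroup.isOpenMap_coe _ (hUi i)
  have hcov : ∀ x : E ⧸ Λ, ∃ i, x ∈ W i := by
    intro x
    obtain ⟨e, rfl⟩ := QuotientGroup.mk_surjective x
    obtain ⟨i, hi⟩ := exists_dense_mem hU h1 e
    refine ⟨i, ?_⟩
    rw [hW]
    exact ⟨e, by rw [hg]; exact hi, rfl⟩
  obtain ⟨ix, hix⟩ : ∃ ix : E ⧸ Λ → ℕ, ix = fun x => Nat.find (hcov x) := ⟨_, rfl⟩
  have hixW : ∀ x, x ∈ W (ix x) := fun x => by
    rw [hix]; exact Nat.find_spec (hcov x)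
  have hixmin : ∀ x j, x ∈ W j → ix x ≤ j := fun x j h => by
    rw [hix]; exact Nat.find_min' (hcov x) h
  have hex : ∀ x, ∃ e : E, (g (ix x))⁻¹ * e ∈ U ∧ (e : E ⧸ Λ) = x := fun x => by
    have h := hixW x
    rw [hW] at h
    exact h
  choose σ hσU hσ using hex
  refine ⟨σ, ?_, hσ, ?_⟩
  · refine measurable_of_isOpen fun B hB => ?_
    have e1 : σ ⁻¹' B = ⋃ i, ((W i \ ⋃ j ∈ Finset.range i, W j) ∩
        ((↑) : E → E ⧸ Λ) '' (B ∩ {e | (g i)⁻¹ * e ∈ U})) := by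
      ext x
      constructor
      · intro hx
        refine mem_iUnion.2 ⟨ix x, ⟨hixW x, fun hj => ?_⟩, σ x, ⟨hx, hσU x⟩, hσ x⟩
        obtain ⟨j, hj, hxj⟩ := mem_iUnion₂.1 hj
        have h1 := hixmin x j hxj
        have h2 := Finset.mem_range.1 hj
        omega
      · intro hx
        obtain ⟨i, ⟨hi, hmin⟩, b, ⟨hbB, hbU⟩, hbx⟩ := mem_iUnion.1 hx
        have hii : ix x = i := by
          refine le_antisymm (hixmin x i hi) ?_
          by_contra hlt
          exact hmin (mem_iUnion₂.2 ⟨ix x, Finset.mem_range.2 (by omega), hixW x⟩)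
        have h2 : b⁻¹ * σ x ∈ Λ := QuotientGroup.eq.1 (hbx.trans (hσ x).symm)
        have h3 := hinj _ hbU _ (by have := hσU x; rw [hii] at this; exact this) (by
          have e : ((g i)⁻¹ * b)⁻¹ * ((g i)⁻¹ * σ x) = b⁻¹ * σ x := by group
          rw [e]; exact h2)
        have h4 : b = σ x := mul_left_cancel h3
        exact mem_preimage.2 (h4 ▸ hbB)
    rw [e1]
    refine MeasurableSet.iUnion fun i => MeasurableSet.inter ?_ ?_
    · exact (hWo i).measurableSet.diff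
        (Finset.measurableSet_biUnion _ fun j _ => (hWo j).measurableSet)
    · exact (QuotientGroup.isOpenMap_coe _ (hB.inter (hUi i))).measurableSet
  · intro K hK
    obtain ⟨t, ht⟩ := hK.elim_finite_subcover W hWo (fun x _ => mem_iUnion.2 (hcov x))
    obtain ⟨N, hN⟩ : ∃ N : ℕ, ∀ i ∈ t, i < N :=
      ⟨t.sup id + 1, fun i hi => Nat.lt_succ_of_le (Finset.le_sup (f := id) hi)⟩
    refine ⟨⋃ i ∈ Finset.range N, (fun e => g i * e) '' C0,
      (Finset.range N).isCompact_biUnion fun i _ => hC0.image (by fun_prop), fun x hx => ?_⟩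
    have h2 := ht hx
    simp only [mem_iUnion, exists_prop] at h2
    obtain ⟨j, hj, hxj⟩ := h2
    simp only [mem_iUnion, exists_prop, Finset.mem_range]
    refine ⟨ix x, lt_of_le_of_lt (hixmin x j hxj) (hN j hj), (g (ix x))⁻¹ * σ x,
      hUC (hσU x), by group⟩

end sec

end Vale.Agent.P092.H790
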