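import Vale.Agent.P092.H790.CT

/-!
P092 (helper790), team D: the counting principle applied to the boundary calculi, and the
polynomial counting hypothesis.
-/

set_option linter.all false

open scoped InnerProductSpace ENNReal LinearAlgebra.Projectivization
open Filter Topology ContinuousLinearMap MeasureTheory TopologicalSpace

namespace Vale.Agent.P092.H790.CT

open Vale.Agent.P092.SD
open Vale.Agent.P092.RC (Cm TRN Pic)

section app

variable {k : Type} [NontriviallyNormedField k] [ProperSpace k] {Γ K : Type}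
  [Group Γ] [NormedAddCommGroup K] [InnerProductSpace ℂ K] [CompleteSpace K]
  {w : kˣ} {π : G3 k →* (K →L[ℂ] K)} {lam : Γ →* (K →L[ℂ] K)} {W : Set (K →L[ℂ] K)} {Ω : K}
  {m : Set Γ → (K →L[ℂ] K)} {q : Γ →* G3 k}

/-- A polynomial count is enough. -/
theorem of_poly (hw : ‖(w : k)‖ < 1) (d : ℕ) : ∃ η > 0, ∀ (B : K →L[ℂ] K) (A : Set Γ) (C : ℝ),
    (∀ J : ℝ, 0 ≤ J → ∀ S : Finset Γ, (∀ γ ∈ S, γ ∈ A ∧ Real.log (nm (q γ)) ≤ J) →
      ∑ γ ∈ S, ‖adjoint B (lam γ Ω)‖ ^ 2 ≤ C * (1 + J) ^ d) →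
    Tendsto (fun N : ℕ => csm w lam Ω B
      {γ | γ ∈ A ∧ nm (q γ) ≤ Real.exp (Real.exp (η * N))} N) atTop (𝓝 0) := by
  have hw0 : 0 < ‖(w : k)‖ := norm_pos_iff.2 w.ne_zero
  obtain ⟨η, hηdef⟩ : ∃ η : ℝ, η = -(3 * Real.log ‖(w : k)‖) / (2 * (d + 1)) := ⟨_, rfl⟩
  have hlog : Real.log ‖(w : k)‖ < 0 := Real.log_neg hw0 hw
  have hη : 0 < η := by
    rw [hηdef]
    refine div_pos (by linarith) (by positivity)
  refine ⟨η, hη, fun B A C h => ?_⟩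
  obtain ⟨ρ, hρ⟩ : ∃ ρ : ℝ, ρ = ‖(w : k)‖ ^ 3 * Real.exp (η * d) := ⟨_, rfl⟩
  have hρ0 : 0 ≤ ρ := by rw [hρ]; positivity
  have hρ1 : ρ < 1 := by
    have e1 : ‖(w : k)‖ ^ 3 = Real.exp (3 * Real.log ‖(w : k)‖) := by
      rw [mul_comm, Real.exp_mul, Real.exp_log hw0]
      norm_cast
    have e2 : 3 * Real.log ‖(w : k)‖ = -(2 * (d + 1)) * η := by
      rw [hηdef]
      have : (2 * ((d : ℝ) + 1)) ≠ 0 := by positivity
      field_simp
    rw [hρ, e1, ← Real.exp_add, Real.exp_lt_one_iff, e2]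
    have h4 : (0 : ℝ) ≤ d := Nat.cast_nonneg d
    nlinarith
  have hreal : Tendsto (fun N : ℕ => |C| * 2 ^ d * ρ ^ N) atTop (𝓝 0) := by
    have h1 := (tendsto_pow_atTop_nhds_zero_of_lt_one hρ0 hρ1).const_mul (|C| * 2 ^ d)
    rwa [mul_zero] at h1
  have henn := (ENNReal.continuous_ofReal.tendsto 0).comp hreal
  rw [ENNReal.ofReal_zero] at henn
  refine tendsto_of_tendsto_of_tendsto_of_le_of_le tendsto_const_nhds henn
    (fun N => zero_le) fun N => ?_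
  change csm w lam Ω B {γ | γ ∈ A ∧ nm (q γ) ≤ Real.exp (Real.exp (η * N))} N ≤
    ENNReal.ofReal (|C| * 2 ^ d * ρ ^ N)
  have hsum : ∑' γ : {γ | γ ∈ A ∧ nm (q γ) ≤ Real.exp (Real.exp (η * N))},
      ‖adjoint B (lam γ Ω)‖ₑ ^ 2 ≤ ENNReal.ofReal (|C| * (2 * Real.exp (η * N)) ^ d) := by
    classical
    rw [ENNReal.tsum_eq_iSup_sum]
    refine iSup_le fun S => ?_
    have e1 : ∑ γ ∈ S, ‖adjoint B (lam γ Ω)‖ₑ ^ 2 =
        ENNReal.ofReal (∑ γ ∈ S, ‖adjoint B (lam γ Ω)‖ ^ 2) := by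
      rw [ENNReal.ofReal_sum_of_nonneg fun i _ => sq_nonneg _]
      refine Finset.sum_congr rfl fun γ _ => ?_
      rw [← ofReal_norm_eq_enorm, ENNReal.ofReal_pow (norm_nonneg _)]
    rw [e1]
    refine ENNReal.ofReal_le_ofReal ?_
    have e2 : ∑ γ ∈ S, ‖adjoint B (lam γ Ω)‖ ^ 2 =
        ∑ γ ∈ S.map ⟨Subtype.val, Subtype.val_injective⟩, ‖adjoint B (lam γ Ω)‖ ^ 2 := by
      rw [Finset.sum_map]
      rfl
    rw [e2]
    refine (h (Real.exp (η * N)) (Real.exp_pos _).le _ fun γ hγ => ?_).trans ?_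
    · rw [Finset.mem_map] at hγ
      obtain ⟨y, _, rfl⟩ := hγ
      refine ⟨y.2.1, ?_⟩
      have h1 : nm (q y) ≤ Real.exp (Real.exp (η * N)) := y.2.2
      have h2 := Real.log_le_log (nm_pos _) h1
      rwa [Real.log_exp] at h2
    · have h6 : (1 : ℝ) ≤ Real.exp (η * N) := Real.one_le_exp (by positivity)
      calc C * (1 + Real.exp (η * N)) ^ d ≤ |C| * (2 * Real.exp (η * N)) ^ d := by
            gcongr
            · exact le_abs_self C
            · linarith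
        _ = _ := rfl
  unfold csm
  calc ENNReal.ofReal (‖(w : k)‖ ^ (3 * N)) *
        ∑' γ : {γ | γ ∈ A ∧ nm (q γ) ≤ Real.exp (Real.exp (η * N))}, ‖adjoint B (lam γ Ω)‖ₑ ^ 2
      ≤ ENNReal.ofReal (‖(w : k)‖ ^ (3 * N)) *
          ENNReal.ofReal (|C| * (2 * Real.exp (η * N)) ^ d) := mul_le_mul_right hsum _
    _ = ENNReal.ofReal (‖(w : k)‖ ^ (3 * N) * (|C| * (2 * Real.exp (η * N)) ^ d)) :=
        (ENNReal.ofReal_mul (by positivity)).symm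
    _ = ENNReal.ofReal (|C| * 2 ^ d * ρ ^ N) := by
        congr 1
        have e3 : Real.exp (η * N) ^ d = Real.exp (η * d) ^ N := by
          rw [← Real.exp_nat_mul, ← Real.exp_nat_mul]
          congr 1
          ring
        rw [hρ, mul_pow, mul_pow, e3, ← pow_mul]
        ring

variable [MeasurableSpace k] [BorelSpace k] {μ : Measure k} [IsFiniteMeasureOnCompacts μ]
  [μ.IsOpenPosMeasure]

/-- **The counting principle for a boundary calculus**, with a Tendsto hypothesis. -/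
theorem E_mul_zero {E : PP k → (CP k →⋆ₐ[ℂ] (K →L[ℂ] K))} (hP : PicL π lam W Ω)
    (hM : Ms lam W Ω m) (hUC : UC π W Ω m) (hORB : ORB μ w π lam W Ω) (hS : SIZE w π Ω m q)
    (hE : EFam w π lam W m q E) {g : G3 k} {B : K →L[ℂ] K} (hB : Cm W B)
    (hb : Commute B (π (g * bw w * g⁻¹))) (hn : ∀ s, Commute B (π (g * un s * g⁻¹)))
    {A : Set (PP k)} (hA : IsOpen A) {u : CP k} (hu : tsupport u ⊆ A)
    (hc : ∀ R : ℝ, ∃ T > 0, ∃ η > 0, Tendsto (fun N : ℕ => csm w lam Ω B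
      {γ | γ ∈ {γ | NW R (q γ) ∧ Att T A (q γ)} ∧ nm (q γ) ≤ Real.exp (Real.exp (η * N))} N)
        atTop (𝓝 0)) :
    E (g • ept k 0) u * B = 0 := by
  refine ContinuousLinearMap.ext fun ζ => ?_
  change E (g • ept k 0) u (B ζ) = 0
  have hbN : ∀ n : ℕ, Commute B (π (g * bw w ^ n * g⁻¹)) := fun n => by
    rw [conj_pow']
    exact comm_pow hb n
  rw [← norm_eq_zero]
  refine le_antisymm (le_of_forall_pos_le_add fun ε hε => ?_) (norm_nonneg _)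
  rw [zero_add]
  obtain ⟨R, hR⟩ := hE.dom g u A hA hu (B ζ) ε hε
  obtain ⟨T, hT, η, hη, hcT⟩ := hc R
  have h1 := cnt_size (μ := μ) hP hM hUC hORB hS hB hb hn hη hcT ζ
  have h3 := hR T hT
  have h4 : Tendsto (fun N : ℕ => ‖u‖ * ‖m {γ | NW R (q γ) ∧ Att T A (q γ)}
      (B (π (g * bw w ^ N * g⁻¹)⁻¹ ζ))‖ + ε) atTop (𝓝 ε) := by
    have h5 := (h1.norm.const_mul ‖u‖).add_const ε
    rwa [norm_zero, mul_zero, zero_add] at h5
  refine ge_of_tendsto h4 (h3.mono fun N hN => ?_)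
  have e1 : π (g * bw w ^ N * g⁻¹)⁻¹ (B ζ) = B (π (g * bw w ^ N * g⁻¹)⁻¹ ζ) :=
    (congrArg (fun A : K →L[ℂ] K => A ζ) (comm_inv (hbN N)).eq).symm
  rw [← e1]
  exact hN

/-- **The counting principle for a boundary calculus**, polynomial counts; all hypotheses except
the last one are fields of `SD.LegS`. -/
theorem E_mul_zero_of_poly {E : PP k → (CP k →⋆ₐ[ℂ] (K →L[ℂ] K))} (hw : ‖(w : k)‖ < 1)
    (hP : Pic π lam W Ω)
    (hM : Ms lam W Ω m) (hUC : UC π W Ω m) (hORB : ORB μ w π lam W Ω) (hS : SIZE w π Ω m q)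
    (hE : EFam w π lam W m q E) {g : G3 k} {B : K →L[ℂ] K} (hB : Cm W B)
    (hb : Commute B (π (g * bw w * g⁻¹))) (hn : ∀ s, Commute B (π (g * un s * g⁻¹)))
    {A : Set (PP k)} (hA : IsOpen A) {u : CP k} (hu : tsupport u ⊆ A) (d : ℕ)
    (hc : ∀ R : ℝ, ∃ T > 0, ∃ C : ℝ, ∀ J : ℝ, 0 ≤ J → ∀ S : Finset Γ,
      (∀ γ ∈ S, NW R (q γ) ∧ Att T A (q γ) ∧ Real.log (nm (q γ)) ≤ J) →
        ∑ γ ∈ S, ‖adjoint B (lam γ Ω)‖ ^ 2 ≤ C * (1 + J) ^ d) :
    E (g • ept k 0) u * B = 0 := by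
  refine E_mul_zero (μ := μ) (PicL.of_pic hP) hM hUC hORB hS hE hB hb hn hA hu fun R => ?_
  obtain ⟨T, hT, C, h⟩ := hc R
  obtain ⟨η, hη, h'⟩ := of_poly (w := w) (lam := lam) (Ω := Ω) (q := q) hw d
  refine ⟨T, hT, η, hη, h' B {γ | NW R (q γ) ∧ Att T A (q γ)} C fun J hJ S hS' => ?_⟩
  exact h J hJ S fun γ hγ => ⟨(hS' γ hγ).1.1, (hS' γ hγ).1.2, (hS' γ hγ).2⟩

end app

end Vale.Agent.P092.H790.CT
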