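import Vale.Agent.P092.SN.Defs

/-!
P092 (helper790), team N: the counting principle (H790/CTA) in the letters of `SN.LegN`.
-/

set_option linter.all false

open scoped InnerProductSpace ENNReal LinearAlgebra.Projectivization
open Filter Topology ContinuousLinearMap MeasureTheory TopologicalSpace

namespace Vale.Agent.P092.H790.CTN

open Vale.Agent.P092.SD (Ms UC)
open Vale.Agent.P092.RC (Cm TRN Pic GG PG YY y0 ct)
open Vale.Agent.P092.H790.CTA (ORBG SIZEG csm)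
open Vale.Agent.P092.SN

/-! ### Elementary facts about the size -/

section size

variable {k : Type} [NontriviallyNormedField k] {N : ℕ}

theorem entry_le (h : GG k N) (i j : Fin (N + 1)) : ‖h.1 i j‖ ≤ nm h :=
  (norm_le_pi_norm (h.1 i) j).trans (norm_le_pi_norm (fun i j => h.1 i j) i)

theorem nm_le {h : GG k N} {c : ℝ} (hc : 0 ≤ c) (H : ∀ i j, ‖h.1 i j‖ ≤ c) : nm h ≤ c :=
  (pi_norm_le_iff_of_nonneg hc).2 fun i => (pi_norm_le_iff_of_nonneg hc).2 fun j => H i j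

theorem nm_nonneg (h : GG k N) : 0 ≤ nm h := norm_nonneg _

theorem nm_pos (h : GG k N) : 0 < nm h := by
  rcases (nm_nonneg h).lt_or_eq with h1 | h1
  · exact h1
  · exfalso
    have h2 : h.1 = 0 := by
      ext i j
      have h3 := entry_le h i j
      rw [← h1] at h3
      simpa using h3
    have h4 := h.2
    rw [h2, Matrix.det_zero] at h4
    exact zero_ne_one h4

theorem nm_mul_le (x y : GG k N) : nm (x * y) ≤ (N + 1 : ℕ) * nm x * nm y := by
  refine nm_le (by have := nm_nonneg x; have := nm_nonneg y; positivity) fun i j => ?_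
  have e1 : (x * y).1 i j = ∑ l, x.1 i l * y.1 l j := by
    rw [Matrix.SpecialLinearGroup.coe_mul, Matrix.mul_apply]
  rw [e1]
  calc ‖∑ l, x.1 i l * y.1 l j‖ ≤ ∑ l, ‖x.1 i l * y.1 l j‖ := norm_sum_le _ _
    _ ≤ ∑ _l : Fin (N + 1), nm x * nm y := by
        refine Finset.sum_le_sum fun l _ => ?_
        rw [norm_mul]
        exact mul_le_mul (entry_le x i l) (entry_le y l j) (norm_nonneg _) (nm_nonneg x)
    _ = (N + 1 : ℕ) * nm x * nm y := by
        rw [Finset.sum_const, Finset.card_univ, Fintype.card_fin, nsmul_eq_mul, mul_assoc]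

/-- the scalar of two elements of `SL` which differ by a scalar has norm one -/
theorem norm_scalar {x y : GG k N} {c : k} (h : x.1 = c • y.1) : ‖c‖ = 1 := by
  have h1 := congrArg Matrix.det h
  rw [Matrix.det_smul, x.2, y.2, mul_one, Fintype.card_fin] at h1
  have h2 := congrArg norm h1
  rw [norm_one, norm_pow] at h2
  exact (pow_eq_one_iff_of_nonneg (norm_nonneg c) (Nat.succ_ne_zero N)).1 h2.symm

theorem nm_scalar {x y : GG k N} {c : k} (h : x.1 = c • y.1) : nm x = nm y := by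
  have hc := norm_scalar h
  have e1 : ∀ i j, ‖x.1 i j‖ = ‖y.1 i j‖ := fun i j => by
    rw [h, Matrix.smul_apply, smul_eq_mul, norm_mul, hc, one_mul]
  refine le_antisymm (nm_le (nm_nonneg y) fun i j => ?_) (nm_le (nm_nonneg x) fun i j => ?_)
  · rw [e1]; exact entry_le y i j
  · rw [← e1]; exact entry_le x i j

theorem ph_trans {Γ : Type} [Group Γ] {q : Γ → GG k N} (hq : PH q) (γ : Γ) :
    ∃ d : ℝ, 1 ≤ d ∧ ∀ y, nm (q (γ * y)) ≤ d * nm (q y) := by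
  refine ⟨max 1 ((N + 1 : ℕ) * nm (q γ)), le_max_left _ _, fun y => ?_⟩
  obtain ⟨c, hc⟩ := hq γ y
  have e1 : nm (q (γ * y)) = nm (q γ * q y) := nm_scalar hc
  rw [e1]
  refine (nm_mul_le _ _).trans ?_
  exact mul_le_mul_of_nonneg_right (le_max_right _ _) (nm_nonneg _)

theorem ct_scalar {x y : GG k N} {c : k} (h : x.1 = c • y.1) :
    ∃ c' : k, (ct x).1 = c' • (ct y).1 := by
  have hc : ‖c‖ = 1 := norm_scalar h
  have hc0 : c ≠ 0 := by
    intro h0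
    rw [h0, norm_zero] at hc
    exact zero_ne_one hc
  refine ⟨c⁻¹, ?_⟩
  have e1 : ∀ z : GG k N, (ct z).1 = (z⁻¹).1.transpose := fun z => rfl
  have e2 : (x⁻¹).1 = c⁻¹ • (y⁻¹).1 := by
    have h3 : x.1 * (c⁻¹ • (y⁻¹).1) = 1 := by
      rw [h, Matrix.smul_mul, Matrix.mul_smul, smul_smul, mul_inv_cancel₀ hc0, one_smul,
        ← Matrix.SpecialLinearGroup.coe_mul, mul_inv_cancel, Matrix.SpecialLinearGroup.coe_one]
    have h4 : (x⁻¹).1 * x.1 = 1 := by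
      rw [← Matrix.SpecialLinearGroup.coe_mul, inv_mul_cancel, Matrix.SpecialLinearGroup.coe_one]
    calc (x⁻¹).1 = (x⁻¹).1 * (x.1 * (c⁻¹ • (y⁻¹).1)) := by rw [h3, mul_one]
      _ = (x⁻¹).1 * x.1 * (c⁻¹ • (y⁻¹).1) := by rw [mul_assoc]
      _ = c⁻¹ • (y⁻¹).1 := by rw [h4, one_mul]
  rw [e1, e1, e2, Matrix.transpose_smul]

theorem ph_ct {Γ : Type} [Group Γ] {q : Γ → GG k N} (hq : PH q) : PH fun γ => ct (q γ) := by
  intro γ γ'
  obtain ⟨c, hc⟩ := hq γ γ'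
  obtain ⟨c', hc'⟩ := ct_scalar hc
  refine ⟨c', ?_⟩
  rw [← map_mul]
  exact hc'

theorem un_tendsto {j : Fin (N + 1)} (hj : (0 : Fin (N + 1)) ≠ j) :
    Tendsto (fun s : k => un hj s) (𝓝 0) (𝓝 1) := by
  have h1 : Continuous fun s : k => un hj s := by
    refine Continuous.subtype_mk ?_ _
    refine continuous_matrix fun a b => ?_
    simp only [Matrix.transvection, Matrix.add_apply, Matrix.single_apply]
    split_ifs <;> fun_prop
  have h2 := h1.tendsto 0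
  have h3 : un hj (0 : k) = 1 := by
    apply Subtype.ext
    change Matrix.transvection 0 j (0 : k) = 1
    exact Matrix.transvection_zero 0 j
  rwa [h3] at h2

theorem ct_cont : Continuous (ct : GG k N → GG k N) := by
  refine Continuous.subtype_mk ?_ _
  have h1 : Continuous fun g : GG k N => (g⁻¹).1 :=
    continuous_subtype_val.comp continuous_inv
  exact h1.matrix_transpose

end size

/-! ### The counting principle for one calculus -/

section main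

variable {k : Type} [NontriviallyNormedField k] [ProperSpace k] {N : ℕ} {E Γ K : Type} [Group E]
  [TopologicalSpace E] [Group Γ] [NormedAddCommGroup K] [InnerProductSpace ℂ K] [CompleteSpace K]
  [MeasurableSpace k] [BorelSpace k] {μ : Measure k} [IsFiniteMeasureOnCompacts μ]
  [μ.IsOpenPosMeasure]
  {w : kˣ} {ι : GG k N →* E} {a a' : E →* PG k (N + 1)} {π : E →* (K →L[ℂ] K)}
  {lam : Γ →* (K →L[ℂ] K)} {W : Set (K →L[ℂ] K)} {Ω : K} {m : Set Γ → (K →L[ℂ] K)}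
  {q : Γ → GG k N} {Z : ℝ → Set Γ} {Ec F : YY k N → (CY k N →⋆ₐ[ℂ] (K →L[ℂ] K))}

/-- **Counting for one family of calculi.** -/
theorem fam_mul_zero (htg : IsTopologicalGroup E) (hι : Continuous ι) (hP : Pic π lam W Ω)
    (hM : Ms lam W Ω m) (hUC : UC π W Ω m) (hph : PH q) {j : Fin (N + 1)}
    (hj : (0 : Fin (N + 1)) ≠ j)
    (horb : ∃ ρ : ℝ, 0 < ρ ∧ ρ < 1 ∧ ORBG μ (ι (bw w)) (fun s => ι (un hj s)) ρ π lam W Ω)
    (hsize : SIZEG (ι (bw w)) π Ω m fun γ => nm (q γ))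
    (hE : EFam w ι a π lam W m q Z Ec) {g : GG k N} {B : K →L[ℂ] K} (hB : Cm W B)
    (hb : Commute B (π (ι (g * bw w * g⁻¹)))) (hn : ∀ s, Commute B (π (ι (g * un hj s * g⁻¹))))
    {A : Set (YY k N)} (hA : IsOpen A) {u : CY k N} (hu : tsupport u ⊆ A)
    (hc : ∀ R : ℝ, ∃ T > 0, ∃ (C : ℝ) (d : ℕ), ∀ J : ℝ, 0 ≤ J → ∀ S : Finset Γ,
      (∀ γ ∈ S, γ ∈ NWA q Z R T A ∧ Real.log (nm (q γ)) ≤ J) →
      ∑ γ ∈ S, ‖adjoint B (lam γ Ω)‖ ^ 2 ≤ C * (1 + J) ^ d) :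
    Ec (g • y0) u * B = 0 := by
  haveI := htg
  obtain ⟨ρ, hρ, hρ1, hORB⟩ := horb
  have hnc : Tendsto (fun s : k => ι (un hj s)) (𝓝 0) (𝓝 1) := by
    have h1 := (hι.tendsto 1).comp (un_tendsto (k := k) hj)
    rwa [map_one] at h1
  have hb' : Commute B (π (ι g * ι (bw w) * (ι g)⁻¹)) := by
    rw [← map_mul, ← map_inv, ← map_mul]
    exact hb
  have hn' : ∀ s, Commute B (π (ι g * ι (un hj s) * (ι g)⁻¹)) := fun s => by
    rw [← map_mul, ← map_inv, ← map_mul]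
    exact hn s
  refine H790.CTA.mul_zero_of_dom (μ := μ) (n := fun s => ι (un hj s)) (b := ι (bw w)) (ρ := ρ)
    (H790.CT.PicL.of_pic hP) hM hUC hρ.le hnc hORB (ph_trans hph) hsize (g := ι g) hB hb' hn'
    (c := ‖u‖) ?_
  intro ζ ε hε
  obtain ⟨R, hR⟩ := hE.dom g u A hA hu ζ ε hε
  obtain ⟨T, hT, C, d, hcT⟩ := hc R
  obtain ⟨η, hη, hpoly⟩ := H790.CTA.of_poly (K := K) (lam := lam) (Ω := Ω)
    (sz := fun γ => nm (q γ)) hρ hρ1 (fun γ => nm_pos (q γ)) d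
  refine ⟨NWA q Z R T A, ⟨η, hη, hpoly B (NWA q Z R T A) C hcT⟩, ?_⟩
  filter_upwards [hR T hT] with t ht
  have e1 : (ι g * ι (bw w) ^ t * (ι g)⁻¹)⁻¹ = (ι (g * bw w ^ t * g⁻¹))⁻¹ := by
    rw [map_mul, map_mul, map_pow, map_inv]
  rw [e1]
  exact ht

/-- **The counting principle for the points.** -/
theorem e_mul_zero (h : LegN μ w ι a a' π lam W Ω m q Z Ec F) {g : GG k N} {j : Fin (N + 1)}
    (hj : (0 : Fin (N + 1)) ≠ j) {B : K →L[ℂ] K} (hB : Cm W B)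
    (hb : Commute B (π (ι (g * bw w * g⁻¹)))) (hn : ∀ s, Commute B (π (ι (g * un hj s * g⁻¹))))
    {A : Set (YY k N)} (hA : IsOpen A) {u : CY k N} (hu : tsupport u ⊆ A)
    (hc : ∀ R : ℝ, ∃ T > 0, ∃ (C : ℝ) (d : ℕ), ∀ J : ℝ, 0 ≤ J → ∀ S : Finset Γ,
      (∀ γ ∈ S, γ ∈ NWA q Z R T A ∧ Real.log (nm (q γ)) ≤ J) →
      ∑ γ ∈ S, ‖adjoint B (lam γ Ω)‖ ^ 2 ≤ C * (1 + J) ^ d) :
    Ec (g • y0) u * B = 0 :=
  fam_mul_zero (μ := μ) h.adm.tg h.adm.cι h.pic h.ms h.uc h.ph hj (h.orb hj) h.size h.e hB hb hn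
    hA hu hc

/-- **The counting principle for the hyperplanes.** -/
theorem f_mul_zero (h : LegN μ w ι a a' π lam W Ω m q Z Ec F) {g : GG k N} {j : Fin (N + 1)}
    (hj : (0 : Fin (N + 1)) ≠ j) {B : K →L[ℂ] K} (hB : Cm W B)
    (hb : Commute B (π (ι (ct (g * bw w * g⁻¹)))))
    (hn : ∀ s, Commute B (π (ι (ct (g * un hj s * g⁻¹)))))
    {A : Set (YY k N)} (hA : IsOpen A) {u : CY k N} (hu : tsupport u ⊆ A)
    (hc : ∀ R : ℝ, ∃ T > 0, ∃ (C : ℝ) (d : ℕ), ∀ J : ℝ, 0 ≤ J → ∀ S : Finset Γ,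
      (∀ γ ∈ S, γ ∈ NWA (fun γ => ct (q γ)) Z R T A ∧ Real.log (nm (ct (q γ))) ≤ J) →
      ∑ γ ∈ S, ‖adjoint B (lam γ Ω)‖ ^ 2 ≤ C * (1 + J) ^ d) :
    F (g • y0) u * B = 0 :=
  fam_mul_zero (μ := μ) (ι := ι.comp ct) (a := a') h.adm.tg (h.adm.cι.comp ct_cont) h.pic h.ms
    h.uc (ph_ct h.ph) hj (h.orb' hj) h.size' h.f hB hb hn hA hu hc

/-- The adjoint of a `Cm` operator against the orbit of `Ω`: only the covariance is needed. -/
theorem adj_lam (hP : Pic π lam W Ω) {B B' : K →L[ℂ] K} {γ : Γ}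
    (h : lam γ⁻¹ * adjoint B * lam γ = B') : ‖adjoint B (lam γ Ω)‖ = ‖B' Ω‖ := by
  rw [← h]
  exact (H790.CT.lam_norm (H790.CT.PicL.of_pic hP) γ⁻¹ (adjoint B (lam γ Ω))).symm

end main

end Vale.Agent.P092.H790.CTN
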