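import Vale.Agent.P092.H790.TgtUltra
import Vale.Agent.P092.H213.Rp.Defs
import Mathlib.LinearAlgebra.Eigenspace.Zero

/-!
P092 (helper790), project RP: `Tgt` for the groups of the class `RP`, from the Cartan decomposition
with bounded factors.
-/

set_option linter.all false

open Finset Module Matrix Filter Topology

namespace Vale.Agent.P092.H790.Mrg

open Vale.Agent.P092.H515 (Tgt)
open Vale.Agent.P092.H213.Rp (RP Nil eu ex tor)

section alg
variable {k L : Type} [Field k] [LieRing L] [LieAlgebra k L]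

theorem isNilpotent_ex_sub {M : Type} [AddCommGroup M] [Module k M] {X : Module.End k M}
    (hX : IsNilpotent X) : IsNilpotent (ex X - 1) := by
  have e : ex X - 1 = X * ∑ i ∈ Finset.range (finrank k M), (((i + 1).factorial : k)⁻¹) • X ^ i := by
    rw [ex, Finset.sum_range_succ']
    simp only [Nat.factorial_zero, Nat.cast_one, inv_one, pow_zero, one_smul, add_sub_cancel_right]
    rw [Finset.mul_sum]
    refine Finset.sum_congr rfl fun i _ => ?_
    rw [mul_smul_comm, pow_succ']
  rw [e]
  refine Commute.isNilpotent_mul_right ?_ hX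
  refine Commute.sum_right _ _ _ fun i _ => ?_
  exact ((Commute.refl X).pow_right i).smul_right _

theorem det_one_add_nil {M : Type} [AddCommGroup M] [Module k M] [FiniteDimensional k M]
    {X : Module.End k M} (hX : IsNilpotent (X - 1)) : LinearMap.det X = 1 := by
  have h1 : IsNilpotent (1 - X) := by
    have := hX.neg
    rwa [neg_sub] at this
  have h2 := h1.charpoly_eq_X_pow_finrank
  have h3 := LinearMap.eval_charpoly (1 - X) (1 : k)
  rw [h2] at h3
  simp only [Polynomial.eval_pow, Polynomial.eval_X, one_pow, map_one, sub_sub_cancel] at h3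
  exact h3.symm

theorem det_ex {M : Type} [AddCommGroup M] [Module k M] [FiniteDimensional k M]
    {X : Module.End k M} (hX : IsNilpotent X) : LinearMap.det (ex X) = 1 :=
  det_one_add_nil (isNilpotent_ex_sub hX)

end alg

section top

variable {k : Type} [NontriviallyNormedField k] {L : Type} [LieRing L] [LieAlgebra k L] {n r : ℕ}
  {G : Type} [Group G] [TopologicalSpace G] {b : Basis (Fin n) k L} {ρ : G →* Module.End k L}

theorem det_rp (hρ : RP b ρ) (g : G) : LinearMap.det (ρ g) = 1 := by
  have : FiniteDimensional k L := b.finiteDimensional_of_finite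
  have h : g ∈ Subgroup.closure {g : G | ∃ x : L, Nil k x ∧ ρ g = eu k x} := by
    rw [hρ.gen]
    exact Subgroup.mem_top g
  obtain ⟨φ, hφ⟩ : ∃ φ : G →* k, ∀ g, φ g = LinearMap.det (ρ g) :=
    ⟨(LinearMap.det : Module.End k L →* k).comp ρ, fun _ => rfl⟩
  rw [← hφ]
  induction h using Subgroup.closure_induction with
  | mem x hx =>
    obtain ⟨y, hy, e⟩ := hx
    rw [hφ, e]
    exact det_ex hy
  | one => exact map_one _
  | mul x y _ _ hx hy => rw [map_mul, hx, hy, one_mul]
  | inv x _ hx =>
    have h1 : φ x * φ x⁻¹ = 1 := by rw [← map_mul, mul_inv_cancel, map_one]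
    rwa [hx, one_mul] at h1

/-- the homomorphism to matrices -/
noncomputable def mt (b : Basis (Fin n) k L) (ρ : G →* Module.End k L) :
    G →* Matrix (Fin n) (Fin n) k :=
  (LinearMap.toMatrixAlgEquiv b : Module.End k L ≃ₐ[k] Matrix (Fin n) (Fin n) k).toMulEquiv.toMonoidHom.comp ρ

theorem mt_apply (b : Basis (Fin n) k L) (ρ : G →* Module.End k L) (g : G) :
    mt b ρ g = LinearMap.toMatrix b b (ρ g) := rfl

/-- A closed embedding in one basis is one in another basis. -/
theorem emb_basis (b b' : Basis (Fin n) k L)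
    (h : IsClosedEmbedding fun g => LinearMap.toMatrix b b (ρ g)) :
    IsClosedEmbedding fun g => LinearMap.toMatrix b' b' (ρ g) := by
  obtain ⟨P, hP⟩ : ∃ P, P = b.toMatrix b' := ⟨_, rfl⟩
  obtain ⟨Q, hQ⟩ : ∃ Q, Q = b'.toMatrix b := ⟨_, rfl⟩
  have h1 : P * Q = 1 := by rw [hP, hQ]; exact b.toMatrix_mul_toMatrix_flip b'
  have h2 : Q * P = 1 := by rw [hP, hQ]; exact b'.toMatrix_mul_toMatrix_flip b
  obtain ⟨e, he⟩ : ∃ e : Matrix (Fin n) (Fin n) k ≃ₜ Matrix (Fin n) (Fin n) k,
      ∀ M, e M = Q * M * P :=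
    ⟨{ toFun := fun M => Q * M * P
       invFun := fun M => P * M * Q
       left_inv := fun M => by
         show P * (Q * M * P) * Q = M
         calc P * (Q * M * P) * Q = (P * Q) * M * (P * Q) := by simp only [Matrix.mul_assoc]
           _ = M := by rw [h1, Matrix.one_mul, Matrix.mul_one]
       right_inv := fun M => by
         show Q * (P * M * Q) * P = M
         calc Q * (P * M * Q) * P = (Q * P) * M * (Q * P) := by simp only [Matrix.mul_assoc]
           _ = M := by rw [h2, Matrix.one_mul, Matrix.mul_one]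
       continuous_toFun := by
         exact (continuous_const.matrix_mul continuous_id).matrix_mul continuous_const
       continuous_invFun := by
         exact (continuous_const.matrix_mul continuous_id).matrix_mul continuous_const },
      fun M => rfl⟩
  have h3 : (fun g => LinearMap.toMatrix b' b' (ρ g)) =
      fun g => e (LinearMap.toMatrix b b (ρ g)) := by
    funext g
    rw [he, hP, hQ]
    exact (basis_toMatrix_mul_linearMap_toMatrix_mul_basis_toMatrix b' b b' b (ρ g)).symm
  rw [h3]
  exact e.isClosedEmbedding.comp h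

theorem toMatrix_tor (b : Basis (Fin n) k L) (wt : Fin n → Fin r → ℤ) (t : Fin r → kˣ) :
    LinearMap.toMatrix b b (tor b wt t) = diagonal fun i => ((∏ a, t a ^ wt i a : kˣ) : k) := by
  ext i j
  rw [LinearMap.toMatrix_apply, tor, Basis.constr_basis, map_smul, Basis.repr_self, diagonal_apply,
    Finsupp.smul_single, smul_eq_mul, mul_one, Finsupp.single_apply]
  by_cases h : j = i
  · subst h
    simp
  · rw [if_neg h, if_neg (Ne.symm h)]

/-- **[RP-TGT]**: `Tgt` from the Cartan decomposition with bounded factors. -/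
theorem tgt_rp [ProperSpace k] [IsUltrametricDist k] (hρ : RP b ρ) (b' : Basis (Fin n) k L)
    (wt : Fin n → Fin r → ℤ) (π : kˣ) (C : ℝ)
    (car : ∀ g, ∃ (κ κi κ' κi' : Module.End k L) (t : Fin r → ℤ), κ * κi = 1 ∧ κ' * κi' = 1 ∧
      (∀ i j, ‖LinearMap.toMatrix b' b' κ i j‖ ≤ C) ∧ (∀ i j, ‖LinearMap.toMatrix b' b' κi i j‖ ≤ C) ∧
      (∀ i j, ‖LinearMap.toMatrix b' b' κ' i j‖ ≤ C) ∧
      (∀ i j, ‖LinearMap.toMatrix b' b' κi' i j‖ ≤ C) ∧
      ρ g = κ * tor b' wt (fun a => π ^ t a) * κ') : Tgt G r := by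
  have hn : 0 < n := by
    obtain ⟨x, hx, -⟩ := hρ.iso
    rcases Nat.eq_zero_or_pos n with h | h
    · subst h
      exact absurd (b'.ext_elem fun i => i.elim0 : x = 0) hx
    · exact h
  refine tgt_ultra hn (mt b' ρ) (emb_basis b b' hρ.emb) (fun g => ?_)
    (Submodule.span ℝ (Set.range fun (a : Fin r) (i : Fin n) => (wt i a : ℝ))) ?_ (max C 0)
    fun g => ?_
  · rw [mt_apply, LinearMap.det_toMatrix, det_rp hρ, norm_one]
  · refine (finrank_range_le_card _).trans ?_
    rw [Fintype.card_fin]
  · obtain ⟨κ, κi, κ', κi', t, h1, h2, h3, h4, h5, h6, h7⟩ := car g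
    refine ⟨LinearMap.toMatrix b' b' κ, LinearMap.toMatrix b' b' κi, LinearMap.toMatrix b' b' κ',
      LinearMap.toMatrix b' b' κi', fun i => ((∏ a, (π ^ t a) ^ wt i a : kˣ) : k), fun i => ∑ a, ((t a : ℝ) * Real.log ‖(π : k)‖) * (wt i a : ℝ),
      ?_, ?_, ?_, fun i j => (h3 i j).trans (le_max_left _ _),
      fun i j => (h4 i j).trans (le_max_left _ _), fun i j => (h5 i j).trans (le_max_left _ _),
      fun i j => (h6 i j).trans (le_max_left _ _), ?_, fun i => ?_⟩
    · have e : (fun i => ∑ a, ((t a : ℝ) * Real.log ‖(π : k)‖) * (wt i a : ℝ)) =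
          ∑ a, ((t a : ℝ) * Real.log ‖(π : k)‖) • fun (i : Fin n) => (wt i a : ℝ) := by
        funext i
        rw [Finset.sum_apply]
        rfl
      rw [e]
      exact Submodule.sum_mem _ fun a _ => Submodule.smul_mem _ _ (Submodule.subset_span ⟨a, rfl⟩)
    · rw [← LinearMap.toMatrix_mul, h1, LinearMap.toMatrix_one]
    · rw [← LinearMap.toMatrix_mul, h2, LinearMap.toMatrix_one]
    · rw [mt_apply, h7, LinearMap.toMatrix_mul, LinearMap.toMatrix_mul, toMatrix_tor]
    · have e : Real.log ‖((∏ a, (π ^ t a) ^ wt i a : kˣ) : k)‖ =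
          ∑ a, ((t a : ℝ) * Real.log ‖(π : k)‖) * (wt i a : ℝ) := by
        rw [Units.coe_prod, norm_prod, Real.log_prod]
        · refine Finset.sum_congr rfl fun a _ => ?_
          rw [Units.val_zpow_eq_zpow_val, Units.val_zpow_eq_zpow_val, norm_zpow, norm_zpow,
            Real.log_zpow, Real.log_zpow]
          ring
        · intro a _
          exact norm_ne_zero_iff.mpr (Units.ne_zero _)
      rw [e, sub_self, abs_zero]
      exact le_max_right _ _

end top

end Vale.Agent.P092.H790.Mrg
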