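import Vale.Agent.P092.H790.CTM

/-!
P092 (helper790), team D, block [D-CT]: the counting theorem. If `B` commutes with `W`, with
`π (g b g⁻¹)` and with the root group `π (g un s g⁻¹)` expanded by it, and if few elements of `Γ`
carry `B`, then `E (g e₀) u * B = 0`.
-/

set_option linter.all false

open scoped InnerProductSpace ENNReal LinearAlgebra.Projectivization
open Filter Topology ContinuousLinearMap MeasureTheory TopologicalSpace

namespace Vale.Agent.P092.H790.CT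

open Vale.Agent.P092.SD
open Vale.Agent.P092.RC (Cm TRN Pic)

theorem continuous_un {k : Type} [NontriviallyNormedField k] :
    Continuous (un : k → G3 k) := by
  refine continuous_induced_rng.2 ?_
  refine continuous_pi fun i => continuous_pi fun j => ?_
  change Continuous fun s : k =>
    (1 : Matrix (Fin 3) (Fin 3) k) i j + (Matrix.single (0 : Fin 3) 1 s) i j
  refine continuous_const.add ?_
  simp only [Matrix.single_apply]
  by_cases h : 0 = i ∧ 1 = j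
  · simp only [h, and_self, if_true]
    exact continuous_id
  · simp only [h, if_false]
    exact continuous_const

theorem un_zero {k : Type} [Field k] : (un 0 : G3 k) = 1 :=
  Matrix.SpecialLinearGroup.transvection_coeff_zero _

section main

variable {k : Type} [NontriviallyNormedField k] [ProperSpace k] {Γ K : Type}
  [Group Γ] [NormedAddCommGroup K] [InnerProductSpace ℂ K] [CompleteSpace K]
  {w : kˣ} {π : G3 k →* (K →L[ℂ] K)} {lam : Γ →* (K →L[ℂ] K)} {W : Set (K →L[ℂ] K)} {Ω : K}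
  {m : Set Γ → (K →L[ℂ] K)} {q : Γ →* G3 k}

theorem conj_pow' (g b : G3 k) (N : ℕ) : g * b ^ N * g⁻¹ = (g * b * g⁻¹) ^ N := by
  rw [conj_pow]

theorem comm_inv {B : K →L[ℂ] K} {g : G3 k} (h : Commute B (π g)) : Commute B (π g⁻¹) := by
  have h1 : π g * π g⁻¹ = 1 := by rw [← map_mul, mul_inv_cancel, map_one]
  have h2 : π g⁻¹ * π g = 1 := by rw [← map_mul, inv_mul_cancel, map_one]
  change B * π g⁻¹ = π g⁻¹ * B
  calc B * π g⁻¹ = (π g⁻¹ * π g) * (B * π g⁻¹) := by rw [h2, one_mul]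
    _ = π g⁻¹ * (π g * B) * π g⁻¹ := by simp only [mul_assoc]
    _ = π g⁻¹ * (B * π g) * π g⁻¹ := by rw [h.eq]
    _ = π g⁻¹ * B * (π g * π g⁻¹) := by simp only [mul_assoc]
    _ = π g⁻¹ * B := by rw [h1, mul_one]

theorem comm_pow {B : K →L[ℂ] K} {g : G3 k} (h : Commute B (π g)) (N : ℕ) :
    Commute B (π (g ^ N)) := by
  rw [map_pow]
  exact h.pow_right N

variable [MeasurableSpace k] [BorelSpace k] {μ : Measure k} [IsFiniteMeasureOnCompacts μ]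
  [μ.IsOpenPosMeasure]

/-- **Counting at the vector `Ω`**, pointwise form: `δ` depends only on `g` and `ε`. -/
theorem count_pt (hP : PicL π lam W Ω) (hM : Ms lam W Ω m) (hUC : UC π W Ω m)
    (hORB : ORB μ w π lam W Ω) (g : G3 k) {ε : ℝ} (hε : 0 < ε) :
    ∃ δ > 0, ∀ B : K →L[ℂ] K, Cm W B → ‖B‖ ≤ 1 → Commute B (π (g * bw w * g⁻¹)) →
      (∀ s, Commute B (π (g * un s * g⁻¹))) → ∀ (N : ℕ) (D : Set Γ),
      ENNReal.ofReal (‖(w : k)‖ ^ (3 * N)) * TRN lam Ω (m D * B) ≤ ENNReal.ofReal δ →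
        ‖m D (B (π (g * bw w ^ N * g⁻¹)⁻¹ Ω))‖ ≤ ε := by
  -- small group elements
  have hcont : Continuous fun s : k => (g * un s * g⁻¹)⁻¹ := by
    have := continuous_un (k := k)
    fun_prop
  have h0 : Tendsto (fun s : k => (g * un s * g⁻¹)⁻¹) (𝓝 0) (𝓝 1) := by
    have h1 := hcont.tendsto 0
    simpa [un_zero] using h1
  have h1 := h0.eventually (hUC (ε / 2) (half_pos hε))
  obtain ⟨r₀, hr₀, hr₀'⟩ := Metric.eventually_nhds_iff_ball.1 h1
  obtain ⟨r, hrdef⟩ : ∃ r : ℝ, r = min (r₀ / 2) 1 := ⟨_, rfl⟩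
  have hr : 0 < r := by rw [hrdef]; positivity
  have hr1 : r ≤ 1 := by rw [hrdef]; exact min_le_right _ _
  have hrr₀ : r < r₀ := by
    rw [hrdef]
    exact (min_le_left _ _).trans_lt (half_lt_self hr₀)
  have hμ0 : μ (Metric.closedBall (0 : k) r) ≠ 0 := (Metric.measure_closedBall_pos μ 0 hr).ne'
  have hμt : μ (Metric.closedBall (0 : k) r) ≠ ∞ := (isCompact_closedBall (0 : k) r).measure_ne_top
  obtain ⟨v, hv⟩ : ∃ v : ℝ, v = (μ (Metric.closedBall (0 : k) r)).toReal := ⟨_, rfl⟩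
  have hv0 : 0 < v := by rw [hv]; exact ENNReal.toReal_pos hμ0 hμt
  have hvm : μ (Metric.closedBall (0 : k) r) = ENNReal.ofReal v := by
    rw [hv, ENNReal.ofReal_toReal hμt]
  obtain ⟨q', hq'⟩ : ∃ q' : ℝ, q' = v * (ε / 2) ^ 2 / 4 := ⟨_, rfl⟩
  have hq0 : 0 < q' := by rw [hq']; positivity
  obtain ⟨C, hC⟩ := hORB g q' hq0
  have hC1 : (0 : ℝ) < |C| + 1 := by positivity
  refine ⟨q' / (|C| + 1), div_pos hq0 hC1, fun B hB hB1 hb hn N D hN => ?_⟩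
  obtain ⟨h, hh⟩ : ∃ h : G3 k, h = (g * bw w ^ N * g⁻¹)⁻¹ := ⟨_, rfl⟩
  rw [← hh]
  by_contra hcon
  rw [not_le] at hcon
  have hTcm : Cm W (m D * B) := fun w' hw' => by
    rw [mul_assoc, hB w' hw', ← mul_assoc, hM.cm _ w' hw', mul_assoc]
  have hT1 : ‖m D * B‖ ≤ 1 := by
    refine (norm_mul_le _ _).trans ?_
    calc ‖m D‖ * ‖B‖ ≤ 1 * 1 :=
          mul_le_mul (ms_norm hM _) hB1 (norm_nonneg _) zero_le_one
      _ = 1 := one_mul 1
  have hup := hC N (m D * B) hTcm hT1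
  -- lower bound
  have hlow : ∀ s ∈ Metric.closedBall (0 : k) r, ENNReal.ofReal ((ε / 2) ^ 2) ≤
      ‖(m D * B) (π (g * bw w ^ N * un s * g⁻¹)⁻¹ Ω)‖ₑ ^ 2 := by
    intro s hs
    obtain ⟨g', hg'⟩ : ∃ g' : G3 k, g' = (g * un s * g⁻¹)⁻¹ := ⟨_, rfl⟩
    have e1 : (g * bw w ^ N * un s * g⁻¹)⁻¹ = g' * h := by
      rw [hg', hh]
      group
    have hBg : Commute B (π g') := by
      rw [hg']
      exact comm_inv (hn s)
    have e2 : (m D * B) (π (g * bw w ^ N * un s * g⁻¹)⁻¹ Ω) =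
        m D (π g' (B (π h Ω))) := by
      rw [e1, map_mul, mulA, mulA]
      congr 1
      exact congrArg (fun A : K →L[ℂ] K => A (π h Ω)) hBg.eq
    have hs' : s ∈ Metric.ball (0 : k) r₀ := Metric.closedBall_subset_ball hrr₀ hs
    have h2 := hr₀' s hs' D B hB hB1 h
    rw [← hg'] at h2
    have h3 : (m D * π g' - π g' * m D) (B (π h Ω)) =
        m D (π g' (B (π h Ω))) - π g' (m D (B (π h Ω))) := rfl
    rw [h3] at h2
    have h4 : ‖π g' (m D (B (π h Ω)))‖ = ‖m D (B (π h Ω))‖ := pi_norm hP _ _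
    have h5 := norm_sub_norm_le (π g' (m D (B (π h Ω)))) (m D (π g' (B (π h Ω))))
    rw [norm_sub_rev, h4] at h5
    have h6 : ε / 2 ≤ ‖m D (π g' (B (π h Ω)))‖ := by linarith
    rw [e2, ← ofReal_norm, ← ENNReal.ofReal_pow (norm_nonneg _)]
    exact ENNReal.ofReal_le_ofReal (pow_le_pow_left₀ (by positivity) h6 2)
  have hlow2 : ENNReal.ofReal ((ε / 2) ^ 2) * ENNReal.ofReal v ≤
      ∫⁻ s in Metric.closedBall (0 : k) 1,
        ‖(m D * B) (π (g * bw w ^ N * un s * g⁻¹)⁻¹ Ω)‖ₑ ^ 2 ∂μ := by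
    rw [← hvm, ← setLIntegral_const]
    refine (setLIntegral_mono' Metric.isClosed_closedBall.measurableSet hlow).trans ?_
    exact lintegral_mono_set (Metric.closedBall_subset_closedBall hr1)
  have hup2 : ENNReal.ofReal (C * ‖(w : k)‖ ^ (3 * N)) * TRN lam Ω (m D * B) ≤
      ENNReal.ofReal q' := by
    have e1 : ENNReal.ofReal (C * ‖(w : k)‖ ^ (3 * N)) ≤
        ENNReal.ofReal |C| * ENNReal.ofReal (‖(w : k)‖ ^ (3 * N)) := by
      rw [← ENNReal.ofReal_mul (abs_nonneg C)]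
      refine ENNReal.ofReal_le_ofReal ?_
      gcongr
      exact le_abs_self C
    calc ENNReal.ofReal (C * ‖(w : k)‖ ^ (3 * N)) * TRN lam Ω (m D * B)
        ≤ ENNReal.ofReal |C| * ENNReal.ofReal (‖(w : k)‖ ^ (3 * N)) *
            TRN lam Ω (m D * B) := by gcongr
      _ = ENNReal.ofReal |C| * (ENNReal.ofReal (‖(w : k)‖ ^ (3 * N)) *
            TRN lam Ω (m D * B)) := mul_assoc _ _ _
      _ ≤ ENNReal.ofReal |C| * ENNReal.ofReal (q' / (|C| + 1)) := by gcongr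
      _ = ENNReal.ofReal (|C| * (q' / (|C| + 1))) := (ENNReal.ofReal_mul (abs_nonneg C)).symm
      _ ≤ ENNReal.ofReal q' := by
          refine ENNReal.ofReal_le_ofReal ?_
          calc |C| * (q' / (|C| + 1)) ≤ (|C| + 1) * (q' / (|C| + 1)) := by
                gcongr
                linarith
            _ = q' := by field_simp
  have hfin := hlow2.trans (hup.trans (add_le_add_left hup2 _))
  rw [← ENNReal.ofReal_mul (by positivity), ← ENNReal.ofReal_add hq0.le hq0.le] at hfin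
  have h9 := (ENNReal.ofReal_le_ofReal_iff (by positivity)).1 hfin
  rw [hq'] at h9
  nlinarith [mul_pos hv0 (pow_pos (half_pos hε) 2)]

/-- the counting sum at time `N` over the set `D` -/
noncomputable def csm (w : kˣ) (lam : Γ →* (K →L[ℂ] K)) (Ω : K) (B : K →L[ℂ] K)
    (D : Set Γ) (N : ℕ) : ℝ≥0∞ :=
  ENNReal.ofReal (‖(w : k)‖ ^ (3 * N)) * ∑' γ : D, ‖adjoint B (lam γ Ω)‖ₑ ^ 2

theorem csm_mono {B : K →L[ℂ] K} {D D' : Set Γ} (h : D ⊆ D') (N : ℕ) :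
    csm w lam Ω B D N ≤ csm w lam Ω B D' N := by
  unfold csm
  refine mul_le_mul_right ?_ _
  exact ENNReal.tsum_mono_subtype (fun γ => ‖adjoint B (lam γ Ω)‖ₑ ^ 2) h

theorem csm_smul (z : ℂ) (B : K →L[ℂ] K) (D : Set Γ) (N : ℕ) :
    csm w lam Ω (z • B) D N = ‖z‖ₑ ^ 2 * csm w lam Ω B D N := by
  unfold csm
  rw [mul_left_comm]
  congr 1
  rw [← ENNReal.tsum_mul_left]
  refine tsum_congr fun γ => ?_
  have e2 : adjoint (z • B : K →L[ℂ] K) (lam γ Ω) =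
      (starRingEnd ℂ z) • adjoint B (lam γ Ω) := by
    have e3 : adjoint (z • B : K →L[ℂ] K) = (starRingEnd ℂ z) • adjoint B := by
      exact map_smulₛₗ (adjoint : (K →L[ℂ] K) ≃ₗᵢ⋆[ℂ] (K →L[ℂ] K)) z B
    rw [e3]
    rfl
  rw [e2, enorm_smul, mul_pow]
  congr 2
  rw [← ofReal_norm_eq_enorm, ← ofReal_norm_eq_enorm, RCLike.norm_conj]

theorem csm_trans (hP : PicL π lam W Ω) (γ : Γ) (B : K →L[ℂ] K) (D : Set Γ) (N : ℕ) :
    csm w lam Ω (lam γ⁻¹ * B * lam γ) {y | γ * y ∈ D} N = csm w lam Ω B D N := by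
  unfold csm
  congr 1
  have e1 : ∀ y : Γ, ‖adjoint (lam γ⁻¹ * B * lam γ) (lam y Ω)‖ₑ =
      ‖adjoint B (lam (γ * y) Ω)‖ₑ := by
    intro y
    have e2 : adjoint (lam γ⁻¹ * B * lam γ) = lam γ⁻¹ * adjoint B * lam γ := by
      rw [mul_def, mul_def, adjoint_comp, adjoint_comp, hP.adjL, hP.adjL, inv_inv]
      rfl
    rw [e2, mulA, mulA, ← mulA (lam γ), ← map_mul, ← ofReal_norm_eq_enorm,
      ← ofReal_norm_eq_enorm, lam_norm hP]
  let e : {y | γ * y ∈ D} ≃ D :=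
    { toFun := fun y => ⟨γ * y.1, y.2⟩
      invFun := fun x => ⟨γ⁻¹ * x.1, by
        change γ * (γ⁻¹ * x.1) ∈ D
        rw [mul_inv_cancel_left]
        exact x.2⟩
      left_inv := fun y => Subtype.ext (inv_mul_cancel_left γ y.1)
      right_inv := fun x => Subtype.ext (mul_inv_cancel_left γ x.1) }
  rw [← e.tsum_eq (fun x : D => ‖adjoint B (lam x Ω)‖ₑ ^ 2)]
  refine tsum_congr fun y => ?_
  rw [e1]
  rfl

theorem commute_smul {B X : K →L[ℂ] K} (c : ℂ) (h : Commute B X) : Commute (c • B) X :=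
  h.smul_left c

theorem norm_scale (B : K →L[ℂ] K) : ‖((‖B‖ + 1 : ℝ) : ℂ)⁻¹ • B‖ ≤ 1 := by
  have h1 : (0 : ℝ) < ‖B‖ + 1 := by positivity
  rw [norm_smul, norm_inv, Complex.norm_real, Real.norm_of_nonneg h1.le]
  calc (‖B‖ + 1)⁻¹ * ‖B‖ ≤ (‖B‖ + 1)⁻¹ * (‖B‖ + 1) := by
        gcongr
        linarith
    _ = 1 := inv_mul_cancel₀ h1.ne'

section gen

variable {I : Type} [Nonempty I] {l : Filter ℕ} {Sz : I → ℕ → Set Γ}

/-- The counting principle at `Ω`, norm at most one. -/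
theorem gen_om1 (hP : PicL π lam W Ω) (hM : Ms lam W Ω m) (hUC : UC π W Ω m)
    (hORB : ORB μ w π lam W Ω) {g : G3 k}
    (hdir : ∀ i i', ∃ j, ∀ᶠ N in l, Sz j N ⊆ Sz i N ∧ Sz j N ⊆ Sz i' N)
    (htr : ∀ γ i, ∃ j, ∀ᶠ N in l, {y | γ * y ∈ Sz j N} ⊆ Sz i N)
    (h0 : ∀ ε > 0, ∃ i, ∀ᶠ N in l, ‖m (Sz i N) (π (g * bw w ^ N * g⁻¹)⁻¹ Ω)‖ ≤ ε)
    {B : K →L[ℂ] K} (hB : Cm W B)
    (hB1 : ‖B‖ ≤ 1)
    (hb : Commute B (π (g * bw w * g⁻¹))) (hn : ∀ s, Commute B (π (g * un s * g⁻¹)))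
    {A : Set Γ} (hc : ∀ i, Tendsto (fun N => csm w lam Ω B (A ∩ (Sz i N)ᶜ) N) l (𝓝 0)) :
    Tendsto (fun N : ℕ => m A (B (π (g * bw w ^ N * g⁻¹)⁻¹ Ω))) l (𝓝 0) := by
  rw [NormedAddCommGroup.tendsto_nhds_zero]
  intro ε hε
  obtain ⟨i, hsz⟩ := tails hP hM (fun N => (g * bw w ^ N * g⁻¹)⁻¹) Sz inferInstance hdir htr h0
    (B Ω) (ε / 4) (by positivity)
  obtain ⟨δ, hδ, hcount⟩ := count_pt (μ := μ) hP hM hUC hORB g (ε := ε / 4) (by positivity)
  have h1 := (ENNReal.tendsto_nhds_zero.1 (hc i)) (ENNReal.ofReal δ) (ENNReal.ofReal_pos.2 hδ)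
  filter_upwards [hsz, h1] with N h2 h3
  have h4 := hcount B hB hB1 hb hn N (A ∩ (Sz i N)ᶜ)
    (by rw [trn_mask hP hM hB]; exact h3)
  have hBh : Commute B (π (g * bw w ^ N * g⁻¹)⁻¹) := by
    rw [conj_pow']
    exact comm_inv (comm_pow hb _)
  have eBh : π (g * bw w ^ N * g⁻¹)⁻¹ (B Ω) = B (π (g * bw w ^ N * g⁻¹)⁻¹ Ω) :=
    (congrArg (fun A : K →L[ℂ] K => A Ω) hBh.eq).symm
  rw [eBh] at h2
  rw [ms_split hM A (Sz i N)]
  refine (norm_add_le _ _).trans_lt ?_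
  have h5 := (ms_mono hM (Set.inter_subset_right : A ∩ Sz i N ⊆ Sz i N)
    (B (π (g * bw w ^ N * g⁻¹)⁻¹ Ω))).trans h2
  linarith

/-- The counting principle at `Ω`. -/
theorem gen_om (hP : PicL π lam W Ω) (hM : Ms lam W Ω m) (hUC : UC π W Ω m)
    (hORB : ORB μ w π lam W Ω) {g : G3 k}
    (hdir : ∀ i i', ∃ j, ∀ᶠ N in l, Sz j N ⊆ Sz i N ∧ Sz j N ⊆ Sz i' N)
    (htr : ∀ γ i, ∃ j, ∀ᶠ N in l, {y | γ * y ∈ Sz j N} ⊆ Sz i N)
    (h0 : ∀ ε > 0, ∃ i, ∀ᶠ N in l, ‖m (Sz i N) (π (g * bw w ^ N * g⁻¹)⁻¹ Ω)‖ ≤ ε)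
    {B : K →L[ℂ] K} (hB : Cm W B)
    (hb : Commute B (π (g * bw w * g⁻¹))) (hn : ∀ s, Commute B (π (g * un s * g⁻¹)))
    {A : Set Γ} (hc : ∀ i, Tendsto (fun N => csm w lam Ω B (A ∩ (Sz i N)ᶜ) N) l (𝓝 0)) :
    Tendsto (fun N : ℕ => m A (B (π (g * bw w ^ N * g⁻¹)⁻¹ Ω))) l (𝓝 0) := by
  obtain ⟨z, hz⟩ : ∃ z : ℂ, z = ((‖B‖ + 1 : ℝ) : ℂ)⁻¹ := ⟨_, rfl⟩
  have h1 : (0 : ℝ) < ‖B‖ + 1 := by positivity
  have hz0 : z ≠ 0 := by
    rw [hz]
    exact inv_ne_zero (by exact_mod_cast h1.ne')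
  have hB' : Cm W (z • B) := fun w' hw' => by
    rw [smul_mul_assoc, hB w' hw', mul_smul_comm]
  have hc' : ∀ i, Tendsto (fun N => csm w lam Ω (z • B) (A ∩ (Sz i N)ᶜ) N) l (𝓝 0) := by
    intro i
    simp_rw [csm_smul]
    have hzt : ‖z‖ₑ ^ 2 ≠ ∞ := ENNReal.pow_ne_top enorm_ne_top
    have h2 : Tendsto (fun N => ‖z‖ₑ ^ 2 * csm w lam Ω B (A ∩ (Sz i N)ᶜ) N) l
        (𝓝 (‖z‖ₑ ^ 2 * 0)) := ENNReal.Tendsto.const_mul (hc i) (Or.inr hzt)
    rwa [mul_zero] at h2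
  have h3 := gen_om1 (μ := μ) hP hM hUC hORB hdir htr h0 hB' (by rw [hz]; exact norm_scale B)
    (commute_smul z hb) (fun s => commute_smul z (hn s)) hc'
  have h4 := h3.const_smul z⁻¹
  rw [smul_zero] at h4
  refine h4.congr fun N => ?_
  have e5 : (z • B) (π (g * bw w ^ N * g⁻¹)⁻¹ Ω) =
      z • B (π (g * bw w ^ N * g⁻¹)⁻¹ Ω) := rfl
  rw [e5, map_smul, smul_smul, inv_mul_cancel₀ hz0, one_smul]

/-- **The counting principle**, general form: any filter of times, any family of tail sets. -/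
theorem cnt_gen (hP : PicL π lam W Ω) (hM : Ms lam W Ω m) (hUC : UC π W Ω m)
    (hORB : ORB μ w π lam W Ω) {g : G3 k}
    (hdir : ∀ i i', ∃ j, ∀ᶠ N in l, Sz j N ⊆ Sz i N ∧ Sz j N ⊆ Sz i' N)
    (htr : ∀ γ i, ∃ j, ∀ᶠ N in l, {y | γ * y ∈ Sz j N} ⊆ Sz i N)
    (h0 : ∀ ε > 0, ∃ i, ∀ᶠ N in l, ‖m (Sz i N) (π (g * bw w ^ N * g⁻¹)⁻¹ Ω)‖ ≤ ε)
    {B : K →L[ℂ] K} (hB : Cm W B)
    (hb : Commute B (π (g * bw w * g⁻¹))) (hn : ∀ s, Commute B (π (g * un s * g⁻¹)))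
    {A : Set Γ} (hc : ∀ i, Tendsto (fun N => csm w lam Ω B (A ∩ (Sz i N)ᶜ) N) l (𝓝 0)) (ζ : K) :
    Tendsto (fun N : ℕ => m A (B (π (g * bw w ^ N * g⁻¹)⁻¹ ζ))) l (𝓝 0) := by
  refine all_vec hP hM (fun N => (g * bw w ^ N * g⁻¹)⁻¹) (T := fun _ => m A * B)
    (fun _ w' hw' => by rw [mul_assoc, hB w' hw', ← mul_assoc, hM.cm _ w' hw', mul_assoc])
    (C := ‖m A * B‖) (fun _ => le_rfl) ?_ ζ
  intro γ
  -- the translated operator
  have hl1 : lam γ * lam γ⁻¹ = 1 := by rw [← map_mul, mul_inv_cancel, map_one]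
  have hl2 : lam γ⁻¹ * lam γ = 1 := by rw [← map_mul, inv_mul_cancel, map_one]
  obtain ⟨B', hB'⟩ : ∃ B', B' = lam γ⁻¹ * B * lam γ := ⟨_, rfl⟩
  have hcm : Cm W B' := fun w' hw' => by
    rw [hB']
    calc lam γ⁻¹ * B * lam γ * w' = lam γ⁻¹ * B * (lam γ * w') := by simp only [mul_assoc]
      _ = lam γ⁻¹ * B * (w' * lam γ) := by rw [hP.WL w' hw']
      _ = lam γ⁻¹ * (B * w') * lam γ := by simp only [mul_assoc]
      _ = lam γ⁻¹ * (w' * B) * lam γ := by rw [hB w' hw']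
      _ = (lam γ⁻¹ * w') * (B * lam γ) := by simp only [mul_assoc]
      _ = (w' * lam γ⁻¹) * (B * lam γ) := by rw [hP.WL w' hw']
      _ = w' * (lam γ⁻¹ * B * lam γ) := by simp only [mul_assoc]
  have hcom : ∀ h : G3 k, Commute B (π h) → Commute B' (π h) := by
    intro h hh
    rw [hB']
    have h1 : Commute (lam γ⁻¹) (π h) := (hP.comm h γ⁻¹).symm
    have h2 : Commute (lam γ) (π h) := (hP.comm h γ).symm
    exact (h1.mul_left hh).mul_left h2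
  obtain ⟨A', hA'⟩ : ∃ A' : Set Γ, A' = {y | γ * y ∈ A} := ⟨_, rfl⟩
  have hc' : ∀ i, Tendsto (fun N => csm w lam Ω B' (A' ∩ (Sz i N)ᶜ) N) l (𝓝 0) := by
    intro i
    obtain ⟨j, hj⟩ := htr γ i
    refine tendsto_of_tendsto_of_tendsto_of_le_of_le' tendsto_const_nhds (hc j)
      (Eventually.of_forall fun N => zero_le) ?_
    filter_upwards [hj] with N hN
    rw [← csm_trans hP γ B (A ∩ (Sz j N)ᶜ) N, hB']
    refine csm_mono ?_ N
    intro y hy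
    rw [hA'] at hy
    exact ⟨hy.1, fun hy2 => hy.2 (hN hy2)⟩
  have h1 := gen_om (μ := μ) hP hM hUC hORB hdir htr h0 hcm (hcom _ hb)
    (fun s => hcom _ (hn s)) hc'
  have h2 := ((lam γ).continuous.tendsto 0).comp h1
  rw [map_zero] at h2
  refine h2.congr fun N => ?_
  change lam γ (m A' (B' (π (g * bw w ^ N * g⁻¹)⁻¹ Ω))) =
    (m A * B) (π (g * bw w ^ N * g⁻¹)⁻¹ (lam γ Ω))
  have e1 : π (g * bw w ^ N * g⁻¹)⁻¹ (lam γ Ω) =
      lam γ (π (g * bw w ^ N * g⁻¹)⁻¹ Ω) :=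
    congrArg (fun A : K →L[ℂ] K => A Ω) (hP.comm _ γ)
  have e2 : B * lam γ = lam γ * B' := by
    rw [hB', ← mul_assoc, ← mul_assoc, hl1, one_mul]
  rw [e1, mulA, ← mulA B, e2, mulA, ms_lam hM, ← hA']

end gen

end main

section sizes

variable {k : Type} [NontriviallyNormedField k] [ProperSpace k] {Γ K : Type}
  [Group Γ] [NormedAddCommGroup K] [InnerProductSpace ℂ K] [CompleteSpace K]
  {w : kˣ} {π : G3 k →* (K →L[ℂ] K)} {lam : Γ →* (K →L[ℂ] K)} {W : Set (K →L[ℂ] K)} {Ω : K}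
  {m : Set Γ → (K →L[ℂ] K)} {q : Γ →* G3 k}
  [MeasurableSpace k] [BorelSpace k] {μ : Measure k} [IsFiniteMeasureOnCompacts μ]
  [μ.IsOpenPosMeasure]

/-- **The counting principle with `SIZE`**: `A` any subset of `Γ`; the count is needed only up to
the size `exp (exp (η N))` at time `N`, for one `η > 0`. -/
theorem cnt_size (hP : PicL π lam W Ω) (hM : Ms lam W Ω m) (hUC : UC π W Ω m)
    (hORB : ORB μ w π lam W Ω) (hS : SIZE w π Ω m q) {g : G3 k} {B : K →L[ℂ] K} (hB : Cm W B)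
    (hb : Commute B (π (g * bw w * g⁻¹))) (hn : ∀ s, Commute B (π (g * un s * g⁻¹)))
    {A : Set Γ} {η : ℝ} (hη : 0 < η)
    (hc : Tendsto (fun N : ℕ => csm w lam Ω B
      {γ | γ ∈ A ∧ nm (q γ) ≤ Real.exp (Real.exp (η * N))} N) atTop (𝓝 0)) (ζ : K) :
    Tendsto (fun N : ℕ => m A (B (π (g * bw w ^ N * g⁻¹)⁻¹ ζ))) atTop (𝓝 0) := by
  haveI : Nonempty {i : ℝ // 0 < i ∧ i < η} := ⟨⟨η / 2, half_pos hη, half_lt_self hη⟩⟩
  refine cnt_gen (μ := μ) hP hM hUC hORB (I := {i : ℝ // 0 < i ∧ i < η})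
    (Sz := fun i N => {γ | Real.exp (Real.exp (i.1 * N)) < nm (q γ)}) ?_ ?_ ?_ hB hb hn ?_ ζ
  · rintro ⟨i, hi, hi'⟩ ⟨i', hj, hj'⟩
    refine ⟨⟨max i i', lt_max_of_lt_left hi, max_lt hi' hj'⟩, Eventually.of_forall fun N =>
      ⟨fun γ hγ => ?_, fun γ hγ => ?_⟩⟩
    · refine lt_of_le_of_lt ?_ (show Real.exp (Real.exp (max i i' * N)) < nm (q γ) from hγ)
      refine Real.exp_le_exp.2 (Real.exp_le_exp.2 ?_)
      exact mul_le_mul_of_nonneg_right (le_max_left _ _) (Nat.cast_nonneg N)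
    · refine lt_of_le_of_lt ?_ (show Real.exp (Real.exp (max i i' * N)) < nm (q γ) from hγ)
      refine Real.exp_le_exp.2 (Real.exp_le_exp.2 ?_)
      exact mul_le_mul_of_nonneg_right (le_max_right _ _) (Nat.cast_nonneg N)
  · rintro γ ⟨i, hi, hi'⟩
    obtain ⟨d, hd, -, h1, -⟩ := exists_dist (q γ)
    have hd0 : 0 < d := by linarith
    obtain ⟨j, hij, hjη⟩ := exists_between hi'
    refine ⟨⟨j, hi.trans hij, hjη⟩, ?_⟩
    have h2 : Tendsto (fun N : ℕ => Real.exp (j * N) - Real.exp (i * N)) atTop atTop := by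
      have h3 : Tendsto (fun N : ℕ => (j - i) * (N : ℝ)) atTop atTop :=
        Tendsto.const_mul_atTop (by linarith) tendsto_natCast_atTop_atTop
      refine tendsto_atTop_mono (fun N => ?_) h3
      have h4 : (0 : ℝ) ≤ N := Nat.cast_nonneg N
      have h5 : Real.exp (j * N) = Real.exp (i * N) * Real.exp ((j - i) * N) := by
        rw [← Real.exp_add]
        congr 1
        ring
      have h6 : (1 : ℝ) ≤ Real.exp (i * N) := Real.one_le_exp (by positivity)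
      have h7 : (j - i) * N + 1 ≤ Real.exp ((j - i) * N) := Real.add_one_le_exp _
      have h8 : 0 ≤ (j - i) * N := mul_nonneg (by linarith) h4
      rw [h5]
      nlinarith
    filter_upwards [h2.eventually (eventually_ge_atTop (Real.log d))] with N hN y hy
    have hy' : Real.exp (Real.exp (j * N)) < nm (q (γ * y)) := hy
    change Real.exp (Real.exp (i * N)) < nm (q y)
    rw [map_mul] at hy'
    have h9 := hy'.trans_le (h1 (q y))
    have h10 : Real.exp (Real.exp (j * N)) = d * Real.exp (Real.exp (j * N) - Real.log d) := by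
      rw [Real.exp_sub, Real.exp_log hd0]
      field_simp
    rw [h10] at h9
    have h11 := lt_of_mul_lt_mul_left h9 hd0.le
    refine lt_of_le_of_lt (Real.exp_le_exp.2 ?_) h11
    linarith
  · intro ε hε
    exact ⟨⟨η / 2, half_pos hη, half_lt_self hη⟩, hS g (η / 2) (half_pos hη) ε hε⟩
  · rintro ⟨i, hi, hi'⟩
    refine tendsto_of_tendsto_of_tendsto_of_le_of_le tendsto_const_nhds hc
      (fun N => zero_le) fun N => csm_mono ?_ N
    rintro γ ⟨h1, h2⟩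
    refine ⟨h1, (not_lt.1 (show ¬ Real.exp (Real.exp (i * N)) < nm (q γ) from h2)).trans ?_⟩
    refine Real.exp_le_exp.2 (Real.exp_le_exp.2 ?_)
    exact mul_le_mul_of_nonneg_right hi'.le (Nat.cast_nonneg N)

end sizes

end Vale.Agent.P092.H790.CT
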