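import Vale.Agent.P092.SD.Defs

/-!
P092 (helper790), team D, block [D-CT]: near-wall, attracting point, size under translations.
-/

set_option linter.all false

open scoped InnerProductSpace ENNReal LinearAlgebra.Projectivization
open Filter Topology ContinuousLinearMap MeasureTheory TopologicalSpace

namespace Vale.Agent.P092.H790.CT

open Vale.Agent.P092.SD

variable {k : Type} [NontriviallyNormedField k]

theorem entry_le (h : G3 k) (i j : Fin 3) : ‖h.1 i j‖ ≤ nm h :=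
  (norm_le_pi_norm (h.1 i) j).trans (norm_le_pi_norm (fun i j => h.1 i j : Fin 3 → Fin 3 → k) i)

theorem nm_nonneg (h : G3 k) : 0 ≤ nm h := norm_nonneg _

theorem nm_le {h : G3 k} {C : ℝ} (hC : 0 ≤ C) (H : ∀ i j, ‖h.1 i j‖ ≤ C) : nm h ≤ C :=
  (pi_norm_le_iff_of_nonneg hC).2 fun i => (pi_norm_le_iff_of_nonneg hC).2 fun j => H i j

theorem nm_mul (g h : G3 k) : nm (g * h) ≤ 3 * nm g * nm h := by
  have h0 : 0 ≤ 3 * nm g * nm h := mul_nonneg (mul_nonneg (by norm_num) (nm_nonneg g)) (nm_nonneg h)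
  refine nm_le h0 fun i j => ?_
  rw [Matrix.SpecialLinearGroup.coe_mul, Matrix.mul_apply]
  refine (norm_sum_le _ _).trans ?_
  refine (Finset.sum_le_sum fun l _ => show ‖g.1 i l * h.1 l j‖ ≤ nm g * nm h from ?_).trans ?_
  · rw [norm_mul]
    exact mul_le_mul (entry_le g i l) (entry_le h l j) (norm_nonneg _) (nm_nonneg g)
  · rw [Finset.sum_const, Finset.card_univ, Fintype.card_fin, nsmul_eq_mul]
    push_cast
    linarith

theorem nm_pos (g : G3 k) : 0 < nm g := by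
  rcases (nm_nonneg g).lt_or_eq with h | h
  · exact h
  · exfalso
    have h1 : ∀ i j, g.1 i j = 0 := fun i j => by
      have := entry_le g i j
      rw [← h] at this
      exact norm_le_zero_iff.1 this
    have h2 := g.2
    have h3 : g.1 = 0 := by ext i j; exact h1 i j
    rw [h3, Matrix.det_zero] at h2
    exact zero_ne_one h2

/-- all translations by `g` distort the sizes at most by `c` -/
theorem exists_dist (g : G3 k) : ∃ c : ℝ, 1 ≤ c ∧ 3 * nm g ≤ c ∧ (∀ h, nm (g * h) ≤ c * nm h) ∧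
    (∀ h, nm (g⁻¹ * h) ≤ c * nm h) ∧ (∀ h, nm (h * g) ≤ c * nm h) ∧
    ∀ h, nm (h * g⁻¹) ≤ c * nm h := by
  refine ⟨3 * nm g + 3 * nm g⁻¹ + 1, ?_, ?_, fun h => ?_, fun h => ?_, fun h => ?_, fun h => ?_⟩
  · have := nm_nonneg g
    have := nm_nonneg g⁻¹
    linarith
  · have := nm_nonneg g⁻¹
    linarith
  all_goals
    have a := nm_nonneg g
    have b := nm_nonneg g⁻¹
    have c := nm_nonneg h
  · have := nm_mul g h
    nlinarith
  · have := nm_mul g⁻¹ h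
    nlinarith
  · have := nm_mul h g
    nlinarith
  · have := nm_mul h g⁻¹
    nlinarith

theorem nw_trans {g : G3 k} {c : ℝ} (hc : 1 ≤ c)
    (h2 : ∀ h, nm (g⁻¹ * h) ≤ c * nm h) (h4 : ∀ h, nm (h * g⁻¹) ≤ c * nm h) {R : ℝ} (hR : 0 ≤ R) {y : G3 k}
    (hy : NW R (g⁻¹ * y)) : NW (c ^ 3 * R) y := by
  unfold NW at hy ⊢
  have e1 : y⁻¹ = (g⁻¹ * y)⁻¹ * g⁻¹ := by group
  have a1 : nm y⁻¹ ≤ c * nm (g⁻¹ * y)⁻¹ := by
    conv_lhs => rw [e1]
    exact h4 _
  have a2 := h2 y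
  have a3 : nm y⁻¹ ^ 2 ≤ (c * nm (g⁻¹ * y)⁻¹) ^ 2 := pow_le_pow_left₀ (nm_nonneg _) a1 2
  have c0 : (0 : ℝ) ≤ c := by linarith
  calc nm y⁻¹ ^ 2 ≤ (c * nm (g⁻¹ * y)⁻¹) ^ 2 := a3
    _ = c ^ 2 * nm (g⁻¹ * y)⁻¹ ^ 2 := by ring
    _ ≤ c ^ 2 * (R * nm (g⁻¹ * y)) := by gcongr
    _ ≤ c ^ 2 * (R * (c * nm y)) := by gcongr
    _ = c ^ 3 * R * nm y := by ring

theorem att_trans {g : G3 k} {c : ℝ} (hc : 1 ≤ c) (hg : 3 * nm g ≤ c)
    (h2 : ∀ h, nm (g⁻¹ * h) ≤ c * nm h) {T : ℝ} (hT : 0 < T)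
    {A : Set (PP k)} {y : G3 k}
    (hy : Att T {x | g • x ∈ A} (g⁻¹ * y)) : Att (T / c ^ 2) A y := by
  obtain ⟨v, φ, hv, hvA, H⟩ := hy
  have c0 : (0 : ℝ) < c := by linarith
  refine ⟨g • v, φ, (smul_ne_zero_iff_ne g).mpr hv, hvA, fun i j => ?_⟩
  have e1 : y.1 i j - (g • v) i * φ j = ∑ l, g.1 i l * ((g⁻¹ * y).1 l j - v l * φ j) := by
    have e2 : y.1 i j = ∑ l, g.1 i l * (g⁻¹ * y).1 l j := by
      have e3 : y = g * (g⁻¹ * y) := by group
      conv_lhs => rw [e3]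
      rw [Matrix.SpecialLinearGroup.coe_mul, Matrix.mul_apply]
    have e4 : (g • v) i = ∑ l, g.1 i l * v l := by
      rw [Matrix.SpecialLinearGroup.smul_def]
      rfl
    rw [e2, e4, Finset.sum_mul, ← Finset.sum_sub_distrib]
    refine Finset.sum_congr rfl fun l _ => ?_
    ring
  rw [e1]
  refine (norm_sum_le _ _).trans ?_
  refine (Finset.sum_le_sum fun l _ => show ‖g.1 i l * ((g⁻¹ * y).1 l j - v l * φ j)‖ ≤
    nm g * (nm (g⁻¹ * y) / T) from ?_).trans ?_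
  · rw [norm_mul]
    exact mul_le_mul (entry_le g i l) (H l j) (norm_nonneg _) (nm_nonneg g)
  · rw [Finset.sum_const, Finset.card_univ, Fintype.card_fin, nsmul_eq_mul]
    push_cast
    have a2 := h2 y
    have a3 : nm (g⁻¹ * y) / T ≤ c * nm y / T := by gcongr
    calc (3 : ℝ) * (nm g * (nm (g⁻¹ * y) / T)) = (3 * nm g) * (nm (g⁻¹ * y) / T) := by ring
      _ ≤ c * (c * nm y / T) := by
          refine mul_le_mul hg a3 ?_ c0.le
          exact div_nonneg (nm_nonneg _) hT.le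
      _ = nm y / (T / c ^ 2) := by
          field_simp

theorem nw_mono {R R' : ℝ} (h : R ≤ R') {y : G3 k} (hy : NW R y) : NW R' y :=
  hy.trans (mul_le_mul_of_nonneg_right h (nm_nonneg y))

/-- the three conditions under a translation -/
theorem exists_trans (g : G3 k) : ∃ c : ℝ, 1 ≤ c ∧ ∀ R : ℝ, ∀ T > 0, ∀ (A : Set (PP k)) (y : G3 k),
    NW R (g⁻¹ * y) → Att T {x | g • x ∈ A} (g⁻¹ * y) →
      NW (c ^ 3 * |R|) y ∧ Att (T / c ^ 2) A y := by
  obtain ⟨c, hc, hg, h1, h2, h3, h4⟩ := exists_dist g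
  exact ⟨c, hc, fun R T hT A y hN hA => ⟨nw_trans hc h2 h4 (abs_nonneg R)
    (nw_mono (le_abs_self R) hN), att_trans hc hg h2 hT hA⟩⟩

end Vale.Agent.P092.H790.CT
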