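import Vale.Agent.P092.H790.CTG

/-!
P092 (helper790), team D, block [D-CT]: the masks `m S`; sizes of all vectors; cyclicity.
-/

set_option linter.all false

open scoped InnerProductSpace ENNReal LinearAlgebra.Projectivization
open Filter Topology ContinuousLinearMap MeasureTheory TopologicalSpace

namespace Vale.Agent.P092.H790.CT

open Vale.Agent.P092.SD
open Vale.Agent.P092.RC (Cm TRN Pic)

section ms

theorem mulA {K : Type} [NormedAddCommGroup K] [InnerProductSpace ℂ K] (A B : K →L[ℂ] K) (x : K) :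
    (A * B) x = A (B x) := rfl

theorem oneA {K : Type} [NormedAddCommGroup K] [InnerProductSpace ℂ K] (x : K) :
    (1 : K →L[ℂ] K) x = x := rfl

variable {Γ K : Type} [Group Γ] [NormedAddCommGroup K] [InnerProductSpace ℂ K] [CompleteSpace K]
  {lam : Γ →* (K →L[ℂ] K)} {W : Set (K →L[ℂ] K)} {Ω : K} {m : Set Γ → (K →L[ℂ] K)}
  (h : Ms lam W Ω m)

include h in
theorem ms_inf_app (S T : Set Γ) (x : K) : m (S ∩ T) x = m S (m T x) :=
  congrArg (fun A : K →L[ℂ] K => A x) (h.inf S T)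

include h in
theorem ms_compl_app (S : Set Γ) (x : K) : m Sᶜ x = x - m S x :=
  congrArg (fun A : K →L[ℂ] K => A x) (h.compl S)

include h in
theorem ms_idem (S : Set Γ) (x : K) : m S (m S x) = m S x := by
  rw [← ms_inf_app h, Set.inter_self]

include h in
theorem ms_contr (S : Set Γ) (x : K) : ‖m S x‖ ≤ ‖x‖ := by
  have h1 : ⟪m S x, m S x⟫_ℂ = ⟪x, m S x⟫_ℂ := by
    rw [← adjoint_inner_right, h.adj, ms_idem h]
  have h2 : ‖m S x‖ ^ 2 ≤ ‖x‖ * ‖m S x‖ := by
    have e1 : ((‖m S x‖ ^ 2 : ℝ) : ℂ) = ⟪x, m S x⟫_ℂ := by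
      rw [← h1, inner_self_eq_norm_sq_to_K]
      norm_num
    have e2 := norm_inner_le_norm (𝕜 := ℂ) x (m S x)
    rw [← e1, Complex.norm_real, Real.norm_of_nonneg (sq_nonneg _)] at e2
    exact e2
  by_contra hc
  rw [not_le] at hc
  have h3 : 0 < ‖m S x‖ := (norm_nonneg x).trans_lt hc
  nlinarith

include h in
theorem ms_norm (S : Set Γ) : ‖m S‖ ≤ 1 :=
  ContinuousLinearMap.opNorm_le_bound _ zero_le_one fun x => by
    rw [one_mul]
    exact ms_contr h S x

include h in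
theorem ms_mono {S T : Set Γ} (hST : S ⊆ T) (x : K) : ‖m S x‖ ≤ ‖m T x‖ := by
  have e1 : m S x = m S (m T x) := by rw [← ms_inf_app h, Set.inter_eq_self_of_subset_left hST]
  rw [e1]
  exact ms_contr h S _

include h in
theorem ms_split (S T : Set Γ) (x : K) : m S x = m (S ∩ T) x + m (S ∩ Tᶜ) x := by
  rw [ms_inf_app h, ms_inf_app h, ← map_add, ms_compl_app h, add_sub_cancel]

include h in
theorem ms_empty : m (∅ : Set Γ) = 0 := by
  have e1 : m ((∅ : Set Γ) ∩ (∅ : Set Γ)ᶜ) = m ∅ * m (∅ : Set Γ)ᶜ := h.inf _ _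
  rw [h.compl, Set.empty_inter, mul_sub, mul_one, ← h.inf, Set.empty_inter, sub_self] at e1
  exact e1

include h in
theorem ms_union {S T : Set Γ} (hST : Disjoint S T) (x : K) : m (S ∪ T) x = m S x + m T x := by
  rw [ms_split h (S ∪ T) S x]
  congr 2
  · rw [Set.union_inter_cancel_left]
  · rw [Set.union_inter_distrib_right, Set.inter_compl_self, Set.empty_union]
    exact congrArg m (Set.inter_eq_self_of_subset_left fun a ha hs => hST.le_bot ⟨hs, ha⟩)

/-- `m S` moved through `lam γ` -/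
theorem ms_lam (h : Ms lam W Ω m) (S : Set Γ) (γ : Γ) (x : K) :
    m S (lam γ x) = lam γ (m {y | γ * y ∈ S} x) := by
  have e1 := h.cov γ {y | γ * y ∈ S}
  have e2 : (fun x => γ * x) '' {y | γ * y ∈ S} = S := by
    ext y
    constructor
    · rintro ⟨z, hz, rfl⟩
      exact hz
    · intro hy
      exact ⟨γ⁻¹ * y, by simpa using hy, by simp⟩
  rw [e2] at e1
  have e3 := congrArg (fun A : K →L[ℂ] K => A (lam γ x)) e1
  rw [mulA, mulA] at e3
  rw [← e3]
  congr 2
  rw [← mulA, ← map_mul, inv_mul_cancel, map_one, oneA]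

end ms

section cyc

/-- the algebraic part of `Pic` -/
structure PicL {G Γ K : Type} [Group G] [Group Γ] [NormedAddCommGroup K]
    [InnerProductSpace ℂ K] [CompleteSpace K] (π : G →* (K →L[ℂ] K)) (lam : Γ →* (K →L[ℂ] K))
    (W : Set (K →L[ℂ] K)) (Ω : K) : Prop where
  adjP : ∀ g, adjoint (π g) = π g⁻¹
  adjL : ∀ γ, adjoint (lam γ) = lam γ⁻¹
  comm : ∀ g γ, π g * lam γ = lam γ * π g
  Wadj : ∀ w ∈ W, adjoint w ∈ W
  WP : ∀ w ∈ W, ∀ g, π g * w * π g⁻¹ ∈ W
  WL : ∀ w ∈ W, ∀ γ, w * lam γ = lam γ * w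
  tr_adj : ∀ T, Cm W T → TRN lam Ω (adjoint T) = TRN lam Ω T

theorem PicL.of_pic {G Γ K : Type} [Group G] [TopologicalSpace G] [Group Γ]
    [NormedAddCommGroup K] [InnerProductSpace ℂ K] [CompleteSpace K] {π : G →* (K →L[ℂ] K)}
    {lam : Γ →* (K →L[ℂ] K)} {W : Set (K →L[ℂ] K)} {Ω : K} (h : Pic π lam W Ω) :
    PicL π lam W Ω := ⟨h.adjP, h.adjL, h.comm, h.Wadj, h.WP, h.WL, h.tr_adj⟩

theorem PicL.comp {G G' Γ K : Type} [Group G] [Group G'] [Group Γ]
    [NormedAddCommGroup K] [InnerProductSpace ℂ K] [CompleteSpace K] {π : G →* (K →L[ℂ] K)}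
    {lam : Γ →* (K →L[ℂ] K)} {W : Set (K →L[ℂ] K)} {Ω : K} (h : PicL π lam W Ω) (τ : G' →* G) :
    PicL (π.comp τ) lam W Ω where
  adjP g := (h.adjP (τ g)).trans (congrArg π (map_inv τ g).symm)
  adjL := h.adjL
  comm g γ := h.comm (τ g) γ
  Wadj := h.Wadj
  WP w hw g := by
    have e : (π.comp τ) g⁻¹ = π (τ g)⁻¹ := congrArg π (map_inv τ g)
    rw [e]
    exact h.WP w hw (τ g)
  WL := h.WL
  tr_adj := h.tr_adj

variable {G Γ K : Type} [Group G] [Group Γ] [NormedAddCommGroup K]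
  [InnerProductSpace ℂ K] [CompleteSpace K]
  {π : G →* (K →L[ℂ] K)} {lam : Γ →* (K →L[ℂ] K)} {W : Set (K →L[ℂ] K)} {Ω : K}
  {m : Set Γ → (K →L[ℂ] K)}

/-- closure under the algebra generated by `W` -/
theorem adjoin_mem (hWs : ∀ w ∈ W, adjoint w ∈ W) (P : Submodule ℂ K)
    (hW : ∀ w ∈ W, ∀ x ∈ P, w x ∈ P) {w : K →L[ℂ] K} (hw : w ∈ StarAlgebra.adjoin ℂ W) :
    ∀ x ∈ P, w x ∈ P := by
  rw [← StarSubalgebra.mem_toSubalgebra, StarAlgebra.adjoin_toSubalgebra] at hw
  induction hw using Algebra.adjoin_induction with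
  | mem a ha =>
    rcases ha with ha | ha
    · exact hW a ha
    · have h1 := hWs _ (Set.mem_star.1 ha)
      rw [star_eq_adjoint, adjoint_adjoint] at h1
      exact hW a h1
  | algebraMap r =>
    intro x hx
    exact P.smul_mem r hx
  | add a b _ _ ha hb =>
    intro x hx
    exact P.add_mem (ha x hx) (hb x hx)
  | mul a b _ _ ha hb =>
    intro x hx
    exact ha _ (hb x hx)

/-- **Cyclicity.** -/
theorem cyc_top (hP : PicL π lam W Ω) (hM : Ms lam W Ω m) (P : Submodule ℂ K)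
    (hc : IsClosed (P : Set K)) (hΩ : Ω ∈ P) (hW : ∀ w ∈ W, ∀ x ∈ P, w x ∈ P)
    (hL : ∀ γ, ∀ x ∈ P, lam γ x ∈ P) (ζ : K) : ζ ∈ P := by
  have h1 : ∀ ξ, m {1} ξ = ξ → ξ ∈ P := by
    intro ξ hξ
    have h2 := hM.cyc ξ hξ
    have h3 : (Submodule.span ℂ {η | ∃ w ∈ StarAlgebra.adjoin ℂ W, η = w Ω} : Set K) ⊆ P := by
      refine Submodule.span_le.2 ?_
      rintro η ⟨w, hw, rfl⟩
      exact adjoin_mem hP.Wadj P hW hw _ hΩ
    exact (closure_minimal h3 hc) h2
  have h2 : ∀ γ, ∀ ξ, m {γ} ξ ∈ P := by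
    intro γ ξ
    have e1 : ξ = lam γ (lam γ⁻¹ ξ) := by
      rw [← mulA, ← map_mul, mul_inv_cancel, map_one, oneA]
    rw [e1, ms_lam hM]
    refine hL γ _ (h1 _ ?_)
    have e2 : {y | γ * y ∈ ({γ} : Set Γ)} = {1} := by
      ext y
      simp
    rw [e2]
    exact ms_idem hM _ _
  have h3 : ∀ F : Finset Γ, ∀ ξ, m (F : Set Γ) ξ ∈ P := by
    classical
    intro F
    induction F using Finset.induction_on with
    | empty =>
      intro ξ
      rw [Finset.coe_empty, ms_empty hM]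
      exact P.zero_mem
    | insert a s ha ih =>
      intro ξ
      rw [Finset.coe_insert, Set.insert_eq, ms_union hM]
      · exact P.add_mem (h2 a ξ) (ih ξ)
      · rw [Set.disjoint_singleton_left]
        exact_mod_cast ha
  have h4 : ζ ∈ closure (P : Set K) := by
    rw [Metric.mem_closure_iff]
    intro ε hε
    obtain ⟨F, hF⟩ := hM.fin ζ (ε / 2) (half_pos hε)
    refine ⟨m (F : Set Γ) ζ, h3 F ζ, ?_⟩
    rw [dist_eq_norm, ← ms_compl_app hM]
    linarith
  rwa [hc.closure_eq] at h4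

theorem pi_norm (hP : PicL π lam W Ω) (g : G) (x : K) : ‖π g x‖ = ‖x‖ := by
  have e1 : ⟪π g x, π g x⟫_ℂ = ⟪x, x⟫_ℂ := by
    rw [← adjoint_inner_right, hP.adjP, ← mulA, ← map_mul, inv_mul_cancel, map_one, oneA]
  rw [inner_self_eq_norm_sq_to_K, inner_self_eq_norm_sq_to_K] at e1
  have e2 : ‖π g x‖ ^ 2 = ‖x‖ ^ 2 := by exact_mod_cast e1
  exact (pow_left_inj₀ (norm_nonneg _) (norm_nonneg _) two_ne_zero).1 e2

theorem lam_norm (hP : PicL π lam W Ω) (g : Γ) (x : K) : ‖lam g x‖ = ‖x‖ := by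
  have e1 : ⟪lam g x, lam g x⟫_ℂ = ⟪x, x⟫_ℂ := by
    rw [← adjoint_inner_right, hP.adjL, ← mulA, ← map_mul, inv_mul_cancel, map_one, oneA]
  rw [inner_self_eq_norm_sq_to_K, inner_self_eq_norm_sq_to_K] at e1
  have e2 : ‖lam g x‖ ^ 2 = ‖x‖ ^ 2 := by exact_mod_cast e1
  exact (pow_left_inj₀ (norm_nonneg _) (norm_nonneg _) two_ne_zero).1 e2

/-- tails for all vectors, from tails at `Ω`: `Sz i N` is a family of tail sets, directed and
compatible with translations. -/
theorem tails {I : Type} (hP : PicL π lam W Ω) (hM : Ms lam W Ω m) {l : Filter ℕ} (b : ℕ → G)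
    (Sz : I → ℕ → Set Γ) (hI : Nonempty I)
    (hdir : ∀ i i', ∃ j, ∀ᶠ N in l, Sz j N ⊆ Sz i N ∧ Sz j N ⊆ Sz i' N)
    (htr : ∀ γ i, ∃ j, ∀ᶠ N in l, {y | γ * y ∈ Sz j N} ⊆ Sz i N)
    (h0 : ∀ ε > 0, ∃ i, ∀ᶠ N in l, ‖m (Sz i N) (π (b N) Ω)‖ ≤ ε) (ζ : K) :
    ∀ ε > 0, ∃ i, ∀ᶠ N in l, ‖m (Sz i N) (π (b N) ζ)‖ ≤ ε := by
  let P : Submodule ℂ K :=
    { carrier := {ζ | ∀ ε > 0, ∃ i, ∀ᶠ N in l, ‖m (Sz i N) (π (b N) ζ)‖ ≤ ε}
      add_mem' := by
        intro x y hx hy ε hε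
        obtain ⟨i, hi⟩ := hx (ε / 2) (half_pos hε)
        obtain ⟨i', hi'⟩ := hy (ε / 2) (half_pos hε)
        obtain ⟨j, hj⟩ := hdir i i'
        refine ⟨j, ?_⟩
        filter_upwards [hi, hi', hj] with N h1 h2 h3
        rw [map_add, map_add]
        refine (norm_add_le _ _).trans ?_
        have h4 := ms_mono hM h3.1 (π (b N) x)
        have h5 := ms_mono hM h3.2 (π (b N) y)
        linarith
      zero_mem' := by
        intro ε hε
        refine ⟨hI.some, Eventually.of_forall fun N => ?_⟩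
        rw [map_zero, map_zero, norm_zero]
        exact hε.le
      smul_mem' := by
        intro c x hx ε hε
        have hc : (0 : ℝ) < ‖c‖ + 1 := by positivity
        obtain ⟨i, hi⟩ := hx (ε / (‖c‖ + 1)) (div_pos hε hc)
        refine ⟨i, ?_⟩
        filter_upwards [hi] with N h1
        rw [map_smul, map_smul, norm_smul]
        calc ‖c‖ * ‖m (Sz i N) (π (b N) x)‖ ≤ (‖c‖ + 1) * (ε / (‖c‖ + 1)) := by
              gcongr
              linarith
          _ = ε := by field_simp }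
  have hPc : IsClosed (P : Set K) := by
    refine isClosed_of_closure_subset fun x hx => ?_
    intro ε hε
    obtain ⟨y, hy, hxy⟩ := Metric.mem_closure_iff.1 hx (ε / 2) (half_pos hε)
    obtain ⟨i, hi⟩ := hy (ε / 2) (half_pos hε)
    refine ⟨i, ?_⟩
    filter_upwards [hi] with N h1
    have e1 : m (Sz i N) (π (b N) x) = m (Sz i N) (π (b N) y) + m (Sz i N) (π (b N) (x - y)) := by
      rw [← map_add, ← map_add, add_sub_cancel]
    rw [e1]
    refine (norm_add_le _ _).trans ?_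
    have h2 : ‖m (Sz i N) (π (b N) (x - y))‖ ≤ ‖x - y‖ :=
      (ms_contr hM _ _).trans (pi_norm hP _ _).le
    rw [dist_eq_norm] at hxy
    linarith
  refine cyc_top hP hM P hPc h0 ?_ ?_ ζ
  · intro w hw x hx ε hε
    have hc : (0 : ℝ) < ‖w‖ + 1 := by positivity
    obtain ⟨i, hi⟩ := hx (ε / (‖w‖ + 1)) (div_pos hε hc)
    refine ⟨i, ?_⟩
    filter_upwards [hi] with N h1
    have hw' := hP.WP w hw (b N)
    have e1 : π (b N) (w x) = (π (b N) * w * π (b N)⁻¹) (π (b N) x) := by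
      rw [mulA, mulA, ← mulA (π (b N)⁻¹), ← map_mul, inv_mul_cancel, map_one,
        oneA]
    have e2 : m (Sz i N) ((π (b N) * w * π (b N)⁻¹) (π (b N) x)) =
        (π (b N) * w * π (b N)⁻¹) (m (Sz i N) (π (b N) x)) :=
      congrArg (fun A : K →L[ℂ] K => A (π (b N) x)) (hM.cm (Sz i N) _ hw')
    rw [e1, e2, mulA, mulA, pi_norm hP]
    calc ‖w (π (b N)⁻¹ (m (Sz i N) (π (b N) x)))‖
        ≤ ‖w‖ * ‖π (b N)⁻¹ (m (Sz i N) (π (b N) x))‖ := w.le_opNorm _
      _ = ‖w‖ * ‖m (Sz i N) (π (b N) x)‖ := by rw [pi_norm hP]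
      _ ≤ (‖w‖ + 1) * (ε / (‖w‖ + 1)) := by
          gcongr
          linarith
      _ = ε := by field_simp
  · intro γ x hx ε hε
    obtain ⟨i, hi⟩ := hx ε hε
    obtain ⟨j, hj⟩ := htr γ i
    refine ⟨j, ?_⟩
    filter_upwards [hi, hj] with N h1 h2
    have e1 : π (b N) (lam γ x) = lam γ (π (b N) x) :=
      congrArg (fun A : K →L[ℂ] K => A x) (hP.comm (b N) γ)
    rw [e1, ms_lam hM, lam_norm hP]
    exact (ms_mono hM h2 _).trans h1

/-- From the vectors `lam γ Ω` to all vectors. -/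
theorem all_vec (hP : PicL π lam W Ω) (hM : Ms lam W Ω m) {l : Filter ℕ} (b : ℕ → G)
    {T : ℕ → (K →L[ℂ] K)} (hT : ∀ n, Cm W (T n)) {C : ℝ} (hC : ∀ n, ‖T n‖ ≤ C)
    (h : ∀ γ, Tendsto (fun n => T n (π (b n) (lam γ Ω))) l (𝓝 0)) (ζ : K) :
    Tendsto (fun n => T n (π (b n) ζ)) l (𝓝 0) := by
  let P : Submodule ℂ K :=
    { carrier := {ζ | ∀ γ, Tendsto (fun n => T n (π (b n) (lam γ ζ))) l (𝓝 0)}
      add_mem' := by
        intro x y hx hy γ
        have h1 := (hx γ).add (hy γ)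
        rw [add_zero] at h1
        simpa only [map_add] using h1
      zero_mem' := by
        intro γ
        simp only [map_zero]
        exact tendsto_const_nhds
      smul_mem' := by
        intro c x hx γ
        have h1 := (hx γ).const_smul c
        rw [smul_zero] at h1
        simpa only [map_smul] using h1 }
  have hPc : IsClosed (P : Set K) := by
    refine isClosed_of_closure_subset fun x hx => ?_
    intro γ
    rw [NormedAddCommGroup.tendsto_nhds_zero]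
    intro ε hε
    have hC1 : (0 : ℝ) < |C| + 1 := by positivity
    obtain ⟨y, hy, hxy⟩ := Metric.mem_closure_iff.1 hx (ε / 2 / (|C| + 1))
      (div_pos (half_pos hε) hC1)
    have h1 := NormedAddCommGroup.tendsto_nhds_zero.1 (hy γ) (ε / 2) (half_pos hε)
    filter_upwards [h1] with n hn
    have e1 : T n (π (b n) (lam γ x)) = T n (π (b n) (lam γ y)) +
        T n (π (b n) (lam γ (x - y))) := by
      rw [← map_add, ← map_add, ← map_add, add_sub_cancel]
    rw [e1]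
    refine (norm_add_le _ _).trans_lt ?_
    have h2 : ‖T n (π (b n) (lam γ (x - y)))‖ ≤ (|C| + 1) * ‖x - y‖ := by
      refine ((T n).le_opNorm _).trans ?_
      rw [pi_norm hP, lam_norm hP]
      gcongr
      exact (hC n).trans ((le_abs_self C).trans (by linarith))
    rw [dist_eq_norm] at hxy
    have h3 : (|C| + 1) * ‖x - y‖ < ε / 2 := by
      calc (|C| + 1) * ‖x - y‖ < (|C| + 1) * (ε / 2 / (|C| + 1)) := by gcongr
        _ = ε / 2 := by field_simp
    linarith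
  have h1 : ζ ∈ P := by
    refine cyc_top hP hM P hPc h ?_ ?_ ζ
    · intro w hw x hx γ
      rw [NormedAddCommGroup.tendsto_nhds_zero]
      intro ε hε
      have hc : (0 : ℝ) < ‖w‖ + 1 := by positivity
      have h1 := NormedAddCommGroup.tendsto_nhds_zero.1 (hx γ) (ε / (‖w‖ + 1)) (div_pos hε hc)
      filter_upwards [h1] with n hn
      have hw' := hP.WP w hw (b n)
      have e0 : lam γ (w x) = w (lam γ x) :=
        (congrArg (fun A : K →L[ℂ] K => A x) (hP.WL w hw γ)).symm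
      have e1 : π (b n) (w (lam γ x)) = (π (b n) * w * π (b n)⁻¹) (π (b n) (lam γ x)) := by
        rw [mulA, mulA, ← mulA (π (b n)⁻¹), ← map_mul, inv_mul_cancel, map_one,
          oneA]
      have e2 : T n ((π (b n) * w * π (b n)⁻¹) (π (b n) (lam γ x))) =
          (π (b n) * w * π (b n)⁻¹) (T n (π (b n) (lam γ x))) :=
        congrArg (fun A : K →L[ℂ] K => A (π (b n) (lam γ x))) (hT n _ hw')
      rw [e0, e1, e2, mulA, mulA, pi_norm hP]
      calc ‖w (π (b n)⁻¹ (T n (π (b n) (lam γ x))))‖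
          ≤ ‖w‖ * ‖π (b n)⁻¹ (T n (π (b n) (lam γ x)))‖ := w.le_opNorm _
        _ = ‖w‖ * ‖T n (π (b n) (lam γ x))‖ := by rw [pi_norm hP]
        _ ≤ (‖w‖ + 1) * ‖T n (π (b n) (lam γ x))‖ := by
            gcongr
            linarith
        _ < (‖w‖ + 1) * (ε / (‖w‖ + 1)) := by gcongr
        _ = ε := by field_simp
    · intro γ x hx γ'
      have h2 := hx (γ' * γ)
      rw [map_mul] at h2
      exact h2
  have h2 := h1 1
  rw [map_one] at h2
  exact h2

/-- The trace of a masked operator. -/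
theorem trn_mask (hP : PicL π lam W Ω) (hM : Ms lam W Ω m) {B : K →L[ℂ] K} (hB : Cm W B)
    (D : Set Γ) : TRN lam Ω (m D * B) = ∑' γ : D, ‖adjoint B (lam γ Ω)‖ₑ ^ 2 := by
  classical
  have hTcm : Cm W (m D * B) := fun w' hw' => by
    rw [mul_assoc, hB w' hw', ← mul_assoc, hM.cm _ w' hw', mul_assoc]
  rw [← hP.tr_adj _ hTcm]
  have e0 : adjoint (m D * B) = adjoint B * m D := by
    rw [mul_def, adjoint_comp, hM.adj]
    rfl
  rw [e0]
  have e1 : ∀ γ : Γ, ‖(adjoint B * m D) (lam γ Ω)‖ₑ ^ 2 =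
      D.indicator (fun γ => ‖adjoint B (lam γ Ω)‖ₑ ^ 2) γ := by
    intro γ
    rw [mulA, ms_lam hM]
    have e2 : m {y | γ * y ∈ D} Ω = m ({y | γ * y ∈ D} ∩ {1}) Ω := by
      rw [ms_inf_app hM, hM.om]
    rw [e2]
    by_cases hγ : γ ∈ D
    · have e3 : ({y | γ * y ∈ D} ∩ {1} : Set Γ) = {1} := by
        ext y
        simp only [Set.mem_inter_iff, Set.mem_setOf_eq, Set.mem_singleton_iff,
          and_iff_right_iff_imp]
        rintro rfl
        rwa [mul_one]
      rw [e3, hM.om, Set.indicator_of_mem hγ]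
    · have e3 : ({y | γ * y ∈ D} ∩ {1} : Set Γ) = ∅ := by
        ext y
        simp only [Set.mem_inter_iff, Set.mem_setOf_eq, Set.mem_singleton_iff,
          Set.mem_empty_iff_false, iff_false, not_and]
        rintro h1 rfl
        exact hγ (by rwa [mul_one] at h1)
      rw [e3, ms_empty hM, Set.indicator_of_notMem hγ]
      simp
  unfold Vale.Agent.P092.RC.TRN
  rw [tsum_congr e1]
  exact (tsum_subtype D fun γ => ‖adjoint B (lam γ Ω)‖ₑ ^ 2).symm

end cyc

end Vale.Agent.P092.H790.CT
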