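import Vale.Agent.P092.H103.Lat2

/-!
P092 (helper790), team D, block [D-CNT]: the trace inequality
`∑ ‖T w‖² ≤ ∑ ‖T* a‖²` for decomposable operators on `L²(X; ℋ)` commuting with the coefficients.
-/

set_option linter.all false

open scoped InnerProductSpace ENNReal
open Set Filter Topology MeasureTheory ContinuousLinearMap

namespace Vale.Agent.P092.H790.Cnt

section basic

variable {X : Type*} [MeasurableSpace X] {ν : Measure X} {ℋ : Type*} [NormedAddCommGroup ℋ]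
  [InnerProductSpace ℂ ℋ]

theorem enorm_sq (f : Lp ℋ 2 ν) : ‖f‖ₑ ^ 2 = ∫⁻ x, ‖f x‖ₑ ^ 2 ∂ν := by
  rw [Lp.enorm_def, eLpNorm_eq_lintegral_rpow_enorm_toReal (by norm_num) (by norm_num)]
  simp only [ENNReal.toReal_ofNat, one_div]
  rw [← ENNReal.rpow_natCast, ← ENNReal.rpow_mul]
  norm_num

theorem aem_enorm_sq {f : X → ℋ} (hf : AEStronglyMeasurable f ν) :
    AEMeasurable (fun x => ‖f x‖ₑ ^ 2) ν := hf.enorm.pow_const 2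

variable [IsFiniteMeasure ν]

theorem ind_const {S : Set X} (hS : MeasurableSet S) (u : ℋ) :
    ind ν ℋ S (Lp.const 2 ν u) = indicatorConstLp 2 hS (measure_ne_top ν S) u := by
  refine Lp.ext ?_
  have c1 : ⇑(Lp.const 2 ν u) =ᵐ[ν] Function.const _ u := Lp.coeFn_const ..
  filter_upwards [ind_ae hS (Lp.const 2 ν u), c1,
    indicatorConstLp_coeFn (p := 2) (hs := hS) (hμs := measure_ne_top ν S) (c := u)] with x h1 h2 h3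
  rw [h1, h3]
  by_cases hx : x ∈ S
  · rw [Set.indicator_of_mem hx, Set.indicator_of_mem hx, h2]; rfl
  · rw [Set.indicator_of_notMem hx, Set.indicator_of_notMem hx]

theorem comp_const (A : ℋ →L[ℂ] ℋ) (u : ℋ) :
    A.compLpL 2 ν (Lp.const 2 ν u) = Lp.const 2 ν (A u) := by
  refine Lp.ext ?_
  have c1 : ⇑(Lp.const 2 ν u) =ᵐ[ν] Function.const _ u := Lp.coeFn_const ..
  have c2 : ⇑(Lp.const 2 ν (A u)) =ᵐ[ν] Function.const _ (A u) := Lp.coeFn_const ..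
  filter_upwards [A.coeFn_compLpL (p := 2) (Lp.const 2 ν u), c1, c2] with x h1 h2 h3
  rw [h1, h2, h3]
  rfl

theorem inner_ind_const {S : Set X} (hS : MeasurableSet S) (u : ℋ) (f : Lp ℋ 2 ν) :
    ⟪ind ν ℋ S (Lp.const 2 ν u), f⟫_ℂ = ∫ x in S, ⟪u, f x⟫_ℂ ∂ν := by
  rw [ind_const hS]
  exact L2.inner_indicatorConstLp_eq_setIntegral_inner ℂ f hS u (measure_ne_top ν S)

theorem integrable_inner (u : ℋ) (f : Lp ℋ 2 ν) : Integrable (fun x => ⟪u, f x⟫_ℂ) ν :=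
  ((Lp.memLp f).integrable (by norm_num)).const_inner u

theorem integrable_inner' (u : ℋ) (f : Lp ℋ 2 ν) :
    Integrable (fun x => (starRingEnd ℂ) ⟪u, f x⟫_ℂ) ν := by
  simp_rw [inner_conj_symm]
  exact ((Lp.memLp f).integrable (by norm_num)).inner_const u

end basic

section hs

variable {X : Type*} [MeasurableSpace X] {ν : Measure X} [IsFiniteMeasure ν] {ℋ : Type*}
  [NormedAddCommGroup ℋ] [InnerProductSpace ℂ ℋ] [CompleteSpace ℋ]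
  {G₂ : Type*} [Group G₂] {R₂ : G₂ →* (ℋ →L[ℂ] ℋ)}

/-- `T` commutes with the multiplications by indicator functions -/
def Dc (T : Lp ℋ 2 ν →L[ℂ] Lp ℋ 2 ν) : Prop :=
  ∀ A : Set X, MeasurableSet A → T * ind ν ℋ A = ind ν ℋ A * T

theorem Dc.app {T : Lp ℋ 2 ν →L[ℂ] Lp ℋ 2 ν} (h : Dc T) {A : Set X} (hA : MeasurableSet A)
    (f : Lp ℋ 2 ν) : T (ind ν ℋ A f) = ind ν ℋ A (T f) :=
  congrArg (fun S : Lp ℋ 2 ν →L[ℂ] Lp ℋ 2 ν => S f) (h A hA)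

theorem Dc.mul {S T : Lp ℋ 2 ν →L[ℂ] Lp ℋ 2 ν} (hS : Dc S) (hT : Dc T) : Dc (S * T) := by
  intro A hA
  rw [mul_assoc, hT A hA, ← mul_assoc, hS A hA, mul_assoc]

theorem Dc.adj {T : Lp ℋ 2 ν →L[ℂ] Lp ℋ 2 ν} (h : Dc T) : Dc (adjoint T) := by
  intro A hA
  have h1 := congrArg adjoint (h A hA)
  rw [mul_def, mul_def, adjoint_comp, adjoint_comp, adjoint_ind hA] at h1
  exact h1.symm

theorem dc_comp (A : ℋ →L[ℂ] ℋ) : Dc (A.compLpL 2 ν) := fun S hS => ind_comp hS A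

variable (ν R₂) in
/-- `T` commutes with the coefficients -/
def C2 (T : Lp ℋ 2 ν →L[ℂ] Lp ℋ 2 ν) : Prop :=
  ∀ s, T * (R₂ s).compLpL 2 ν = (R₂ s).compLpL 2 ν * T

theorem C2.app {T : Lp ℋ 2 ν →L[ℂ] Lp ℋ 2 ν} (h : C2 ν R₂ T) (s : G₂) (f : Lp ℋ 2 ν) :
    T ((R₂ s).compLpL 2 ν f) = (R₂ s).compLpL 2 ν (T f) :=
  congrArg (fun S : Lp ℋ 2 ν →L[ℂ] Lp ℋ 2 ν => S f) (h s)

theorem C2.mul {S T : Lp ℋ 2 ν →L[ℂ] Lp ℋ 2 ν} (hS : C2 ν R₂ S) (hT : C2 ν R₂ T) :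
    C2 ν R₂ (S * T) := by
  intro s
  rw [mul_assoc, hT s, ← mul_assoc, hS s, mul_assoc]

theorem C2.adj (ha : ∀ s, adjoint (R₂ s) = R₂ s⁻¹) {T : Lp ℋ 2 ν →L[ℂ] Lp ℋ 2 ν}
    (h : C2 ν R₂ T) : C2 ν R₂ (adjoint T) := by
  intro s
  have h1 := congrArg adjoint (h s⁻¹)
  rw [mul_def, mul_def, adjoint_comp, adjoint_comp, comp_adjoint, ha, inv_inv] at h1
  exact h1.symm

/-- the coefficients of `T w` and `T* a` -/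
theorem coef_ae (ha : ∀ s, adjoint (R₂ s) = R₂ s⁻¹) {T : Lp ℋ 2 ν →L[ℂ] Lp ℋ 2 ν} (hT : Dc T)
    (hT2 : C2 ν R₂ T) (a w : ℋ) (s : G₂) :
    (fun x => ⟪R₂ s w, (adjoint T (Lp.const 2 ν a)) x⟫_ℂ) =ᵐ[ν]
      fun x => (starRingEnd ℂ) ⟪R₂ s⁻¹ a, (T (Lp.const 2 ν w)) x⟫_ℂ := by
  refine (integrable_inner _ _).ae_eq_of_forall_setIntegral_eq _ _
    (integrable_inner' _ _) fun S hS _ => ?_
  rw [integral_conj, ← inner_ind_const hS, ← inner_ind_const hS, inner_conj_symm,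
    adjoint_inner_right, hT.app hS, ← comp_const, hT2.app, ← comp_const,
    ← adjoint_inner_right, adjoint_ind hS, ← adjoint_inner_right (A := (R₂ s).compLpL 2 ν),
    comp_adjoint, ha]
  congr 1
  exact (congrArg (fun S' : Lp ℋ 2 ν →L[ℂ] Lp ℋ 2 ν => S' (Lp.const 2 ν a))
    (ind_comp hS (R₂ s⁻¹))).trans rfl

theorem hs_eq [Countable G₂] (ha : ∀ s, adjoint (R₂ s) = R₂ s⁻¹) {T : Lp ℋ 2 ν →L[ℂ] Lp ℋ 2 ν}
    (hT : Dc T) (hT2 : C2 ν R₂ T) (a w : ℋ) :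
    ∑' s, ∫⁻ x, ‖⟪R₂ s w, (adjoint T (Lp.const 2 ν a)) x⟫_ℂ‖ₑ ^ 2 ∂ν =
      ∑' s, ∫⁻ x, ‖⟪R₂ s a, (T (Lp.const 2 ν w)) x⟫_ℂ‖ₑ ^ 2 ∂ν := by
  rw [← (Equiv.inv G₂).tsum_eq fun s => ∫⁻ x, ‖⟪R₂ s a, (T (Lp.const 2 ν w)) x⟫_ℂ‖ₑ ^ 2 ∂ν]
  refine tsum_congr fun s => lintegral_congr_ae ?_
  filter_upwards [coef_ae ha hT hT2 a w s] with x hx
  rw [hx]
  simp only [Equiv.inv_apply, enorm_eq_nnnorm, RCLike.nnnorm_conj]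

variable {P Q : Type*} [Countable P] [Countable Q] [Countable G₂]

theorem aem_inner (u : ℋ) (f : Lp ℋ 2 ν) : AEMeasurable (fun x => ‖⟪u, f x⟫_ℂ‖ₑ ^ 2) ν :=
  (integrable_inner u f).aestronglyMeasurable.enorm.pow_const 2

/-- **The trace inequality.** -/
theorem hs_le (ha : ∀ s, adjoint (R₂ s) = R₂ s⁻¹) {a : P → ℋ} {w : Q → ℋ}
    (par : ∀ η : ℋ, ‖η‖ₑ ^ 2 ≤ ∑' p : P × G₂, ‖⟪R₂ p.2 (a p.1), η⟫_ℂ‖ₑ ^ 2)
    (bes : ∀ η : ℋ, ∑' q : Q × G₂, ‖⟪R₂ q.2 (w q.1), η⟫_ℂ‖ₑ ^ 2 ≤ ‖η‖ₑ ^ 2)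
    {T : Lp ℋ 2 ν →L[ℂ] Lp ℋ 2 ν} (hT : Dc T) (hT2 : C2 ν R₂ T) :
    ∑' q, ‖T (Lp.const 2 ν (w q))‖ₑ ^ 2 ≤ ∑' p, ‖adjoint T (Lp.const 2 ν (a p))‖ₑ ^ 2 := by
  have h1 : ∀ q, ‖T (Lp.const 2 ν (w q))‖ₑ ^ 2 ≤
      ∑' p, ∑' s, ∫⁻ x, ‖⟪R₂ s (a p), (T (Lp.const 2 ν (w q))) x⟫_ℂ‖ₑ ^ 2 ∂ν := by
    intro q
    rw [enorm_sq, ← ENNReal.tsum_prod (f := fun p s =>
      ∫⁻ x, ‖⟪R₂ s (a p), (T (Lp.const 2 ν (w q))) x⟫_ℂ‖ₑ ^ 2 ∂ν),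
      ← lintegral_tsum fun p => aem_inner _ _]
    exact lintegral_mono fun x => par _
  have h2 : ∀ p, ∑' q, ∑' s, ∫⁻ x, ‖⟪R₂ s (w q), (adjoint T (Lp.const 2 ν (a p))) x⟫_ℂ‖ₑ ^ 2 ∂ν ≤
      ‖adjoint T (Lp.const 2 ν (a p))‖ₑ ^ 2 := by
    intro p
    rw [enorm_sq, ← ENNReal.tsum_prod (f := fun q s =>
      ∫⁻ x, ‖⟪R₂ s (w q), (adjoint T (Lp.const 2 ν (a p))) x⟫_ℂ‖ₑ ^ 2 ∂ν),
      ← lintegral_tsum fun p => aem_inner _ _]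
    exact lintegral_mono fun x => bes _
  refine (ENNReal.tsum_le_tsum h1).trans ?_
  rw [ENNReal.tsum_comm]
  refine le_trans (le_of_eq ?_) (ENNReal.tsum_le_tsum h2)
  exact tsum_congr fun p => tsum_congr fun q => (hs_eq ha hT hT2 _ _).symm

end hs

end Vale.Agent.P092.H790.Cnt
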