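import Vale.Agent.P092.H790.Cnt1

/-!
P092 (helper790), team D, block [D-CNT]: the induced representation on constant fields.
-/

set_option linter.all false

open scoped InnerProductSpace ENNReal
open Set Filter Topology MeasureTheory ContinuousLinearMap

namespace Vale.Agent.P092.H790.Cnt

open Vale.Agent.P092.H85 Vale.Agent.P092.H103

section ind

variable {X : Type*} [MeasurableSpace X] {ν : Measure X} {ℋ : Type*} [NormedAddCommGroup ℋ]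
  [InnerProductSpace ℂ ℋ]

theorem ind_enorm {S : Set X} (hS : MeasurableSet S) (ζ : Lp ℋ 2 ν) :
    ‖ind ν ℋ S ζ‖ₑ ^ 2 = ∫⁻ x in S, ‖ζ x‖ₑ ^ 2 ∂ν := by
  rw [enorm_sq, ← lintegral_indicator hS]
  refine lintegral_congr_ae ?_
  filter_upwards [ind_ae hS ζ] with x hx
  rw [hx]
  by_cases h : x ∈ S
  · rw [Set.indicator_of_mem h, Set.indicator_of_mem h]
  · rw [Set.indicator_of_notMem h, Set.indicator_of_notMem h, enorm_zero]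
    norm_num

theorem en_split {S : Set X} (hS : MeasurableSet S) (ζ : Lp ℋ 2 ν) :
    ‖ζ‖ₑ ^ 2 = ‖ind ν ℋ S ζ‖ₑ ^ 2 + ‖ind ν ℋ Sᶜ ζ‖ₑ ^ 2 := by
  rw [ind_enorm hS, ind_enorm hS.compl, enorm_sq, lintegral_add_compl _ hS]

theorem ind_cn {S : Set X} (hS : MeasurableSet S) {η : Lp ℋ 2 ν} {u : ℋ}
    (hη : ∀ᵐ x ∂ν, ‖η x‖ = ‖u‖) : ‖ind ν ℋ S η‖ₑ ^ 2 = ‖u‖ₑ ^ 2 * ν S := by
  rw [ind_enorm hS]
  have h1 : ∀ᵐ x ∂(ν.restrict S), ‖η x‖ₑ ^ 2 = ‖u‖ₑ ^ 2 := by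
    filter_upwards [ae_restrict_of_ae hη] with x hx
    rw [← ofReal_norm_eq_enorm, ← ofReal_norm_eq_enorm, hx]
  rw [lintegral_congr_ae h1, lintegral_const, Measure.restrict_apply MeasurableSet.univ,
    Set.univ_inter]

theorem op_en (T : Lp ℋ 2 ν →L[ℂ] Lp ℋ 2 ν) (ζ : Lp ℋ 2 ν) :
    ‖T ζ‖ₑ ^ 2 ≤ ‖T‖ₑ ^ 2 * ‖ζ‖ₑ ^ 2 := by
  rw [← mul_pow]
  exact pow_le_pow_left' (T.le_opENorm ζ) 2

theorem dc_ind_le [IsFiniteMeasure ν] [CompleteSpace ℋ] {T : Lp ℋ 2 ν →L[ℂ] Lp ℋ 2 ν} (hT : Dc T) {S : Set X}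
    (hS : MeasurableSet S) (ζ : Lp ℋ 2 ν) :
    ‖ind ν ℋ S (T ζ)‖ₑ ^ 2 ≤ ‖T‖ₑ ^ 2 * ‖ind ν ℋ S ζ‖ₑ ^ 2 := by
  rw [← hT.app hS]
  exact op_en T _

end ind

section iro

variable {E : Type} [Group E] [TopologicalSpace E] [IsTopologicalGroup E] [LocallyCompactSpace E]
  [SecondCountableTopology E] [T2Space E] [MeasurableSpace E] [BorelSpace E]
  {Λ : Subgroup E} [DiscreteTopology Λ] [MeasurableSpace (E ⧸ Λ)] [BorelSpace (E ⧸ Λ)]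
  {ν : Measure (E ⧸ Λ)} [IsProbabilityMeasure ν] (hν : ∀ g : E, ν.map (fun x => g • x) = ν)
  {ℋ : Type} [NormedAddCommGroup ℋ] [InnerProductSpace ℂ ℋ] [CompleteSpace ℋ]
  {V : Λ →* (ℋ →L[ℂ] ℋ)} (hV : ∀ g, adjoint (V g) = V g⁻¹) [Countable Λ]

include hV in
theorem cn_iro {η : Lp ℋ 2 ν} {u : ℋ} (hη : ∀ᵐ x ∂ν, ‖η x‖ = ‖u‖) (g : E) :
    ∀ᵐ x ∂ν, ‖(iro hν V g η) x‖ = ‖u‖ := by
  filter_upwards [iro_ae hν hV g η, ae_comp (mpres hν g⁻¹) hη] with x h1 h2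
  rw [h1, Vale.Agent.P092.H885.u_norm hV, h2]

theorem cn_const (u : ℋ) : ∀ᵐ x ∂ν, ‖(Lp.const 2 ν u : Lp ℋ 2 ν) x‖ = ‖u‖ := by
  have c1 : ⇑(Lp.const 2 ν u) =ᵐ[ν] Function.const _ u := Lp.coeFn_const ..
  filter_upwards [c1] with x hx
  rw [hx]
  rfl

theorem coc1_meas (g : E) : MeasurableSet {x : E ⧸ Λ | coc Λ g x = 1} := coc_meas Λ g 1

include hν hV in
/-- lower bound: translating by `n` near `1` does not lose mass -/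
theorem low (M : ℋ →L[ℂ] ℋ) (n : E) (ζ : Lp ℋ 2 ν) :
    ‖M.compLpL 2 ν ζ‖ₑ ^ 2 ≤ ‖M.compLpL 2 ν (iro hν V n ζ)‖ₑ ^ 2 +
      ‖ind ν ℋ {x | coc Λ n x = 1}ᶜ (M.compLpL 2 ν ζ)‖ₑ ^ 2 := by
  rw [en_split (coc1_meas n) (M.compLpL 2 ν ζ)]
  refine add_le_add_left ?_ _
  rw [ind_enorm (coc1_meas n), ← lintegral_indicator (coc1_meas n),
    ← (mpres hν n⁻¹).lintegral_comp_emb (MeasurableEquiv.smul (n⁻¹ : E)).measurableEmbedding,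
    enorm_sq]
  refine lintegral_mono_ae ?_
  filter_upwards [M.coeFn_compLpL (p := 2) (iro hν V n ζ), iro_ae hν hV n ζ,
    ae_comp (mpres hν n⁻¹) (M.coeFn_compLpL (p := 2) ζ)] with x h1 h2 h3
  by_cases hx : n⁻¹ • x ∈ {x : E ⧸ Λ | coc Λ n x = 1}
  · rw [Set.indicator_of_mem hx, h1, h2, h3, show coc Λ n (n⁻¹ • x) = 1 from hx, map_one]
    exact le_rfl
  · rw [Set.indicator_of_notMem hx]
    exact zero_le

include hν hV in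
/-- upper bound: translating by `n` near `1` does not create mass -/
theorem upp (M : ℋ →L[ℂ] ℋ) (n : E) (ζ : Lp ℋ 2 ν) :
    ‖M.compLpL 2 ν (iro hν V n ζ)‖ₑ ^ 2 ≤ ‖M.compLpL 2 ν ζ‖ₑ ^ 2 +
      ‖ind ν ℋ {x | coc Λ n (n⁻¹ • x) = 1}ᶜ (M.compLpL 2 ν (iro hν V n ζ))‖ₑ ^ 2 := by
  have hm : MeasurableSet {x : E ⧸ Λ | coc Λ n (n⁻¹ • x) = 1} :=
    (smul_meas Λ n⁻¹) (coc1_meas n)
  rw [en_split hm (M.compLpL 2 ν (iro hν V n ζ))]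
  refine add_le_add_left ?_ _
  have e0 : ∫⁻ x, ‖(M.compLpL 2 ν ζ) (n⁻¹ • x)‖ₑ ^ 2 ∂ν = ∫⁻ x, ‖(M.compLpL 2 ν ζ) x‖ₑ ^ 2 ∂ν :=
    (mpres hν n⁻¹).lintegral_comp_emb (MeasurableEquiv.smul (n⁻¹ : E)).measurableEmbedding
      (fun x => ‖(M.compLpL 2 ν ζ) x‖ₑ ^ 2)
  rw [ind_enorm hm, ← lintegral_indicator hm, enorm_sq, ← e0]
  refine lintegral_mono_ae ?_
  filter_upwards [M.coeFn_compLpL (p := 2) (iro hν V n ζ), iro_ae hν hV n ζ,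
    ae_comp (mpres hν n⁻¹) (M.coeFn_compLpL (p := 2) ζ)] with x h1 h2 h3
  by_cases hx : x ∈ {x : E ⧸ Λ | coc Λ n (n⁻¹ • x) = 1}
  · rw [Set.indicator_of_mem hx, h1, h2, h3, show coc Λ n (n⁻¹ • x) = 1 from hx, map_one]
    exact le_rfl
  · rw [Set.indicator_of_notMem hx]
    exact zero_le

include hν hV in
theorem piece {T : Lp ℋ 2 ν →L[ℂ] Lp ℋ 2 ν} (hT : Dc T) (g : E) {S : Set (E ⧸ Λ)}
    (hS : MeasurableSet S) {v : Λ} (hSv : ∀ x ∈ S, coc Λ g (g⁻¹ • x) = v) (u : ℋ) :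
    ind ν ℋ S (T (iro hν V g (Lp.const 2 ν u))) = ind ν ℋ S (T (Lp.const 2 ν (V v u))) := by
  rw [← hT.app hS, ← hT.app hS]
  congr 1
  refine Lp.ext ?_
  have c1 : ⇑(Lp.const 2 ν u) =ᵐ[ν] Function.const _ u := Lp.coeFn_const ..
  have c2 : ⇑(Lp.const 2 ν (V v u)) =ᵐ[ν] Function.const _ (V v u) := Lp.coeFn_const ..
  filter_upwards [ind_ae hS (iro hν V g (Lp.const 2 ν u)), ind_ae hS (Lp.const 2 ν (V v u)),
    iro_ae hν hV g (Lp.const 2 ν u), ae_comp (mpres hν g⁻¹) c1, c2] with x h1 h2 h3 h4 h5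
  rw [h1, h2]
  by_cases hx : x ∈ S
  · rw [Set.indicator_of_mem hx, Set.indicator_of_mem hx, h3, h4, h5, hSv x hx]
    rfl
  · rw [Set.indicator_of_notMem hx, Set.indicator_of_notMem hx]

include hν hV in
/-- **Disjointness estimate.** -/
theorem disj {T : Lp ℋ 2 ν →L[ℂ] Lp ℋ 2 ν} (hT : Dc T) {N : ℕ} (g : ℕ → E) {X₀ : Set (E ⧸ Λ)}
    (hX : MeasurableSet X₀)
    (hd : ∀ i < N, ∀ j < N, i ≠ j → ∀ x : E ⧸ Λ, (g i)⁻¹ • x ∈ X₀ → (g j)⁻¹ • x ∈ X₀ →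
      coc Λ (g i) ((g i)⁻¹ • x) ≠ coc Λ (g j) ((g j)⁻¹ • x)) (u : ℋ) :
    ∑ j ∈ Finset.range N, ‖T (iro hν V (g j) (Lp.const 2 ν u))‖ₑ ^ 2 ≤
      ∑' v, ‖T (Lp.const 2 ν (V v u))‖ₑ ^ 2 + N * (‖T‖ₑ ^ 2 * (‖u‖ₑ ^ 2 * ν X₀ᶜ)) := by
  classical
  have hGm : ∀ j, MeasurableSet {x : E ⧸ Λ | (g j)⁻¹ • x ∈ X₀} := fun j => (smul_meas Λ _) hX
  have hAm : ∀ j v, MeasurableSet {x : E ⧸ Λ | (g j)⁻¹ • x ∈ X₀ ∧
      coc Λ (g j) ((g j)⁻¹ • x) = v} := fun j v =>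
    (hGm j).inter ((smul_meas Λ (g j)⁻¹) (coc_meas Λ (g j) v))
  have h1 : ∀ j, ‖T (iro hν V (g j) (Lp.const 2 ν u))‖ₑ ^ 2 ≤
      ∑' v, ∫⁻ x in {x : E ⧸ Λ | (g j)⁻¹ • x ∈ X₀ ∧ coc Λ (g j) ((g j)⁻¹ • x) = v},
        ‖(T (Lp.const 2 ν (V v u))) x‖ₑ ^ 2 ∂ν + ‖T‖ₑ ^ 2 * (‖u‖ₑ ^ 2 * ν X₀ᶜ) := by
    intro j
    rw [en_split (hGm j)]
    refine add_le_add ?_ ?_
    · rw [ind_enorm (hGm j)]
      have e1 : {x : E ⧸ Λ | (g j)⁻¹ • x ∈ X₀} =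
          ⋃ v : Λ, {x : E ⧸ Λ | (g j)⁻¹ • x ∈ X₀ ∧ coc Λ (g j) ((g j)⁻¹ • x) = v} := by
        ext x
        simp
      rw [e1, lintegral_iUnion (fun v => hAm j v)]
      · refine ENNReal.tsum_le_tsum fun v => le_of_eq ?_
        rw [← ind_enorm (hAm j v), ← ind_enorm (hAm j v)]
        rw [piece hν hV hT (g j) (hAm j v) (fun x hx => hx.2)]
      · intro v w hvw
        refine Set.disjoint_left.2 fun x hx hx' => hvw ?_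
        exact hx.2.symm.trans hx'.2
    · refine (dc_ind_le hT (hGm j).compl _).trans (mul_le_mul_right ?_ _)
      rw [ind_cn (hGm j).compl (cn_iro hν hV (cn_const u) (g j))]
      refine mul_le_mul_right (le_of_eq ?_) _
      have e2 : {x : E ⧸ Λ | (g j)⁻¹ • x ∈ X₀}ᶜ = (fun x => (g j)⁻¹ • x) ⁻¹' X₀ᶜ := rfl
      rw [e2]
      exact (mpres hν (g j)⁻¹).measure_preimage hX.compl.nullMeasurableSet
  refine (Finset.sum_le_sum fun j _ => h1 j).trans ?_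
  rw [Finset.sum_add_distrib]
  refine add_le_add ?_ (le_of_eq (by rw [Finset.sum_const, Finset.card_range, nsmul_eq_mul]))
  rw [← Summable.tsum_finsetSum fun j _ => ENNReal.summable]
  refine ENNReal.tsum_le_tsum fun v => ?_
  rw [enorm_sq, ← lintegral_biUnion_finset ?_ (fun j _ => hAm j v)]
  · exact setLIntegral_le_lintegral _ _
  · intro i hi j hj hij
    refine Set.disjoint_left.2 fun x hx hx' => ?_
    exact hd i (Finset.mem_range.1 hi) j (Finset.mem_range.1 hj) hij x hx.1 hx'.1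
      (hx.2.trans hx'.2.symm)

end iro

end Vale.Agent.P092.H790.Cnt
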