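import Vale.Agent.P092.H790.Cnt2

/-!
P092 (helper790), team D, block [D-CNT]: frames, masks, sizes; the growth property for all vectors.
-/

set_option linter.all false

open scoped InnerProductSpace ENNReal
open Set Filter Topology MeasureTheory ContinuousLinearMap

namespace Vale.Agent.P092.H790.Cnt

open Vale.Agent.P092.H85 Vale.Agent.P092.H103

section defs

variable {Λ Γ₁ Γ₂ ι ℋ : Type} [Group Λ] [Group Γ₁] [Group Γ₂] [NormedAddCommGroup ℋ]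
  [InnerProductSpace ℂ ℋ] [CompleteSpace ℋ]

/-- Source representation `V`, target representation `R₁`, coefficients `R₂`; the family `ξ` is a
Parseval frame for `R₁ × R₂` and a Bessel family for `V × R₂`. -/
structure Fr (V : Λ →* (ℋ →L[ℂ] ℋ)) (R₁ : Γ₁ →* (ℋ →L[ℂ] ℋ)) (R₂ : Γ₂ →* (ℋ →L[ℂ] ℋ))
    (ξ : ι → ℋ) : Prop where
  adjV : ∀ g, adjoint (V g) = V g⁻¹
  adj₁ : ∀ g, adjoint (R₁ g) = R₁ g⁻¹
  adj₂ : ∀ g, adjoint (R₂ g) = R₂ g⁻¹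
  c1 : ∀ v a, V v * R₁ a = R₁ a * V v
  c2 : ∀ v s, V v * R₂ s = R₂ s * V v
  c12 : ∀ a s, R₁ a * R₂ s = R₂ s * R₁ a
  par : ∀ η : ℋ, ∑' p : (ι × Γ₁) × Γ₂, ‖⟪R₂ p.2 (R₁ p.1.2 (ξ p.1.1)), η⟫_ℂ‖ₑ ^ 2 = ‖η‖ₑ ^ 2
  bes : ∀ η : ℋ, ∑' p : (ι × Λ) × Γ₂, ‖⟪R₂ p.2 (V p.1.2 (ξ p.1.1)), η⟫_ℂ‖ₑ ^ 2 ≤ ‖η‖ₑ ^ 2

/-- A projection valued set function on the target group. -/
structure Msk (R₁ : Γ₁ →* (ℋ →L[ℂ] ℋ)) (R₂ : Γ₂ →* (ℋ →L[ℂ] ℋ))
    (m : Set Γ₁ → (ℋ →L[ℂ] ℋ)) : Prop where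
  adj : ∀ S, adjoint (m S) = m S
  inter : ∀ S T, m (S ∩ T) = m S * m T
  compl : ∀ S, m Sᶜ = 1 - m S
  cov : ∀ S a, m S * R₁ a = R₁ a * m {x | a * x ∈ S}
  com : ∀ S s, m S * R₂ s = R₂ s * m S

/-- The sizes: `J c k` is the set of the elements of size at most `c · (2^k)^3`, say. -/
structure Siz (J : ℕ → ℕ → Set Γ₁) : Prop where
  mono : ∀ c c', c ≤ c' → ∀ k, J c k ⊆ J c' k
  trans : ∀ a c, ∃ c', ∀ k x, x ∈ J c k → a * x ∈ J c' k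

end defs

/-- `n` is a one parameter group, expanded by `g ↦ (b k)⁻¹ g (b k)`. -/
structure Expd {E : Type} [Group E] [TopologicalSpace E] (b : ℕ → E) (n : ℝ → E) (κ : ℕ → ℝ) :
    Prop where
  add : ∀ s t, n (s + t) = n s * n t
  cont : Continuous n
  conj : ∀ k s, (b k)⁻¹ * n s * b k = n (κ k * s)
  prop : ∀ C : Set E, IsCompact C → ∃ r : ℝ, ∀ s, n s ∈ C → |s| ≤ r
  kap : Tendsto κ atTop atTop

theorem Expd.zero {E : Type} [Group E] [TopologicalSpace E] {b : ℕ → E} {n : ℝ → E} {κ : ℕ → ℝ}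
    (h : Expd b n κ) : n 0 = 1 := by
  have h1 := h.add 0 0
  rw [add_zero] at h1
  exact left_eq_mul.mp h1

theorem Expd.neg {E : Type} [Group E] [TopologicalSpace E] {b : ℕ → E} {n : ℝ → E} {κ : ℕ → ℝ}
    (h : Expd b n κ) (s : ℝ) : n (-s) = (n s)⁻¹ := by
  have h1 := h.add (-s) s
  rw [neg_add_cancel, h.zero] at h1
  exact eq_inv_of_mul_eq_one_left h1.symm

section msk

variable {Γ₁ Γ₂ ℋ : Type} [Group Γ₁] [Group Γ₂] [NormedAddCommGroup ℋ]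
  [InnerProductSpace ℂ ℋ] [CompleteSpace ℋ] {R₁ : Γ₁ →* (ℋ →L[ℂ] ℋ)} {R₂ : Γ₂ →* (ℋ →L[ℂ] ℋ)}
  {m : Set Γ₁ → (ℋ →L[ℂ] ℋ)} (h : Msk R₁ R₂ m)
  {X : Type} [MeasurableSpace X] {ν : Measure X}

include h in
theorem Msk.split (A S : Set Γ₁) (f : Lp ℋ 2 ν) :
    ‖(m A).compLpL 2 ν f‖ ^ 2 = ‖(m (A ∩ S)).compLpL 2 ν f‖ ^ 2 +
      ‖(m (A ∩ Sᶜ)).compLpL 2 ν f‖ ^ 2 := by
  have e1 : (m A).compLpL 2 ν f =
      (m (A ∩ S)).compLpL 2 ν f + (m (A ∩ Sᶜ)).compLpL 2 ν f := by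
    have e2 : (m A).compLpL 2 ν = (m (A ∩ S)).compLpL 2 ν + (m (A ∩ Sᶜ)).compLpL 2 ν := by
      rw [← comp_add]
      congr 1
      rw [h.inter, h.inter, h.compl, ← mul_add, add_sub_cancel, mul_one]
    exact congrArg (fun T : Lp ℋ 2 ν →L[ℂ] Lp ℋ 2 ν => T f) e2
  have e3 : ⟪(m (A ∩ S)).compLpL 2 ν f, (m (A ∩ Sᶜ)).compLpL 2 ν f⟫_ℂ = 0 := by
    rw [← adjoint_inner_right, comp_adjoint, h.adj]
    have e4 : (m (A ∩ S)).compLpL 2 ν * (m (A ∩ Sᶜ)).compLpL 2 ν = 0 := by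
      rw [← comp_mul]
      have e5 : m (A ∩ S) * m (A ∩ Sᶜ) = 0 := by
        have e6 : m (∅ : Set Γ₁) = 0 := by
          have := h.inter Set.univ (Set.univ)ᶜ
          rw [h.compl, Set.univ_inter, h.compl, mul_sub, mul_one, ← h.inter, Set.univ_inter,
            sub_self] at this
          have e7 := h.compl (Set.univ : Set Γ₁)
          rw [Set.compl_univ, this] at e7
          exact e7
        rw [← h.inter]
        have e8 : A ∩ S ∩ (A ∩ Sᶜ) = ∅ := by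
          ext x
          simp only [mem_inter_iff, mem_compl_iff, mem_empty_iff_false, iff_false]
          rintro ⟨⟨_, h1⟩, _, h2⟩
          exact h2 h1
        rw [e8, e6]
      rw [e5]
      refine (fld_comp (0 : ℋ →L[ℂ] ℋ)).ext (A := fun _ => 0) (B := fun _ => 0) ?_
        (Eventually.of_forall fun _ => rfl)
      intro ζ
      filter_upwards [Lp.coeFn_zero ℋ 2 ν] with x hx
      exact hx
    have e9 := congrArg (fun T : Lp ℋ 2 ν →L[ℂ] Lp ℋ 2 ν => T f) e4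
    change (m (A ∩ S)).compLpL 2 ν ((m (A ∩ Sᶜ)).compLpL 2 ν f) = 0 at e9
    rw [e9, inner_zero_right]
  rw [e1, @norm_add_sq ℂ, e3]
  simp

include h in
theorem Msk.le_of_subset {S T : Set Γ₁} (hST : S ⊆ T) (f : Lp ℋ 2 ν) :
    ‖(m S).compLpL 2 ν f‖ ≤ ‖(m T).compLpL 2 ν f‖ := by
  have h1 := h.split T S f
  rw [Set.inter_eq_self_of_subset_right hST] at h1
  exact (sq_le_sq₀ (norm_nonneg _) (norm_nonneg _)).1 (by nlinarith [sq_nonneg ‖(m (T ∩ Sᶜ)).compLpL 2 ν f‖])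

include h in
theorem Msk.univ : m Set.univ = 1 := by
  have e7 := h.compl (Set.univ : Set Γ₁)
  have this := h.inter Set.univ (Set.univ)ᶜ
  rw [h.compl, Set.univ_inter, h.compl, mul_sub, mul_one, ← h.inter, Set.univ_inter,
    sub_self] at this
  exact (sub_eq_zero.1 this).symm

include h in
theorem Msk.norm_le (S : Set Γ₁) (f : Lp ℋ 2 ν) : ‖(m S).compLpL 2 ν f‖ ≤ ‖f‖ := by
  have h1 := h.le_of_subset (Set.subset_univ S) f
  rw [h.univ, comp_one] at h1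
  exact h1

end msk

end Vale.Agent.P092.H790.Cnt
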