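import Vale.Agent.P092.H85.CD

/-!
P092 (helper790): continuity of the cocycle of a lattice, of the Koopman representation and of
induced representations.
-/

set_option linter.all false

open scoped InnerProductSpace ENNReal symmDiff
open MeasureTheory Filter Topology ContinuousLinearMap Set

namespace Vale.Agent.P092.H790

open Vale.Agent.P092.H85

section gen

variable {D Λ : Type} [Group D] [Group Λ] [Countable Λ] (d : CData D Λ) {K : Type}
  [NormedAddCommGroup K] [InnerProductSpace ℂ K] {R : Λ → K →L[ℂ] K}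

theorem xf_sub_le (hb : ∀ v, ‖R v‖ ≤ 1) (g : D) (ξ : Lp K 2 d.μ) :
    ‖xf d R g ξ - (R 1).compLpL 2 d.μ ξ‖ ≤
      2 * ‖ind d.μ K {x | d.c g (d.act g⁻¹ x) ≠ 1} ξ‖ := by
  have hm : MeasurableSet {x | d.c g (d.act g⁻¹ x) ≠ 1} :=
    ((d.mp g⁻¹).measurable (d.c_meas g 1)).compl
  refine Lp.norm_le_mul_norm_of_ae_le_mul ?_
  filter_upwards [fld_xf d hb g ξ, fld_comp (μ := d.μ) (R 1) ξ, ind_ae hm ξ,
    Lp.coeFn_sub (xf d R g ξ) ((R 1).compLpL 2 d.μ ξ)] with x h1 h2 h3 h4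
  rw [h4, Pi.sub_apply, h1, h2, h3]
  by_cases hx : d.c g (d.act g⁻¹ x) = 1
  · rw [hx, sub_self, norm_zero]
    positivity
  · rw [indicator_of_mem (show x ∈ {x | d.c g (d.act g⁻¹ x) ≠ 1} from hx)]
    refine (norm_sub_le _ _).trans ?_
    have e1 : ‖R (d.c g (d.act g⁻¹ x)) (ξ x)‖ ≤ ‖ξ x‖ := by
      refine ((R _).le_opNorm _).trans ?_
      have := hb (d.c g (d.act g⁻¹ x))
      calc _ ≤ 1 * ‖ξ x‖ := by gcongr
        _ = _ := one_mul _
    have e2 : ‖R 1 (ξ x)‖ ≤ ‖ξ x‖ := by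
      refine ((R _).le_opNorm _).trans ?_
      have := hb 1
      calc _ ≤ 1 * ‖ξ x‖ := by gcongr
        _ = _ := one_mul _
    linarith

/-- Absolute continuity of the norm. -/
theorem norm_ind_tendsto {X : Type*} [MeasurableSpace X] {μ : Measure X} [IsFiniteMeasure μ]
    {α : Type*} {l : Filter α} {S : α → Set X} (hS : ∀ a, MeasurableSet (S a))
    (h : Tendsto (fun a => μ.real (S a)) l (𝓝 0)) (ξ : Lp K 2 μ) :
    Tendsto (fun a => ‖ind μ K (S a) ξ‖) l (𝓝 0) := by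
  rw [Metric.tendsto_nhds]
  intro ε hε
  obtain ⟨δ, hδ0, hδ⟩ := MemLp.eLpNorm_indicator_le (p := 2) (by norm_num) (by norm_num)
    (Lp.memLp ξ) (half_pos hε)
  filter_upwards [h.eventually (gt_mem_nhds hδ0)] with a ha
  rw [Real.dist_eq, sub_zero, abs_of_nonneg (norm_nonneg _)]
  have h1 : μ (S a) ≤ ENNReal.ofReal δ := by
    rw [← ENNReal.ofReal_toReal (measure_ne_top μ (S a))]
    exact ENNReal.ofReal_le_ofReal ha.le
  have h2 := hδ (S a) (hS a) h1
  rw [Lp.norm_def, eLpNorm_congr_ae (ind_ae (hS a) ξ)]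
  calc (eLpNorm ((S a).indicator ξ) 2 μ).toReal ≤ (ENNReal.ofReal (ε / 2)).toReal :=
        ENNReal.toReal_mono ENNReal.ofReal_ne_top h2
    _ = ε / 2 := ENNReal.toReal_ofReal (half_pos hε).le
    _ < ε := half_lt_self hε

theorem ri_tendsto (hb : ∀ v, ‖R v‖ ≤ 1) {l : Filter D}
    (hk : ∀ ξ : Lp K 2 d.μ, Tendsto (fun g => kp d K g ξ) l (𝓝 ξ))
    (hc : Tendsto (fun g => d.μ.real {x | d.c g x ≠ 1}) l (𝓝 0)) (ξ : Lp K 2 d.μ) :
    Tendsto (fun g => Ri d R g ξ) l (𝓝 ((R 1).compLpL 2 d.μ ξ)) := by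
  have hm : ∀ g : D, MeasurableSet {x | d.c g (d.act g⁻¹ x) ≠ 1} := fun g =>
    ((d.mp g⁻¹).measurable (d.c_meas g 1)).compl
  have h1 : Tendsto (fun g => d.μ.real {x | d.c g (d.act g⁻¹ x) ≠ 1}) l (𝓝 0) := by
    refine hc.congr fun g => ?_
    have h2 := (d.mp g⁻¹).measureReal_preimage (s := {x | d.c g x ≠ 1})
      (d.c_meas g 1).compl.nullMeasurableSet
    rw [← h2]
    rfl
  have h2 := norm_ind_tendsto hm h1 ξ
  have h3 : Tendsto (fun g => 2 * ‖ind d.μ K {x | d.c g (d.act g⁻¹ x) ≠ 1} ξ‖ + ‖kp d K g ξ - ξ‖) l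
      (𝓝 0) := by
    have h4 := (hk ξ).sub_const ξ
    rw [sub_self] at h4
    have h5 := h4.norm
    rw [norm_zero] at h5
    have := (h2.const_mul 2).add h5
    simpa using this
  rw [tendsto_iff_norm_sub_tendsto_zero]
  refine squeeze_zero (fun g => norm_nonneg _) (fun g => ?_) h3
  have e1 : Ri d R g ξ - (R 1).compLpL 2 d.μ ξ =
      (xf d R g ξ - (R 1).compLpL 2 d.μ ξ) + xf d R g (kp d K g ξ - ξ) := by
    change xf d R g (kp d K g ξ) - _ = _
    rw [map_sub]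
    abel
  rw [e1]
  refine (norm_add_le _ _).trans (add_le_add (xf_sub_le d hb g ξ) ?_)
  refine ((xf d R g).le_opNorm _).trans ?_
  have := norm_xf_le d hb g
  calc _ ≤ 1 * ‖kp d K g ξ - ξ‖ := by gcongr
    _ = _ := one_mul _

end gen

section lat

variable {E : Type} [Group E] [TopologicalSpace E] [IsTopologicalGroup E] [LocallyCompactSpace E]
  [SecondCountableTopology E] [T2Space E] [MeasurableSpace E] [BorelSpace E]
  {Λ : Subgroup E} [DiscreteTopology Λ] [MeasurableSpace (E ⧸ Λ)] [BorelSpace (E ⧸ Λ)]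
  (ν : Measure (E ⧸ Λ)) [IsProbabilityMeasure ν]

theorem innerReg : ν.InnerRegularCompactLTTop := by
  have hcl : IsClosed (Λ : Set E) := Subgroup.isClosed_of_discrete
  haveI : TopologicalSpace.MetrizableSpace (E ⧸ Λ) :=
    TopologicalSpace.metrizableSpace_of_t3_secondCountable _
  letI := TopologicalSpace.metrizableSpaceMetric (E ⧸ Λ)
  infer_instance

/-- the action by translations as continuous maps -/
def tr (g : E) : C(E ⧸ Λ, E ⧸ Λ) := ⟨fun x => g • x, continuous_const_smul g⟩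

theorem tr_tendsto (g₀ : E) : Tendsto (fun g => (tr g : C(E ⧸ Λ, E ⧸ Λ))) (𝓝 g₀) (𝓝 (tr g₀)) := by
  have h : Continuous fun g : E => (tr g : C(E ⧸ Λ, E ⧸ Λ)) :=
    (ContinuousMap.mk (fun a : E × (E ⧸ Λ) => a.1 • a.2) continuous_smul).curry.continuous
  exact h.tendsto g₀

variable (hν : ∀ g : E, ν.map (fun x => g • x) = ν)

include hν

theorem act_tendsto {B : Set (E ⧸ Λ)} (hB : MeasurableSet B) :
    Tendsto (fun g : E => ν.real (((fun x => g • x) ⁻¹' B) ∆ B)) (𝓝 1) (𝓝 0) := by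
  haveI := innerReg (Λ := Λ) ν
  have hcl : IsClosed (Λ : Set E) := Subgroup.isClosed_of_discrete
  have h1 := tendsto_measure_symmDiff_preimage_nhds_zero (μ := ν) (ν := ν) (s := B)
    (tr_tendsto (Λ := Λ) 1) (Eventually.of_forall fun g => ⟨smul_meas Λ g, hν g⟩)
    ⟨smul_meas Λ 1, hν 1⟩ hB.nullMeasurableSet (measure_ne_top ν B)
  have h2 := (ENNReal.tendsto_toReal ENNReal.zero_ne_top).comp h1
  simp only [ENNReal.toReal_zero] at h2
  refine h2.congr fun g => ?_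
  have e1 : (tr (1 : E) : C(E ⧸ Λ, E ⧸ Λ)) ⁻¹' B = B := by
    ext x
    change (1 : E) • x ∈ B ↔ x ∈ B
    rw [one_smul]
  rw [Function.comp_apply, e1]
  rfl

theorem kp_tendsto (K : Type) [NormedAddCommGroup K] [InnerProductSpace ℂ K] (ξ : Lp K 2 ν) :
    Tendsto (fun g => kp (cdat ν hν) K g ξ) (𝓝 (1 : E)) (𝓝 ξ) := by
  haveI := innerReg (Λ := Λ) ν
  have hcl : IsClosed (Λ : Set E) := Subgroup.isClosed_of_discrete
  have hinv : Tendsto (fun g : E => g⁻¹) (𝓝 1) (𝓝 1) := by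
    have := (continuous_inv (G := E)).tendsto 1
    rwa [inv_one] at this
  have h1 := Filter.Tendsto.compMeasurePreservingLp (p := 2) (μ := ν) (ν := ν) (E := K)
    (tendsto_const_nhds (x := ξ) (f := 𝓝 (1 : E))) ((tr_tendsto (Λ := Λ) 1).comp hinv)
    (fun g => ⟨smul_meas Λ g⁻¹, hν g⁻¹⟩) ⟨smul_meas Λ 1, hν 1⟩ (by norm_num)
  have e1 : Lp.compMeasurePreserving (tr (1 : E) : C(E ⧸ Λ, E ⧸ Λ)) ⟨smul_meas Λ 1, hν 1⟩ ξ = ξ := by
    refine Lp.ext ?_
    filter_upwards [Lp.coeFn_compMeasurePreserving ξ ⟨smul_meas Λ 1, hν 1⟩] with x hx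
    refine hx.trans ?_
    change ξ ((1 : E) • x) = ξ x
    rw [one_smul]
  rw [e1] at h1
  exact h1

/-- **Continuity of the cocycle at 1.** -/
theorem coc_tendsto : Tendsto (fun g : E => ν.real {x | coc Λ g x ≠ 1}) (𝓝 1) (𝓝 0) := by
  -- a neighbourhood of 1 meeting `Λ` trivially
  obtain ⟨N, hN, hNΛ⟩ : ∃ N ∈ 𝓝 (1 : E), ∀ v : Λ, (v : E) ∈ N → v = 1 := by
    obtain ⟨t, ht, h⟩ := isOpen_induced_iff.mp (isOpen_discrete ({1} : Set Λ))
    refine ⟨t, ht.mem_nhds ?_, fun v hv => ?_⟩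
    · have : (1 : Λ) ∈ ((↑) : Λ → E) ⁻¹' t := by rw [h]; exact mem_singleton _
      exact this
    · have : v ∈ ((↑) : Λ → E) ⁻¹' t := hv
      rw [h] at this
      exact this
  -- W with W⁻¹ W W ⊆ N
  obtain ⟨W, hWo, hW1, hW⟩ : ∃ W : Set E, IsOpen W ∧ (1 : E) ∈ W ∧
      ∀ a ∈ W, ∀ b ∈ W, ∀ c ∈ W, a⁻¹ * b * c ∈ N := by
    have hcont : Continuous fun p : E × E × E => p.1⁻¹ * p.2.1 * p.2.2 := by fun_prop
    have h1 : (fun p : E × E × E => p.1⁻¹ * p.2.1 * p.2.2) ⁻¹' N ∈ 𝓝 ((1 : E), (1 : E), (1 : E)) := by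
      refine hcont.continuousAt ?_
      simpa using hN
    rw [nhds_prod_eq, nhds_prod_eq, mem_prod_iff] at h1
    obtain ⟨A, hA, BC, hBC, hsub⟩ := h1
    rw [mem_prod_iff] at hBC
    obtain ⟨B, hB, C, hC, hsub2⟩ := hBC
    obtain ⟨W, hWsub, hWo, hW1⟩ := mem_nhds_iff.mp (inter_mem hA (inter_mem hB hC))
    refine ⟨W, hWo, hW1, fun a ha b hb c hc => ?_⟩
    exact hsub (mk_mem_prod (hWsub ha).1 (hsub2 (mk_mem_prod (hWsub hb).2.1 (hWsub hc).2.2)))
  -- a countable cover of `E` by translates of `W`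
  obtain ⟨f, hf⟩ : ∃ f : ℕ → E, (⋃ n, (fun x => f n * x) '' W) = univ := by
    obtain ⟨s, hsc, hs⟩ := TopologicalSpace.countable_cover_nhds
      (f := fun e : E => (fun x => e * x) '' W) (fun e =>
        (isOpenMap_mul_left e W hWo).mem_nhds ⟨1, hW1, mul_one e⟩)
    have hne : s.Nonempty := by
      by_contra h
      rw [not_nonempty_iff_eq_empty] at h
      rw [h] at hs
      have h1 : (1 : E) ∈ (univ : Set E) := mem_univ _
      rw [← hs] at h1
      simp at h1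
    obtain ⟨f, hf⟩ := hsc.exists_eq_range hne
    refine ⟨f, ?_⟩
    rw [hf] at hs
    rw [← hs, biUnion_range]
  obtain ⟨G, hG⟩ : ∃ G : ℕ → Set (E ⧸ Λ), G = fun n => sec Λ ⁻¹' ((fun x => f n * x) '' W) :=
    ⟨_, rfl⟩
  have hGm : ∀ n, MeasurableSet (G n) := fun n => by
    rw [hG]
    exact sec_meas Λ (isOpenMap_mul_left (f n) W hWo).measurableSet
  have hGu : (⋃ n, G n) = univ := by
    rw [hG, ← preimage_iUnion, hf, preimage_univ]
  have hGi : ∀ n x (g : E), x ∈ G n → g • x ∈ G n → (f n)⁻¹ * g * f n ∈ W → coc Λ g x = 1 := by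
    intro n x g hx hgx hg
    rw [hG] at hx hgx
    obtain ⟨a, ha, hax⟩ := hx
    obtain ⟨b, hb, hbx⟩ := hgx
    simp only at hax hbx
    refine hNΛ _ ?_
    rw [coc_coe, ← hax, ← hbx]
    have e1 : (f n * b)⁻¹ * g * (f n * a) = b⁻¹ * ((f n)⁻¹ * g * f n) * a := by group
    rw [e1]
    exact hW b hb _ hg a ha
  rw [Metric.tendsto_nhds]
  intro ε hε
  -- finitely many suffice
  obtain ⟨n, hn⟩ : ∃ n, ν.real (⋃ k ∈ Finset.range n, G k)ᶜ < ε / 2 := by
    have hmono : Monotone fun n => ⋃ k ∈ Finset.range n, G k := by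
      intro a b hab
      refine biUnion_subset_biUnion_left fun k hk => ?_
      exact Finset.mem_range.mpr (lt_of_lt_of_le (Finset.mem_range.mp hk) hab)
    have hu : (⋃ n, ⋃ k ∈ Finset.range n, G k) = univ := by
      refine eq_univ_of_forall fun x => ?_
      have hx : x ∈ ⋃ n, G n := by rw [hGu]; exact mem_univ x
      obtain ⟨k, hk⟩ := mem_iUnion.mp hx
      refine mem_iUnion.mpr ⟨k + 1, mem_iUnion₂.mpr ⟨k, ?_, hk⟩⟩
      exact Finset.mem_range.mpr (Nat.lt_succ_self k)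
    have h2 := tendsto_measure_iUnion_atTop (μ := ν) hmono
    rw [hu, measure_univ] at h2
    have h3 := (ENNReal.tendsto_toReal ENNReal.one_ne_top).comp h2
    have h4 : ∀ n, ν.real (⋃ k ∈ Finset.range n, G k)ᶜ =
        1 - ν.real (⋃ k ∈ Finset.range n, G k) := fun n =>
      probReal_compl_eq_one_sub (Finset.measurableSet_biUnion _ fun k _ => hGm k)
    have h5 : Tendsto (fun n => ν.real (⋃ k ∈ Finset.range n, G k)ᶜ) atTop (𝓝 0) := by
      simp_rw [h4]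
      have h6 : Tendsto (fun n => ν.real (⋃ k ∈ Finset.range n, G k)) atTop (𝓝 1) := by
        simpa [Function.comp_def, Measure.real] using h3
      simpa using h6.const_sub 1
    exact (h5.eventually (gt_mem_nhds (half_pos hε))).exists
  have h1 : Tendsto (fun g : E => ∑ k ∈ Finset.range n,
      ν.real (((fun x => g • x) ⁻¹' G k) ∆ G k)) (𝓝 1) (𝓝 0) := by
    have := tendsto_finsetSum (Finset.range n) fun k _ => act_tendsto ν hν (hGm k)
    simpa using this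
  have h2 : ∀ᶠ g : E in 𝓝 1, ∀ k ∈ Finset.range n, (f k)⁻¹ * g * f k ∈ W := by
    rw [Finset.eventually_all]
    intro k _
    have hc : Continuous fun g : E => (f k)⁻¹ * g * f k := by fun_prop
    have h3 := hc.tendsto 1
    rw [mul_one, inv_mul_cancel] at h3
    exact h3 (hWo.mem_nhds hW1)
  filter_upwards [h1.eventually (gt_mem_nhds (half_pos hε)), h2] with g hg1 hg2
  rw [Real.dist_eq, sub_zero, abs_of_nonneg measureReal_nonneg]
  have hsub : {x | coc Λ g x ≠ 1} ⊆ (⋃ k ∈ Finset.range n, G k)ᶜ ∪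
      ⋃ k ∈ Finset.range n, (((fun x => g • x) ⁻¹' G k) ∆ G k) := by
    intro x hx
    by_contra hcon
    rw [mem_union, not_or, mem_compl_iff, not_not] at hcon
    obtain ⟨h3, h4⟩ := hcon
    obtain ⟨k, hk, hxk⟩ := mem_iUnion₂.mp h3
    refine hx (hGi k x g hxk ?_ (hg2 k hk))
    by_contra h5
    exact h4 (mem_iUnion₂.mpr ⟨k, hk, Or.inr ⟨hxk, h5⟩⟩)
  calc ν.real {x | coc Λ g x ≠ 1} ≤ ν.real ((⋃ k ∈ Finset.range n, G k)ᶜ ∪
        ⋃ k ∈ Finset.range n, (((fun x => g • x) ⁻¹' G k) ∆ G k)) := measureReal_mono hsub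
    _ ≤ ν.real (⋃ k ∈ Finset.range n, G k)ᶜ +
        ν.real (⋃ k ∈ Finset.range n, (((fun x => g • x) ⁻¹' G k) ∆ G k)) :=
      measureReal_union_le _ _
    _ ≤ ν.real (⋃ k ∈ Finset.range n, G k)ᶜ +
        ∑ k ∈ Finset.range n, ν.real (((fun x => g • x) ⁻¹' G k) ∆ G k) := by
      gcongr
      exact measureReal_biUnion_finset_le _ _
    _ < ε / 2 + ε / 2 := add_lt_add hn hg1
    _ = ε := add_halves ε

/-- **Continuity of induced representations at 1.** -/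
theorem ri_cont {K : Type} [NormedAddCommGroup K] [InnerProductSpace ℂ K] [Countable Λ]
    {R : Λ → K →L[ℂ] K} (hb : ∀ v, ‖R v‖ ≤ 1) (ξ : Lp K 2 ν) :
    Tendsto (fun g : E => Ri (cdat ν hν) R g ξ) (𝓝 1) (𝓝 (Ri (cdat ν hν) R 1 ξ)) := by
  have h := ri_tendsto (cdat ν hν) hb (l := 𝓝 (1 : E)) (kp_tendsto ν hν K) (coc_tendsto ν hν) ξ
  rw [ri_one (cdat ν hν) hb]
  exact h

/-- Continuity of induced representations. -/
theorem ri_continuous {K : Type} [NormedAddCommGroup K] [InnerProductSpace ℂ K] [Countable Λ]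
    {R : Λ → K →L[ℂ] K} (hb : ∀ v, ‖R v‖ ≤ 1) (hm : ∀ v w, R (v * w) = R v * R w)
    (ξ : Lp K 2 ν) : Continuous fun g : E => Ri (cdat ν hν) R g ξ := by
  rw [continuous_iff_continuousAt]
  intro g₀
  have h1 : Tendsto (fun g : E => g₀⁻¹ * g) (𝓝 g₀) (𝓝 1) := by
    have hc : Continuous fun g : E => g₀⁻¹ * g := by fun_prop
    have := hc.tendsto g₀
    rwa [inv_mul_cancel] at this
  have h2 := ((Ri (cdat ν hν) R g₀).continuous.tendsto _).comp ((ri_cont ν hν hb ξ).comp h1)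
  have e : ∀ g : E, Ri (cdat ν hν) R g₀ (Ri (cdat ν hν) R (g₀⁻¹ * g) ξ) =
      Ri (cdat ν hν) R g ξ := by
    intro g
    have h3 := ri_mul (cdat ν hν) hb hm g₀ (g₀⁻¹ * g)
    rw [mul_inv_cancel_left] at h3
    rw [h3]; rfl
  have e1 : Ri (cdat ν hν) R g₀ (Ri (cdat ν hν) R 1 ξ) = Ri (cdat ν hν) R g₀ ξ := by
    have h3 := ri_mul (cdat ν hν) hb hm g₀ 1
    rw [mul_one] at h3
    conv_rhs => rw [h3]
    rfl
  rw [e1] at h2
  exact h2.congr fun g => e g

end lat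

end Vale.Agent.P092.H790
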