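import Mathlib

/-!
P092 (helper790): fields of operators on `L²(X; K)`.
-/

set_option linter.all false

open scoped InnerProductSpace ENNReal
open MeasureTheory Filter Topology ContinuousLinearMap

namespace Vale.Agent.P092.H790

section meas

variable {X : Type*} [MeasurableSpace X] {μ : Measure X} {K : Type*} [NormedAddCommGroup K]
  [NormedSpace ℂ K]

/-- Evaluating a strongly measurable field of operators at a measurable function. -/
theorem aesm_field {A : X → K →L[ℂ] K} (hA : ∀ y, AEStronglyMeasurable (fun x => A x y) μ)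
    {f : X → K} (hf : AEStronglyMeasurable f μ) : AEStronglyMeasurable (fun x => A x (f x)) μ := by
  obtain ⟨g, hg, hfg⟩ := hf
  refine AEStronglyMeasurable.congr (f := fun x => A x (g x)) ?_ ?_
  · refine aestronglyMeasurable_of_tendsto_ae atTop (f := fun (n : ℕ) x => A x (hg.approx n x)) ?_ ?_
    · intro n
      have h1 : (fun x => A x (hg.approx n x)) = fun x =>
          ∑ y ∈ (hg.approx n).range, ((hg.approx n) ⁻¹' {y}).indicator (fun x => A x y) x := by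
        funext x
        rw [Finset.sum_eq_single (hg.approx n x)]
        · rw [Set.indicator_of_mem]
          exact rfl
        · intro y _ hy
          rw [Set.indicator_of_notMem]
          intro h
          exact hy h.symm
        · intro h
          exact absurd (SimpleFunc.mem_range_self _ x) h
      rw [h1]
      refine Finset.aestronglyMeasurable_fun_sum _ fun y _ => ?_
      exact (hA y).indicator ((hg.approx n).measurableSet_fiber y)
    · refine Eventually.of_forall fun x => ?_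
      exact ((A x).continuous.tendsto _).comp (hg.tendsto_approx x)
  · filter_upwards [hfg] with x hx
    rw [hx]

theorem aesm_countable {Ω : Type*} [Countable Ω] {k : X → Ω} (hk : ∀ v, MeasurableSet {x | k x = v})
    {F : Ω → X → K} (hF : ∀ v, AEStronglyMeasurable (F v) μ) :
    AEStronglyMeasurable (fun x => F (k x) x) μ := by
  have h1 : (⋃ v, {x | k x = v}) = Set.univ := Set.eq_univ_of_forall fun x =>
    Set.mem_iUnion.2 ⟨k x, rfl⟩
  rw [← Measure.restrict_univ (μ := μ), ← h1, aestronglyMeasurable_iUnion_iff]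
  intro v
  refine ((hF v).restrict (s := {x | k x = v})).congr ?_
  filter_upwards [ae_restrict_mem (hk v)] with x hx
  have hx' : k x = v := hx
  rw [hx']

end meas

section fld

variable {X : Type*} [MeasurableSpace X] {μ : Measure X} {K : Type*} [NormedAddCommGroup K]
  [InnerProductSpace ℂ K]

/-- `T` acts on `L²(X; K)` by the field of operators `A`. -/
def Fld (T : Lp K 2 μ →L[ℂ] Lp K 2 μ) (A : X → K →L[ℂ] K) : Prop :=
  ∀ ξ : Lp K 2 μ, ⇑(T ξ) =ᵐ[μ] fun x => A x (ξ x)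

theorem Fld.mul {S T : Lp K 2 μ →L[ℂ] Lp K 2 μ} {A B : X → K →L[ℂ] K} (hS : Fld S A) (hT : Fld T B) :
    Fld (S * T) (fun x => A x * B x) := by
  intro ξ
  filter_upwards [hS (T ξ), hT ξ] with x h1 h2
  change (S (T ξ)) x = A x (B x (ξ x))
  rw [h1, h2]

theorem Fld.add {S T : Lp K 2 μ →L[ℂ] Lp K 2 μ} {A B : X → K →L[ℂ] K} (hS : Fld S A) (hT : Fld T B) :
    Fld (S + T) (fun x => A x + B x) := by
  intro ξ
  filter_upwards [hS ξ, hT ξ, Lp.coeFn_add (S ξ) (T ξ)] with x h1 h2 h3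
  change (S ξ + T ξ : Lp K 2 μ) x = A x (ξ x) + B x (ξ x)
  rw [h3, Pi.add_apply, h1, h2]

theorem Fld.smul (c : ℂ) {T : Lp K 2 μ →L[ℂ] Lp K 2 μ} {A : X → K →L[ℂ] K} (hT : Fld T A) :
    Fld (c • T) (fun x => c • A x) := by
  intro ξ
  filter_upwards [hT ξ, Lp.coeFn_smul c (T ξ)] with x h1 h2
  change (c • T ξ : Lp K 2 μ) x = c • A x (ξ x)
  rw [h2, Pi.smul_apply, h1]

theorem Fld.sub {S T : Lp K 2 μ →L[ℂ] Lp K 2 μ} {A B : X → K →L[ℂ] K} (hS : Fld S A) (hT : Fld T B) :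
    Fld (S - T) (fun x => A x - B x) := by
  intro ξ
  filter_upwards [hS ξ, hT ξ, Lp.coeFn_sub (S ξ) (T ξ)] with x h1 h2 h3
  change (S ξ - T ξ : Lp K 2 μ) x = A x (ξ x) - B x (ξ x)
  rw [h3, Pi.sub_apply, h1, h2]

theorem Fld.congr {T : Lp K 2 μ →L[ℂ] Lp K 2 μ} {A B : X → K →L[ℂ] K} (hT : Fld T A)
    (h : ∀ᵐ x ∂μ, A x = B x) : Fld T B := by
  intro ξ
  filter_upwards [hT ξ, h] with x h1 h2
  rw [h1, h2]

theorem Fld.ext {S T : Lp K 2 μ →L[ℂ] Lp K 2 μ} {A B : X → K →L[ℂ] K} (hS : Fld S A) (hT : Fld T B)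
    (h : ∀ᵐ x ∂μ, A x = B x) : S = T := by
  refine ContinuousLinearMap.ext fun ξ => Lp.ext ?_
  filter_upwards [hS ξ, hT ξ, h] with x h1 h2 h3
  rw [h1, h2, h3]

theorem fld_one : Fld (1 : Lp K 2 μ →L[ℂ] Lp K 2 μ) (fun _ => 1) := fun ξ => EventuallyEq.rfl

theorem fld_zero : Fld (0 : Lp K 2 μ →L[ℂ] Lp K 2 μ) (fun _ => 0) := by
  intro ξ
  filter_upwards [Lp.coeFn_zero K 2 μ] with x h1
  change (0 : Lp K 2 μ) x = 0
  rw [h1]; rfl

theorem Fld.inner {S T : Lp K 2 μ →L[ℂ] Lp K 2 μ} {A B : X → K →L[ℂ] K} (hS : Fld S A) (hT : Fld T B)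
    (ξ η : Lp K 2 μ) : ⟪S ξ, T η⟫_ℂ = ∫ x, ⟪A x (ξ x), B x (η x)⟫_ℂ ∂μ := by
  rw [L2.inner_def]
  refine integral_congr_ae ?_
  filter_upwards [hS ξ, hT η] with x h1 h2
  rw [h1, h2]

theorem Fld.adjoint [CompleteSpace K] {S T : Lp K 2 μ →L[ℂ] Lp K 2 μ} {A B : X → K →L[ℂ] K}
    (hS : Fld S A) (hT : Fld T B) (h : ∀ᵐ x ∂μ, B x = ContinuousLinearMap.adjoint (A x)) :
    ContinuousLinearMap.adjoint S = T := by
  rw [eq_comm, ContinuousLinearMap.eq_adjoint_iff]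
  intro ξ η
  have h1 := Fld.inner hT fld_one ξ η
  have h2 := Fld.inner fld_one hS ξ η
  change ⟪T ξ, η⟫_ℂ = _ at h1
  change ⟪ξ, S η⟫_ℂ = _ at h2
  rw [h1, h2]
  refine integral_congr_ae ?_
  filter_upwards [h] with x hx
  simp only [ContinuousLinearMap.one_apply]
  rw [hx, ContinuousLinearMap.adjoint_inner_left]

/-- Existence of the operator of a bounded strongly measurable field. -/
theorem exists_fld {A : X → K →L[ℂ] K} (hA : ∀ y, AEStronglyMeasurable (fun x => A x y) μ) {C : ℝ}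
    (hC0 : 0 ≤ C) (hC : ∀ x, ‖A x‖ ≤ C) : ∃ T : Lp K 2 μ →L[ℂ] Lp K 2 μ, Fld T A ∧ ‖T‖ ≤ C := by
  have hb : ∀ (ξ : Lp K 2 μ) x, ‖A x (ξ x)‖ ≤ C * ‖ξ x‖ := fun ξ x =>
    ((A x).le_opNorm _).trans (by have := hC x; gcongr)
  have hmem : ∀ ξ : Lp K 2 μ, MemLp (fun x => A x (ξ x)) 2 μ := fun ξ =>
    MemLp.of_le_mul (Lp.memLp ξ) (aesm_field hA (Lp.aestronglyMeasurable ξ))
      (Eventually.of_forall (hb ξ))
  let L : Lp K 2 μ →ₗ[ℂ] Lp K 2 μ :=
    { toFun := fun ξ => (hmem ξ).toLp _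
      map_add' := fun ξ η => by
        refine Lp.ext ?_
        filter_upwards [(hmem (ξ + η)).coeFn_toLp, (hmem ξ).coeFn_toLp, (hmem η).coeFn_toLp,
          Lp.coeFn_add ξ η, Lp.coeFn_add ((hmem ξ).toLp _) ((hmem η).toLp _)] with x h1 h2 h3 h4 h5
        rw [h1, h5, Pi.add_apply, h2, h3, h4, Pi.add_apply, map_add]
      map_smul' := fun c ξ => by
        refine Lp.ext ?_
        filter_upwards [(hmem (c • ξ)).coeFn_toLp, (hmem ξ).coeFn_toLp,
          Lp.coeFn_smul c ξ, Lp.coeFn_smul c ((hmem ξ).toLp _)] with x h1 h2 h4 h5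
        rw [h1, RingHom.id_apply, h5, Pi.smul_apply, h2, h4, Pi.smul_apply, map_smul] }
  have hL : ∀ ξ, ‖L ξ‖ ≤ C * ‖ξ‖ := by
    intro ξ
    refine Lp.norm_le_mul_norm_of_ae_le_mul ?_
    filter_upwards [(hmem ξ).coeFn_toLp] with x h1
    change ‖((hmem ξ).toLp _ : Lp K 2 μ) x‖ ≤ _
    rw [h1]
    exact hb ξ x
  exact ⟨L.mkContinuous C hL, fun ξ => (hmem ξ).coeFn_toLp, L.mkContinuous_norm_le hC0 hL⟩

open Classical in
/-- The operator of a field. -/
noncomputable def fop (μ : Measure X) (A : X → K →L[ℂ] K) : Lp K 2 μ →L[ℂ] Lp K 2 μ :=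
  if h : ∃ T : Lp K 2 μ →L[ℂ] Lp K 2 μ, Fld T A then h.choose else 0

theorem fop_spec {A : X → K →L[ℂ] K} (hA : ∀ y, AEStronglyMeasurable (fun x => A x y) μ) {C : ℝ}
    (hC : ∀ x, ‖A x‖ ≤ C) : Fld (fop μ A) A := by
  have hC' : ∀ x, ‖A x‖ ≤ |C| := fun x => (hC x).trans (le_abs_self C)
  obtain ⟨T, hT, -⟩ := exists_fld hA (abs_nonneg C) hC'
  have h : ∃ T : Lp K 2 μ →L[ℂ] Lp K 2 μ, Fld T A := ⟨T, hT⟩
  rw [fop, dif_pos h]
  exact h.choose_spec

theorem norm_fop_le {A : X → K →L[ℂ] K} (hA : ∀ y, AEStronglyMeasurable (fun x => A x y) μ) {C : ℝ}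
    (hC0 : 0 ≤ C) (hC : ∀ x, ‖A x‖ ≤ C) : ‖fop μ A‖ ≤ C := by
  obtain ⟨T, hT, h2⟩ := exists_fld hA hC0 hC
  rw [Fld.ext (fop_spec hA hC) hT (Eventually.of_forall fun x => rfl)]
  exact h2

end fld

end Vale.Agent.P092.H790
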