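import Vale.Agent.P092.H515.ProdGeo
import Mathlib.Topology.MetricSpace.HausdorffDistance

/-!
P092 (helper790): merging the gaps of a system of gauges. If the gaps of a system of gauges are
linear functions of a Lipschitz map `s : G → V` whose values lie in finitely many subspaces of
dimension `≤ r`, then there is a system of gauges with `r` gaps and the same height function:
the `c`-th gap is the distance of `s g` to the nearest subspace of dimension `≤ c` in a finite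
family which is stable under intersection with the kernels of the gaps.
-/

set_option linter.all false

open Finset Module Metric

namespace Vale.Agent.P092.H790.Mrg

open Vale.Agent.P092.H515 (GSys IsGauge exists_le_all exists_pos_le_all)

/-! ### Distances to subspaces -/

section dist
variable {V : Type} [NormedAddCommGroup V] [NormedSpace ℝ V] [FiniteDimensional ℝ V]

/-- the distance to the nearest member of dimension `≤ c` -/
noncomputable def D (𝓜 : Finset (Submodule ℝ V)) (c : ℕ) (x : V) : ℝ :=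
  ⨅ M : {M : Submodule ℝ V // M ∈ 𝓜 ∧ finrank ℝ M ≤ c}, infDist x (M.1 : Set V)

variable {𝓜 : Finset (Submodule ℝ V)}

theorem fin_sub (c : ℕ) : Finite {M : Submodule ℝ V // M ∈ 𝓜 ∧ finrank ℝ M ≤ c} :=
  Finite.of_injective (fun M => (⟨M.1, M.2.1⟩ : {M // M ∈ 𝓜})) fun a b h =>
    Subtype.ext (congrArg (fun z => z.1) h)

theorem nonempty_sub (hb : ⊥ ∈ 𝓜) (c : ℕ) :
    Nonempty {M : Submodule ℝ V // M ∈ 𝓜 ∧ finrank ℝ M ≤ c} :=
  ⟨⟨⊥, hb, by simp⟩⟩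

theorem D_le (c : ℕ) (x : V) {M : Submodule ℝ V} (hM : M ∈ 𝓜) (hc : finrank ℝ M ≤ c) :
    D 𝓜 c x ≤ infDist x (M : Set V) := by
  haveI := fin_sub (𝓜 := 𝓜) c
  exact ciInf_le (Set.finite_range _).bddBelow
    (⟨M, hM, hc⟩ : {M : Submodule ℝ V // M ∈ 𝓜 ∧ finrank ℝ M ≤ c})

theorem exists_min (hb : ⊥ ∈ 𝓜) (c : ℕ) (x : V) :
    ∃ M ∈ 𝓜, finrank ℝ M ≤ c ∧ infDist x (M : Set V) = D 𝓜 c x := by
  haveI := fin_sub (𝓜 := 𝓜) c
  haveI := nonempty_sub hb c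
  obtain ⟨M, hM⟩ := exists_eq_ciInf_of_finite
    (f := fun M : {M : Submodule ℝ V // M ∈ 𝓜 ∧ finrank ℝ M ≤ c} => infDist x (M.1 : Set V))
  exact ⟨M.1, M.2.1, M.2.2, hM⟩

theorem D_nonneg (hb : ⊥ ∈ 𝓜) (c : ℕ) (x : V) : 0 ≤ D 𝓜 c x := by
  obtain ⟨M, _, _, h⟩ := exists_min hb c x
  rw [← h]
  exact infDist_nonneg

theorem D_anti (hb : ⊥ ∈ 𝓜) {c c' : ℕ} (h : c ≤ c') (x : V) : D 𝓜 c' x ≤ D 𝓜 c x := by
  obtain ⟨M, h1, h2, h3⟩ := exists_min hb c x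
  rw [← h3]
  exact D_le c' x h1 (h2.trans h)

theorem D_lip1 (hb : ⊥ ∈ 𝓜) (c : ℕ) (x y : V) : D 𝓜 c x ≤ D 𝓜 c y + ‖x - y‖ := by
  obtain ⟨M, h1, h2, h3⟩ := exists_min hb c y
  rw [← h3, ← dist_eq_norm]
  exact (D_le c x h1 h2).trans infDist_le_infDist_add_dist

theorem D_lip (hb : ⊥ ∈ 𝓜) (c : ℕ) (x y : V) : |D 𝓜 c x - D 𝓜 c y| ≤ ‖x - y‖ := by
  rw [abs_le]
  have h1 := D_lip1 hb c x y
  have h2 := D_lip1 hb c y x
  rw [norm_sub_rev] at h2
  constructor <;> linarith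

theorem D_eq_zero (hb : ⊥ ∈ 𝓜) {c : ℕ} {x : V} {M : Submodule ℝ V} (hM : M ∈ 𝓜)
    (hc : finrank ℝ M ≤ c) (hx : x ∈ M) : D 𝓜 c x = 0 := by
  refine le_antisymm ((D_le c x hM hc).trans ?_) (D_nonneg hb c x)
  rw [infDist_zero_of_mem hx]

/-- a nearest member -/
noncomputable def mn (𝓜 : Finset (Submodule ℝ V)) (c : ℕ) (x : V) : Submodule ℝ V :=
  open Classical in
  if h : ∃ M ∈ 𝓜, finrank ℝ M ≤ c ∧ infDist x (M : Set V) = D 𝓜 c x then h.choose else ⊥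

theorem mn_spec (hb : ⊥ ∈ 𝓜) (c : ℕ) (x : V) :
    mn 𝓜 c x ∈ 𝓜 ∧ finrank ℝ (mn 𝓜 c x) ≤ c ∧ infDist x (mn 𝓜 c x : Set V) = D 𝓜 c x := by
  have h := exists_min hb c x
  rw [mn, dif_pos h]
  exact h.choose_spec

theorem exists_near (hb : ⊥ ∈ 𝓜) (c : ℕ) (x : V) :
    ∃ y ∈ mn 𝓜 c x, ‖x - y‖ = D 𝓜 c x := by
  haveI : ProperSpace V := FiniteDimensional.proper_real V
  obtain ⟨y, hy, h⟩ := (Submodule.closed_of_finiteDimensional (mn 𝓜 c x)).exists_infDist_eq_dist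
    ⟨0, Submodule.zero_mem _⟩ x
  refine ⟨y, hy, ?_⟩
  rw [← (mn_spec hb c x).2.2, h, dist_eq_norm]

variable {J : Type} [Fintype J] (δ : J → V →ₗ[ℝ] ℝ)

/-- the type -/
noncomputable def ty (𝓜 : Finset (Submodule ℝ V)) (c : ℕ) (x : V) : Finset J :=
  open Classical in Finset.univ.filter fun j => ¬ mn 𝓜 c x ≤ LinearMap.ker (δ j)

theorem mem_ty {c : ℕ} {x : V} {j : J} :
    j ∈ ty δ 𝓜 c x ↔ ¬ mn 𝓜 c x ≤ LinearMap.ker (δ j) := by
  classical
  rw [ty, Finset.mem_filter]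
  simp

theorem ty_zero (hb : ⊥ ∈ 𝓜) (x : V) : ty δ 𝓜 0 x = ∅ := by
  rw [Finset.eq_empty_iff_forall_notMem]
  intro j hj
  rw [mem_ty] at hj
  apply hj
  have h := (mn_spec hb 0 x).2.1
  have h1 : mn 𝓜 0 x = ⊥ := Submodule.finrank_eq_zero.mp (Nat.le_zero.mp h)
  rw [h1]
  exact bot_le

/-- **Dichotomy.** -/
theorem exists_const (hb : ⊥ ∈ 𝓜)
    (hc : ∀ M ∈ 𝓜, ∀ j, M ⊓ LinearMap.ker (δ j) ∈ 𝓜) :
    ∃ K : ℝ, 1 ≤ K ∧ (∀ c x j, j ∉ ty δ 𝓜 c x → |δ j x| ≤ K * D 𝓜 c x) ∧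
      ∀ c x j, j ∈ ty δ 𝓜 (c + 1) x → D 𝓜 c x ≤ K * |δ j x| + K * D 𝓜 (c + 1) x := by
  classical
  -- norms of the functionals
  have h1 : ∀ j, ∃ C : ℝ, 0 ≤ C ∧ ∀ y, |δ j y| ≤ C * ‖y‖ := by
    intro j
    refine ⟨‖LinearMap.toContinuousLinearMap (δ j)‖, norm_nonneg _, fun y => ?_⟩
    exact (LinearMap.toContinuousLinearMap (δ j)).le_opNorm y
  choose C1 hC10 hC1 using h1
  obtain ⟨N, hN0, hN⟩ := exists_le_all C1
  -- vectors with value one
  have h2 : ∀ (M : Submodule ℝ V) (j : J), ∃ u : V, ¬ M ≤ LinearMap.ker (δ j) →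
      u ∈ M ∧ δ j u = 1 := by
    intro M j
    by_cases h : M ≤ LinearMap.ker (δ j)
    · exact ⟨0, fun h' => absurd h h'⟩
    · obtain ⟨v, hv, hv1⟩ := Set.not_subset.mp h
      have hv2 : δ j v ≠ 0 := fun h0 => hv1 (by rw [SetLike.mem_coe, LinearMap.mem_ker]; exact h0)
      refine ⟨(δ j v)⁻¹ • v, fun _ => ⟨M.smul_mem _ hv, ?_⟩⟩
      rw [map_smul, smul_eq_mul, inv_mul_cancel₀ hv2]
  choose u hu using h2
  obtain ⟨U, hU0, hU⟩ : ∃ U : ℝ, 0 ≤ U ∧ ∀ M ∈ 𝓜, ∀ j, ‖u M j‖ ≤ U := by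
    obtain ⟨U, h0, hU⟩ := exists_le_all (fun z : {M // M ∈ 𝓜} × J => ‖u z.1.1 z.2‖)
    exact ⟨U, h0, fun M hM j => hU (⟨M, hM⟩, j)⟩
  refine ⟨1 + N + U + U * N, by nlinarith [mul_nonneg hU0 hN0], fun c x j hj => ?_,
    fun c x j hj => ?_⟩
  · obtain ⟨y, hy, hxy⟩ := exists_near hb c x
    have h3 : mn 𝓜 c x ≤ LinearMap.ker (δ j) := by
      by_contra h
      exact hj ((mem_ty δ).mpr h)
    have h4 : δ j y = 0 := h3 hy
    have h5 : δ j x = δ j (x - y) := by rw [map_sub, h4, sub_zero]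
    rw [h5]
    refine (hC1 j _).trans ?_
    rw [hxy]
    have hD := D_nonneg hb c x
    have : C1 j ≤ 1 + N + U + U * N := by
      have := hN j
      nlinarith [mul_nonneg hU0 hN0]
    exact mul_le_mul_of_nonneg_right this hD
  · obtain ⟨y, hy, hxy⟩ := exists_near hb (c + 1) x
    have hM := mn_spec hb (c + 1) x
    rw [mem_ty] at hj
    obtain ⟨hu1, hu2⟩ := hu _ _ hj
    have hM' := hc _ hM.1 j
    have hlt : finrank ℝ ↥(mn 𝓜 (c + 1) x ⊓ LinearMap.ker (δ j)) < finrank ℝ (mn 𝓜 (c + 1) x) := by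
      refine Submodule.finrank_lt_finrank_of_lt (lt_of_le_of_ne inf_le_left fun h => hj ?_)
      rw [← h]
      exact inf_le_right
    have hle : finrank ℝ ↥(mn 𝓜 (c + 1) x ⊓ LinearMap.ker (δ j)) ≤ c := by
      have := hM.2.1
      omega
    have hy' : y - δ j y • u (mn 𝓜 (c + 1) x) j ∈ mn 𝓜 (c + 1) x ⊓ LinearMap.ker (δ j) := by
      refine ⟨Submodule.sub_mem _ hy (Submodule.smul_mem _ _ hu1), ?_⟩
      show _ ∈ LinearMap.ker (δ j)
      rw [LinearMap.mem_ker, map_sub, map_smul, hu2, smul_eq_mul, mul_one, sub_self]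
    have hD := D_nonneg hb (c + 1) x
    have h3 : |δ j y| ≤ |δ j x| + N * D 𝓜 (c + 1) x := by
      have h4 : δ j y = δ j x - δ j (x - y) := by rw [map_sub]; ring
      rw [h4]
      refine (abs_sub _ _).trans ?_
      have h5 := hC1 j (x - y)
      rw [hxy] at h5
      have h6 := mul_le_mul_of_nonneg_right (hN j) hD
      linarith
    calc D 𝓜 c x ≤ infDist x ((mn 𝓜 (c + 1) x ⊓ LinearMap.ker (δ j) : Submodule ℝ V) : Set V) :=
          D_le c x hM' hle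
      _ ≤ dist x (y - δ j y • u (mn 𝓜 (c + 1) x) j) := infDist_le_dist_of_mem hy'
      _ = ‖(x - y) + δ j y • u (mn 𝓜 (c + 1) x) j‖ := by
          rw [dist_eq_norm]
          congr 1
          abel
      _ ≤ ‖x - y‖ + |δ j y| * ‖u (mn 𝓜 (c + 1) x) j‖ := by
          refine (norm_add_le _ _).trans ?_
          rw [norm_smul, Real.norm_eq_abs]
      _ ≤ D 𝓜 (c + 1) x + (|δ j x| + N * D 𝓜 (c + 1) x) * U := by
          rw [hxy]
          have h7 := hU _ hM.1 j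
          have h8 : |δ j y| * ‖u (mn 𝓜 (c + 1) x) j‖ ≤ (|δ j x| + N * D 𝓜 (c + 1) x) * U :=
            mul_le_mul h3 h7 (norm_nonneg _) (by positivity)
          linarith
      _ ≤ _ := by
          have h9 := abs_nonneg (δ j x)
          nlinarith [mul_nonneg hN0 h9, mul_nonneg hN0 hD, mul_nonneg hU0 h9, mul_nonneg hU0 hD,
            mul_nonneg (mul_nonneg hU0 hN0) h9, mul_nonneg (mul_nonneg hU0 hN0) hD]

end dist

/-! ### More parameters -/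

section extend
variable {G J : Type} [Group G] {gp : J → G → ℝ} {w : G → ℝ} {θ : Finset J}

theorem extend {P P' : Type} [Fintype P] [Fintype P'] (ι : P ↪ P')
    {f f0 : (P → ℝ) → G → G → ℝ} {A A' : ℝ} (hA : |A| ≤ A') (hw : ∀ b, 0 < w b)
    (h : IsGauge gp w θ f f0 A) :
    IsGauge gp w θ (fun t : P' → ℝ => f (t ∘ ι)) (fun t => f0 (t ∘ ι)) A' where
  lo t g := h.lo _ g
  lo0 t g := h.lo0 _ g
  bd R T := by
    obtain ⟨c, hc, C, h1⟩ := h.bd R T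
    exact ⟨c, hc, C, fun g hg t ht b => h1 g hg _ (fun j => ht (ι j)) b⟩
  bd0 T := by
    obtain ⟨c, hc, C, h1⟩ := h.bd0 T
    exact ⟨c, hc, C, fun g t ht b => h1 g _ (fun j => ht (ι j)) b⟩
  lip t d g b := by
    have h1 := h.lip (t ∘ ι) (d ∘ ι) g b
    have h0 : 0 ≤ f (t ∘ ι) g b := by
      obtain ⟨c, hc, h2⟩ := h.lo (t ∘ ι) g
      exact (mul_pos hc (hw b)).le.trans (h2 b)
    have h3 : ∑ j, |(d ∘ ι) j| ≤ ∑ j, |d j| := by
      have h4 : ∑ j, |(d ∘ ι) j| = ∑ j ∈ Finset.univ.map ι, |d j| := by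
        rw [Finset.sum_map]
        rfl
      rw [h4]
      exact Finset.sum_le_sum_of_subset_of_nonneg (Finset.subset_univ _) fun _ _ _ => abs_nonneg _
    have h5 : A * ∑ j, |(d ∘ ι) j| ≤ A' * ∑ j, |d j| := by
      have h6 : 0 ≤ ∑ j, |(d ∘ ι) j| := Finset.sum_nonneg fun _ _ => abs_nonneg _
      calc A * ∑ j, |(d ∘ ι) j| ≤ |A| * ∑ j, |(d ∘ ι) j| :=
            mul_le_mul_of_nonneg_right (le_abs_self A) h6
        _ ≤ A' * ∑ j, |d j| := mul_le_mul hA h3 h6 ((abs_nonneg A).trans hA)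
    exact h1.trans (mul_le_mul_of_nonneg_right (Real.exp_le_exp.mpr h5) h0)
  left s R1 := by
    obtain ⟨C, hC⟩ := h.left s R1
    refine ⟨C, fun ρ hρ => ?_⟩
    obtain ⟨L, hL⟩ := hC ρ hρ
    refine ⟨L, fun T => ?_⟩
    obtain ⟨R, hR⟩ := hL T
    refine ⟨R, fun g h1 h2 => ?_⟩
    obtain ⟨p, hp, σ, hσ, h3⟩ := hR g h1 h2
    have hC0 : 0 ≤ C := (abs_nonneg p).trans hp
    refine ⟨p, hp, Function.extend ι σ 0, fun j => ?_, fun t ht b => ?_⟩
    · by_cases hj : ∃ i, ι i = j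
      · obtain ⟨i, rfl⟩ := hj
        rw [ι.injective.extend_apply]
        exact hσ i
      · rw [Function.extend_apply' _ _ _ hj]
        simpa using hC0
    · have e : (t + Function.extend ι σ 0) ∘ ι = t ∘ ι + σ := by
        funext i
        simp only [Function.comp_apply, Pi.add_apply, ι.injective.extend_apply]
      have h4 := h3 (t ∘ ι) (fun j => ht (ι j)) b
      rw [← e] at h4
      exact h4
  right u T η hη := by
    obtain ⟨R, hR⟩ := h.right u T η hη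
    exact ⟨R, fun g h1 t ht b => hR g h1 _ (fun j => ht (ι j)) b⟩
  ov R := by
    obtain ⟨C, hC1, hC⟩ := h.ov R
    refine ⟨C, hC1, fun T => ?_⟩
    obtain ⟨D, hD⟩ := hC T
    exact ⟨D, fun g h1 h2 t ht b => hD g h1 h2 _ (fun j => ht (ι j)) b⟩

/-- One set of parameters for all types. -/
theorem common [Fintype J] (h : GSys gp w) : ∃ (P : Type) (_ : Fintype P)
    (f f0 : Finset J → (P → ℝ) → G → G → ℝ) (A : ℝ), ∀ θ, IsGauge gp w θ (f θ) (f0 θ) A := by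
  classical
  choose P hP f f0 A hf using h.gauge
  refine ⟨Σ θ : Finset J, P θ, inferInstance, fun θ t => f θ (t ∘ fun q => ⟨θ, q⟩),
    fun θ t => f0 θ (t ∘ fun q => ⟨θ, q⟩), ∑ θ, |A θ|, fun θ => ?_⟩
  exact extend (⟨fun q => ⟨θ, q⟩, sigma_mk_injective⟩ : P θ ↪ Σ θ : Finset J, P θ)
    (Finset.single_le_sum (f := fun θ => |A θ|) (fun _ _ => abs_nonneg _) (Finset.mem_univ θ))
    h.pos (hf θ)

end extend

end Vale.Agent.P092.H790.Mrg
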