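import Vale.Agent.P092.H790.MrgB

/-!
P092 (helper790): merging the gaps, the version with a bounded error: the map is only at bounded
distance from the subspaces of dimension `≤ r`.
-/

set_option linter.all false

open Finset Module Metric

namespace Vale.Agent.P092.H790.Mrg

open Vale.Agent.P092.H515 (GSys IsGauge exists_le_all exists_pos_le_all)

section mergeB
variable {G J V : Type} [Group G] [Fintype J] [NormedAddCommGroup V] [NormedSpace ℝ V]
  [FiniteDimensional ℝ V]

/-- The gaps are linear functions of a Lipschitz map with values at bounded distance from subspaces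
of dimension `≤ r`. -/
structure DatB (gp : J → G → ℝ) (s : G → V) (δ : J → V →ₗ[ℝ] ℝ) (𝓜 : Finset (Submodule ℝ V))
    (r : ℕ) : Prop where
  gap : ∀ j g, gp j g = δ j (s g)
  nn : ∀ j g, 0 ≤ gp j g
  lip : ∀ a b, ∃ C, ∀ g, ‖s (a * g * b) - s g‖ ≤ C
  bot : ⊥ ∈ 𝓜
  cut : ∀ M ∈ 𝓜, ∀ j, M ⊓ LinearMap.ker (δ j) ∈ 𝓜
  cov : ∃ C : ℝ, ∀ g, ∃ M ∈ 𝓜, finrank ℝ M ≤ r ∧ ∃ x ∈ M, ‖s g - x‖ ≤ C

variable {gp : J → G → ℝ} {s : G → V} {δ : J → V →ₗ[ℝ] ℝ} {𝓜 : Finset (Submodule ℝ V)} {r : ℕ}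
  {w : G → ℝ}

/-- The gauge at one level. -/
theorem Lev.gaugeB {T : G → Finset J} {a b : G → ℝ} {K : ℝ} (hK : 1 ≤ K) {c₀ r : ℕ}
    (h : Lev gp T a b K c₀) (hS : GSys gp w)
    (hq : ∀ s t, ∃ C, ∀ g, |a (s * g * t) - a g| ≤ C ∧ |b (s * g * t) - b g| ≤ C)
    {ng : Fin r → G → ℝ} {θ : Finset (Fin r)}
    (hoff0 : ∀ R, ∃ R', 0 ≤ R' ∧ ∀ g, (∀ j, j ∉ θ → ng j g ≤ R) → a g ≤ R')
    (hdeep : ∀ R g, (∀ j ∈ θ, R ≤ ng j g) → c₀ ≠ 0 → R ≤ b g) :
    ∃ (P : Type) (_ : Fintype P) (f f0 : (P → ℝ) → G → G → ℝ) (A : ℝ),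
      IsGauge ng w θ f f0 A := by
  classical
  obtain ⟨P, hP, f, f0, A, hf⟩ := common hS
  obtain ⟨χ, hχ⟩ : ∃ χ : G → ℝ, ∀ g, χ g = if c₀ = 0 then 1 else chi (a g) (b g) := ⟨_, fun _ => rfl⟩
  have hχ01 : ∀ g, 0 ≤ χ g ∧ χ g ≤ 1 := fun g => by
    rw [hχ]
    split_ifs
    · exact ⟨zero_le_one, le_rfl⟩
    · exact chi_mem _ _
  have hw0 : ∀ b, 0 ≤ w b := fun b => (hS.pos b).le
  refine ⟨P, hP, fun t g b => f (T g) t g b,
    fun t g b => χ g * f0 (T g) t g b + (1 - χ g) * w b, A, ?_⟩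
  refine ⟨?_, ?_, ?_, ?_, ?_, ?_, ?_, ?_⟩
  · exact fun t g => (hf (T g)).lo t g
  · intro t g
    obtain ⟨c, hc, h1⟩ := (hf (T g)).lo0 t g
    refine ⟨min c 1, lt_min hc one_pos, fun b' => ?_⟩
    have h2 := h1 b'
    have h3 := hw0 b'
    have h4 := hχ01 g
    have h5 : min c 1 * w b' ≤ c * w b' := mul_le_mul_of_nonneg_right (min_le_left _ _) h3
    have h6 : min c 1 * w b' ≤ 1 * w b' := mul_le_mul_of_nonneg_right (min_le_right _ _) h3
    nlinarith [mul_le_mul_of_nonneg_left (h5.trans h2) h4.1,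
      mul_le_mul_of_nonneg_left h6 (sub_nonneg.mpr h4.2)]
  · intro R T'
    obtain ⟨Q1, hQ10, hoff⟩ := hoff0 R
    choose c hc C h1 using fun θ => (hf θ).bd (K * Q1) T'
    obtain ⟨c', hc', h2⟩ := exists_pos_le_all c hc
    obtain ⟨C', hC', h3⟩ := exists_le_all C
    refine ⟨c', hc', C', fun g hg t ht b' => ?_⟩
    have h4 : ∀ j, j ∉ T g → gp j g ≤ K * Q1 := fun j hj =>
      (h.off g j hj).trans (mul_le_mul_of_nonneg_left (hoff g hg) (by linarith))
    have h5 := h1 (T g) g h4 t ht b'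
    exact ⟨(mul_le_mul_of_nonneg_right (h2 _) (hw0 b')).trans h5.1,
      h5.2.trans (mul_le_mul_of_nonneg_right (h3 _) (hw0 b'))⟩
  · intro T'
    choose c hc C h1 using fun θ => (hf θ).bd0 T'
    obtain ⟨c', hc', h2⟩ := exists_pos_le_all c hc
    obtain ⟨C', hC', h3⟩ := exists_le_all C
    refine ⟨min c' 1, lt_min hc' one_pos, max C' 1, fun g t ht b' => ?_⟩
    have h5 := h1 (T g) g t ht b'
    have h4 := hχ01 g
    have h6 := hw0 b'
    have h7 : min c' 1 * w b' ≤ f0 (T g) t g b' :=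
      (mul_le_mul_of_nonneg_right ((min_le_left _ _).trans (h2 _)) h6).trans h5.1
    have h8 : min c' 1 * w b' ≤ w b' := by
      have := mul_le_mul_of_nonneg_right (min_le_right c' 1) h6
      linarith
    have h9 : f0 (T g) t g b' ≤ max C' 1 * w b' :=
      h5.2.trans (mul_le_mul_of_nonneg_right ((h3 _).trans (le_max_left _ _)) h6)
    have h10 : w b' ≤ max C' 1 * w b' := by
      have := mul_le_mul_of_nonneg_right (le_max_right C' 1) h6
      linarith
    have h11 := sub_nonneg.mpr h4.2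
    constructor
    · nlinarith [mul_le_mul_of_nonneg_left h7 h4.1, mul_le_mul_of_nonneg_left h8 h11]
    · nlinarith [mul_le_mul_of_nonneg_left h9 h4.1, mul_le_mul_of_nonneg_left h10 h11]
  · exact fun t d g b' => (hf (T g)).lip t d g b'
  · -- left
    intro s0 R1
    obtain ⟨Q1, hQ10, hoff⟩ := hoff0 R1
    choose C hC using fun θ => (hf θ).left s0 (K * Q1)
    obtain ⟨C', hC', hCC⟩ := exists_le_all C
    obtain ⟨C2, hC2⟩ := hq s0 1
    obtain ⟨C1, hC1⟩ := hS.quasi s0 1
    refine ⟨C', fun ρ hρ => ?_⟩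
    choose L hL using fun θ => hC θ ρ hρ
    obtain ⟨L', hL', hLL⟩ := exists_le_all L
    refine ⟨L', fun T' => ?_⟩
    choose R hR using fun θ => hL θ T'
    obtain ⟨R', hR', hRR⟩ := exists_le_all R
    obtain ⟨B, hB⟩ : ∃ B : ℝ, B = Q1 + |C2| := ⟨_, rfl⟩
    have hB0 : 0 ≤ B := by rw [hB]; positivity
    have hK0 : 0 ≤ K := by linarith
    refine ⟨K * (K * B + |C1|) + K * B + |C2| + 1 + K * R', fun g hg1 hg2 => ?_⟩
    have ha : a g ≤ Q1 := hoff g hg2
    have hb : c₀ ≠ 0 → K * (K * B + |C1|) + K * B + |C2| + 1 + K * R' ≤ b g := hdeep _ g hg1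
    have hC2g := hC2 g
    rw [mul_one] at hC2g
    have ha' : a (s0 * g) ≤ B := by
      have := (abs_le.mp hC2g.1).2
      have := le_abs_self C2
      rw [hB]
      linarith
    have haB : a g ≤ B := by
      rw [hB]
      linarith [abs_nonneg C2]
    have hb' : c₀ ≠ 0 → K * (K * B + |C1|) + K * B + 1 + K * R' ≤ b (s0 * g) := fun hc => by
      have := hb hc
      have := (abs_le.mp hC2g.2).1
      have := le_abs_self C2
      linarith
    have hgp : ∀ j, |gp j g - gp j (s0 * g)| ≤ |C1| := fun j => by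
      have h1 := hC1 j g
      rw [mul_one, abs_sub_comm] at h1
      exact h1.trans (le_abs_self _)
    have hKR : 0 ≤ K * R' := mul_nonneg hK0 hR'
    have hst : T g = T (s0 * g) := by
      refine h.stab hK hgp (fun hc => ?_) fun hc => ?_
      · have h1 := hb hc
        have h2 : K * (K * a (s0 * g) + |C1|) ≤ K * (K * B + |C1|) := by gcongr
        have h3 : K * a g ≤ K * B := by gcongr
        have := abs_nonneg C2
        linarith
      · have h1 := hb' hc
        have h2 : K * (K * a g + |C1|) ≤ K * (K * B + |C1|) := by gcongr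
        have h3 : K * a (s0 * g) ≤ K * B := by gcongr
        linarith
    obtain ⟨p, hp, σ, hσ, h3⟩ := hR (T g) g (fun j hj => by
      obtain ⟨hc, h1⟩ := h.inn g j hj
      have h2 := hb hc
      have h3 : K * a g ≤ K * B := by gcongr
      have h4 : K * R' ≤ K * gp j g := by
        have h5 : 0 ≤ K * (K * B + |C1|) := by positivity
        have := abs_nonneg C2
        linarith
      exact (hRR _).trans (le_of_mul_le_mul_left h4 (by linarith))) (fun j hj =>
        (h.off g j hj).trans (mul_le_mul_of_nonneg_left ha hK0))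
    refine ⟨p, hp.trans (hCC _), σ, fun j => (hσ j).trans (hCC _), fun t ht b' => ?_⟩
    have h4 := h3 t (fun j => ⟨(hLL _).trans (ht j).1, (ht j).2⟩) b'
    show |Real.exp p * f (T (s0 * g)) (t + σ) (s0 * g) (s0 * b') - f (T g) t g b'| ≤
      ρ * f (T g) t g b'
    rw [← hst]
    exact h4
  · -- right
    intro u T' η hη
    choose c hc C h1 using fun θ => (hf θ).bd0 T'
    obtain ⟨c', hc', h2⟩ := exists_pos_le_all c hc
    obtain ⟨C', hC', h3⟩ := exists_le_all C
    obtain ⟨c1, hc1, hc1a, hc1b⟩ : ∃ c1 : ℝ, 0 < c1 ∧ c1 ≤ c' ∧ c1 ≤ 1 :=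
      ⟨min c' 1, lt_min hc' one_pos, min_le_left _ _, min_le_right _ _⟩
    choose R hR using fun θ => (hf θ).right u T' (c1 * η / 2 / (C' + 1)) (by positivity)
    obtain ⟨R', hR', hRR⟩ := exists_le_all R
    obtain ⟨C2, hC2⟩ := hq 1 u
    obtain ⟨C1, hC1⟩ := hS.quasi 1 u
    obtain ⟨Rc, hRc⟩ := chi_var |C2| (c1 * η / 2 / (C' + 1)) (abs_nonneg _) (by positivity)
    have hK0 : 0 ≤ K := by linarith
    -- a large number
    obtain ⟨Q, hQ0, hQ⟩ : ∃ Q : ℝ, 0 ≤ Q ∧ ∀ x : ℝ, Q ≤ x →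
        K * (K * (3 * √x + |C2|) + |C1|) + K * (3 * √x + |C2|) + |C2| + 1 + K * R' ≤ x := by
      obtain ⟨A1, hA1⟩ : ∃ A1 : ℝ, A1 = 3 * K * K + 3 * K := ⟨_, rfl⟩
      obtain ⟨A2, hA2⟩ : ∃ A2 : ℝ, A2 = K * (K * |C2| + |C1|) + K * |C2| + |C2| + 1 + K * R' :=
        ⟨_, rfl⟩
      have hA1' : 0 ≤ A1 := by rw [hA1]; positivity
      have hA2' : 0 ≤ A2 := by rw [hA2]; positivity
      refine ⟨(A1 + A2 + 1) ^ 2, by positivity, fun x hx => ?_⟩
      have hx0 : 0 ≤ x := le_trans (by positivity) hx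
      have h4 : A1 + A2 + 1 ≤ √x := Real.le_sqrt_of_sq_le hx
      have h5 : √x * √x = x := Real.mul_self_sqrt hx0
      have h6 : K * (K * (3 * √x + |C2|) + |C1|) + K * (3 * √x + |C2|) + |C2| + 1 + K * R' =
          A1 * √x + A2 := by rw [hA1, hA2]; ring
      rw [h6]
      nlinarith
    refine ⟨max Rc Q, fun g hg t ht b' => ?_⟩
    have hC2g := hC2 g
    rw [one_mul] at hC2g
    have hgp : ∀ j, |gp j g - gp j (g * u)| ≤ |C1| := fun j => by
      have h1 := hC1 j g
      rw [one_mul, abs_sub_comm] at h1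
      exact h1.trans (le_abs_self _)
    have hw := hw0 b'
    have b1 := h1 (T g) g t ht b'
    have b2 := h1 (T (g * u)) (g * u) t ht b'
    have h4 := hχ01 g
    have h5 := hχ01 (g * u)
    -- the lower bound for the gauge
    have low : c1 * w b' ≤ χ g * f0 (T g) t g b' + (1 - χ g) * w b' := by
      have h7 : c1 * w b' ≤ f0 (T g) t g b' :=
        (mul_le_mul_of_nonneg_right (hc1a.trans (h2 _)) hw).trans b1.1
      have h8 : c1 * w b' ≤ w b' := by
        have := mul_le_mul_of_nonneg_right hc1b hw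
        linarith
      nlinarith [mul_le_mul_of_nonneg_left h7 h4.1,
        mul_le_mul_of_nonneg_left h8 (sub_nonneg.mpr h4.2)]
    -- two cases
    by_cases hbig : c₀ ≠ 0 ∧ 3 * √(b g) < a g
    · have hb := hdeep _ g hg hbig.1
      have h6 := (hRc (a g) (a (g * u)) (b g) (b (g * u)) (h.a0 _) (h.a0 _)
        ((le_max_left _ _).trans hb) (by rw [abs_sub_comm]; exact hC2g.1.trans (le_abs_self _))
        (by rw [abs_sub_comm]; exact hC2g.2.trans (le_abs_self _))).1 hbig.2
      have e1 : χ g = 0 := by rw [hχ, if_neg hbig.1]; exact h6.1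
      have e2 : χ (g * u) = 0 := by rw [hχ, if_neg hbig.1]; exact h6.2
      show |χ (g * u) * f0 (T (g * u)) t (g * u) b' + (1 - χ (g * u)) * w b' -
        (χ g * f0 (T g) t g b' + (1 - χ g) * w b')| ≤ η * (χ g * f0 (T g) t g b' +
          (1 - χ g) * w b')
      rw [e1, e2]
      simp only [zero_mul, sub_zero, one_mul, zero_add, sub_self, abs_zero]
      positivity
    · have hcase : c₀ ≠ 0 → a g ≤ 3 * √(b g) := fun hc => by
        by_contra h6
        exact hbig ⟨hc, not_le.mp h6⟩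
      have hB : c₀ ≠ 0 → max Rc Q ≤ b g := hdeep _ g hg
      have hst : T g = T (g * u) := by
        refine h.stab hK hgp (fun hc => ?_) fun hc => ?_
        · have h6 := hQ (b g) ((le_max_right _ _).trans (hB hc))
          have h7 := hcase hc
          have h8 : a (g * u) ≤ 3 * √(b g) + |C2| := by
            have := (abs_le.mp hC2g.1).2
            have := le_abs_self C2
            linarith
          have h9 : K * (K * a (g * u) + |C1|) ≤ K * (K * (3 * √(b g) + |C2|) + |C1|) := by gcongr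
          have h10 : K * a g ≤ K * (3 * √(b g) + |C2|) := by
            gcongr
            linarith [abs_nonneg C2]
          have := mul_nonneg hK0 hR'
          have := abs_nonneg C2
          linarith
        · have h6 := hQ (b g) ((le_max_right _ _).trans (hB hc))
          have h7 := hcase hc
          have h8 : a (g * u) ≤ 3 * √(b g) + |C2| := by
            have := (abs_le.mp hC2g.1).2
            have := le_abs_self C2
            linarith
          have h9 : K * (K * a g + |C1|) ≤ K * (K * (3 * √(b g) + |C2|) + |C1|) := by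
            gcongr
            linarith [abs_nonneg C2]
          have h10 : K * a (g * u) ≤ K * (3 * √(b g) + |C2|) := by gcongr
          have := mul_nonneg hK0 hR'
          have := (abs_le.mp hC2g.2).1
          have := le_abs_self C2
          linarith
      have hin : ∀ j ∈ T g, R (T g) ≤ gp j g := fun j hj => by
        obtain ⟨hc, h6⟩ := h.inn g j hj
        have h7 := hQ (b g) ((le_max_right _ _).trans (hB hc))
        have h8 := hcase hc
        have h9 : K * a g ≤ K * (3 * √(b g) + |C2|) := by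
          gcongr
          linarith [abs_nonneg C2]
        have h10 : K * R' ≤ K * gp j g := by
          have h11 : 0 ≤ K * (K * (3 * √(b g) + |C2|) + |C1|) := by positivity
          have := abs_nonneg C2
          linarith
        exact (hRR _).trans (le_of_mul_le_mul_left h10 (by linarith))
      have h6 := hR (T g) g hin t ht b'
      have h7 : |χ g - χ (g * u)| ≤ c1 * η / 2 / (C' + 1) := by
        by_cases hc : c₀ = 0
        · rw [hχ, hχ, if_pos hc, if_pos hc, sub_self, abs_zero]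
          positivity
        · rw [hχ, hχ, if_neg hc, if_neg hc]
          exact (hRc (a g) (a (g * u)) (b g) (b (g * u)) (h.a0 _) (h.a0 _)
            ((le_max_left _ _).trans (hB hc))
            (by rw [abs_sub_comm]; exact hC2g.1.trans (le_abs_self _))
            (by rw [abs_sub_comm]; exact hC2g.2.trans (le_abs_self _))).2 (hcase hc)
      show |χ (g * u) * f0 (T (g * u)) t (g * u) b' + (1 - χ (g * u)) * w b' -
        (χ g * f0 (T g) t g b' + (1 - χ g) * w b')| ≤ η * (χ g * f0 (T g) t g b' +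
          (1 - χ g) * w b')
      rw [← hst]
      obtain ⟨F, hF⟩ : ∃ F, F = f0 (T g) t g b' := ⟨_, rfl⟩
      obtain ⟨F', hF'⟩ : ∃ F', F' = f0 (T g) t (g * u) b' := ⟨_, rfl⟩
      obtain ⟨ε, hε⟩ : ∃ ε, ε = c1 * η / 2 / (C' + 1) := ⟨_, rfl⟩
      rw [← hF] at h6 b1 low ⊢
      rw [← hF'] at h6 ⊢
      rw [← hε] at h6 h7
      have hε0 : 0 ≤ ε := by rw [hε]; positivity
      have hε1 : ε * (C' + 1) = c1 * η / 2 := by
        rw [hε]
        field_simp
      have hF0 : 0 ≤ F := (mul_nonneg (hc _).le hw).trans b1.1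
      have hFC : F ≤ C' * w b' := b1.2.trans (mul_le_mul_of_nonneg_right (h3 _) hw)
      have e : χ (g * u) * F' + (1 - χ (g * u)) * w b' - (χ g * F + (1 - χ g) * w b') =
          χ (g * u) * (F' - F) + (χ g - χ (g * u)) * (w b' - F) := by ring
      rw [e]
      have h8 : |χ (g * u) * (F' - F)| ≤ ε * (C' * w b') := by
        rw [abs_mul, abs_of_nonneg h5.1]
        calc χ (g * u) * |F' - F| ≤ 1 * (ε * F) := mul_le_mul h5.2 h6 (abs_nonneg _) zero_le_one
          _ = ε * F := one_mul _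
          _ ≤ ε * (C' * w b') := mul_le_mul_of_nonneg_left hFC hε0
      have h9 : |w b' - F| ≤ (C' + 1) * w b' := by
        rw [abs_le]
        constructor
        · nlinarith
        · nlinarith [mul_nonneg hC' hw]
      have h10 : |(χ g - χ (g * u)) * (w b' - F)| ≤ ε * ((C' + 1) * w b') := by
        rw [abs_mul]
        exact mul_le_mul h7 h9 (abs_nonneg _) hε0
      have h11 : ε * (C' * w b') + ε * ((C' + 1) * w b') ≤ c1 * η * w b' := by
        have h12 : ε * (C' * w b') ≤ ε * ((C' + 1) * w b') := by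
          refine mul_le_mul_of_nonneg_left ?_ hε0
          nlinarith
        have h13 : ε * ((C' + 1) * w b') = c1 * η / 2 * w b' := by
          rw [← mul_assoc, hε1]
        linarith
      calc |χ (g * u) * (F' - F) + (χ g - χ (g * u)) * (w b' - F)|
          ≤ |χ (g * u) * (F' - F)| + |(χ g - χ (g * u)) * (w b' - F)| := abs_add_le _ _
        _ ≤ c1 * η * w b' := by linarith
        _ = η * (c1 * w b') := by ring
        _ ≤ η * (χ g * F + (1 - χ g) * w b') := mul_le_mul_of_nonneg_left low hη.le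
  · -- ov
    intro R
    obtain ⟨Q1, hQ10, hoff⟩ := hoff0 R
    choose C hC1 hC using fun θ => (hf θ).ov (K * Q1)
    obtain ⟨C', hC', hCC⟩ := exists_le_all C
    refine ⟨max C' 1, le_max_right _ _, fun T' => ?_⟩
    choose D0 hD0 using fun θ => hC θ T'
    obtain ⟨D', hD', hDD⟩ := exists_le_all D0
    have hK0 : 0 ≤ K := by linarith
    refine ⟨Q1 ^ 2 + K * D' + K * Q1, fun g hg1 hg2 t ht b' => ?_⟩
    have ha : a g ≤ Q1 := hoff g hg2
    have hb := hdeep _ g hg1
    have hχ1 : χ g = 1 := by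
      rw [hχ]
      split_ifs with hc
      · rfl
      · refine chi_one (ha.trans ?_)
        refine Real.le_sqrt_of_sq_le ?_
        have h1 := hb hc
        have h2 : 0 ≤ K * D' := mul_nonneg hK0 hD'
        have h3 : 0 ≤ K * Q1 := mul_nonneg hK0 hQ10
        linarith
    have h1 := hD0 (T g) g (fun j hj => by
      obtain ⟨hc, h2⟩ := h.inn g j hj
      have h3 := hb hc
      have h4 : K * a g ≤ K * Q1 := mul_le_mul_of_nonneg_left ha hK0
      have h5 : K * D' ≤ K * gp j g := by nlinarith [sq_nonneg Q1]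
      exact (hDD _).trans (le_of_mul_le_mul_left h5 (by linarith))) (fun j hj =>
        (h.off g j hj).trans (mul_le_mul_of_nonneg_left ha hK0)) t ht b'
    show f (T g) t g b' ≤ max C' 1 * (χ g * f0 (T g) t g b' + (1 - χ g) * w b') ∧
      χ g * f0 (T g) t g b' + (1 - χ g) * w b' ≤ max C' 1 * f (T g) t g b'
    rw [hχ1, one_mul, sub_self, zero_mul, add_zero]
    have hf1 : 0 ≤ f (T g) t g b' := by
      obtain ⟨c, hc, h2⟩ := (hf (T g)).lo t g
      exact (mul_pos hc (hS.pos b')).le.trans (h2 b')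
    have hf2 : 0 ≤ f0 (T g) t g b' := by
      obtain ⟨c, hc, h2⟩ := (hf (T g)).lo0 t g
      exact (mul_pos hc (hS.pos b')).le.trans (h2 b')
    have hm : C (T g) ≤ max C' 1 := (hCC _).trans (le_max_left _ _)
    exact ⟨h1.1.trans (mul_le_mul_of_nonneg_right hm hf2),
      h1.2.trans (mul_le_mul_of_nonneg_right hm hf1)⟩

/-- **Merging the gaps.** -/
theorem gsysB (h : DatB gp s δ 𝓜 r) (hS : GSys gp w) :
    GSys (fun (c : Fin r) g => D 𝓜 (c : ℕ) (s g)) w := by
  classical
  obtain ⟨K, hK, hKa, hKb⟩ := exists_const δ h.bot h.cut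
  obtain ⟨C0, hC0, hr0⟩ : ∃ C0 : ℝ, 0 ≤ C0 ∧ ∀ g, D 𝓜 r (s g) ≤ C0 := by
    obtain ⟨C, hC⟩ := h.cov
    refine ⟨|C|, abs_nonneg _, fun g => ?_⟩
    obtain ⟨M, h1, h2, x, hx, h3⟩ := hC g
    refine (D_le r (s g) h1 h2).trans ((infDist_le_dist_of_mem hx).trans ?_)
    rw [dist_eq_norm]
    exact h3.trans (le_abs_self _)
  have hq : ∀ a b, ∃ C, ∀ c g, |D 𝓜 c (s (a * g * b)) - D 𝓜 c (s g)| ≤ C := fun a b => by
    obtain ⟨C, hC⟩ := h.lip a b
    exact ⟨C, fun c g => (D_lip h.bot c _ _).trans (hC g)⟩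
  refine ⟨hS.pos, fun a b => ?_, fun R => ?_, hS.pack, fun θ => ?_⟩
  · obtain ⟨C, hC⟩ := hq a b
    exact ⟨C, fun j g => hC _ g⟩
  · obtain ⟨R', hR'⟩ := hS.bdd (K * (|R| + C0))
    refine ⟨R', fun g hg => hR' g fun j => ?_⟩
    have h1 : D 𝓜 0 (s g) ≤ |R| + C0 := by
      rcases Nat.eq_zero_or_pos r with h0 | h0
      · have := hr0 g
        rw [h0] at this
        exact this.trans (le_add_of_nonneg_left (abs_nonneg _))
      · exact ((hg ⟨0, h0⟩).trans (le_abs_self _)).trans (le_add_of_nonneg_right hC0)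
    have h2 := hKa 0 (s g) j (by rw [ty_zero δ h.bot]; exact Finset.notMem_empty j)
    rw [h.gap]
    exact (le_abs_self _).trans (h2.trans (mul_le_mul_of_nonneg_left h1 (by linarith)))
  · -- the level
    obtain ⟨c₀, hc1, hc2, hc3⟩ : ∃ c₀ : ℕ, c₀ ≤ r ∧
        (∀ c, c < c₀ → ∃ hc : c < r, (⟨c, hc⟩ : Fin r) ∈ θ) ∧
        ∀ hc : c₀ < r, (⟨c₀, hc⟩ : Fin r) ∉ θ := by
      have hex : ∃ c : ℕ, ∀ hc : c < r, (⟨c, hc⟩ : Fin r) ∉ θ := ⟨r, fun hc => absurd hc (lt_irrefl r)⟩
      refine ⟨Nat.find hex, Nat.find_min' hex fun hc => absurd hc (lt_irrefl r), fun c hc => ?_,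
        Nat.find_spec hex⟩
      have := Nat.find_min hex hc
      push Not at this
      exact this
    have hlev : Lev gp (fun g => ty δ 𝓜 c₀ (s g)) (fun g => D 𝓜 c₀ (s g))
        (fun g => D 𝓜 (c₀ - 1) (s g)) K c₀ := by
      refine ⟨h.nn, fun g => D_nonneg h.bot _ _, fun g j hj => ?_, fun g j hj => ?_⟩
      · rw [h.gap]
        exact (le_abs_self _).trans (hKa c₀ (s g) j hj)
      · rcases Nat.eq_zero_or_pos c₀ with h0 | h0
        · have hj' : j ∈ ty δ 𝓜 c₀ (s g) := hj
          rw [h0, ty_zero δ h.bot] at hj'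
          exact absurd hj' (Finset.notMem_empty j)
        · refine ⟨by omega, ?_⟩
          obtain ⟨c, rfl⟩ : ∃ c, c₀ = c + 1 := ⟨c₀ - 1, by omega⟩
          have h1 := hKb c (s g) j hj
          rw [← h.gap, abs_of_nonneg (h.nn j g)] at h1
          exact h1
    refine hlev.gaugeB hK hS (fun a b => ?_) (fun R => ⟨|R| + C0, by positivity, fun g hg => ?_⟩)
      fun R g hg hc => ?_
    · obtain ⟨C, hC⟩ := hq a b
      exact ⟨C, fun g => ⟨hC _ g, hC _ g⟩⟩
    · rcases Nat.lt_or_ge c₀ r with h1 | h1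
      · exact ((hg ⟨c₀, h1⟩ (hc3 h1)).trans (le_abs_self _)).trans (le_add_of_nonneg_right hC0)
      · have h2 : c₀ = r := le_antisymm hc1 h1
        show D 𝓜 c₀ (s g) ≤ |R| + C0
        rw [h2]
        exact (hr0 g).trans (le_add_of_nonneg_left (abs_nonneg _))
    · obtain ⟨h1, h2⟩ := hc2 (c₀ - 1) (by omega)
      exact hg ⟨c₀ - 1, h1⟩ h2

end mergeB

end Vale.Agent.P092.H790.Mrg
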