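import Vale.Agent.P092.H790.Ind
import Vale.Agent.P092.H432.Trace

/-!
P092 (helper790): the row model over a probability space, `L²(X; ℓ²(Γ × ι))`.
-/

set_option linter.all false

open scoped InnerProductSpace ENNReal
open MeasureTheory Filter Topology ContinuousLinearMap

namespace Vale.Agent.P092.H790

open Vale.Agent.P092.H160 Vale.Agent.P092.H553 Vale.Agent.P092.H432

section row

variable {X : Type} [MeasurableSpace X] (μ : Measure X) [IsProbabilityMeasure μ]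
  {Γ ι : Type} [Group Γ]

theorem adj_mul {H : Type*} [NormedAddCommGroup H] [InnerProductSpace ℂ H] [CompleteSpace H]
    (S T : H →L[ℂ] H) : ContinuousLinearMap.adjoint (S * T) =
      ContinuousLinearMap.adjoint T * ContinuousLinearMap.adjoint S := by
  rw [← star_eq_adjoint, star_mul]; rfl

/-- left translations on `L²(X; ℓ²(Γ × ι))` -/
noncomputable def lxt (s : Γ) : Lp (Ell2 (Γ × ι)) 2 μ →L[ℂ] Lp (Ell2 (Γ × ι)) 2 μ :=
  (lx s).compLpL 2 μ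

/-- multiplication by a function of the first coordinate -/
noncomputable def mpt (ι : Type) (F : Γ → ℝ) :
    Lp (Ell2 (Γ × ι)) 2 μ →L[ℂ] Lp (Ell2 (Γ × ι)) 2 μ :=
  (mp ι F).compLpL 2 μ

/-- the constant vectors `ε_i` -/
noncomputable def ept (i : ι) : Lp (Ell2 (Γ × ι)) 2 μ := Lp.constL 2 μ ℂ (ep i)

/-- commutant of the left translations and of `L∞(X)` -/
def RAt (T : Lp (Ell2 (Γ × ι)) 2 μ →L[ℂ] Lp (Ell2 (Γ × ι)) 2 μ) : Prop :=
  (∀ s : Γ, T * lxt μ s = lxt μ s * T) ∧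
    ∀ S : Set X, MeasurableSet S → T * ind μ _ S = ind μ _ S * T

variable {μ}

theorem const_ae (v : Ell2 (Γ × ι)) : ⇑(Lp.constL 2 μ ℂ v) =ᵐ[μ] fun _ => v := Lp.coeFn_const ..

theorem ept_ae (i : ι) : ⇑(ept μ i : Lp (Ell2 (Γ × ι)) 2 μ) =ᵐ[μ] fun _ => ep i := const_ae _

theorem comp_const (A : Ell2 (Γ × ι) →L[ℂ] Ell2 (Γ × ι)) (v : Ell2 (Γ × ι)) :
    A.compLpL 2 μ (Lp.constL 2 μ ℂ v) = Lp.constL 2 μ ℂ (A v) := by
  refine Lp.ext ?_
  filter_upwards [fld_comp A (Lp.constL 2 μ ℂ v), const_ae (μ := μ) v, const_ae (μ := μ) (A v)]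
    with x h1 h2 h3
  rw [h1, h2, h3]

theorem kp_const {D Λ : Type} [Group D] [Group Λ] [Countable Λ] (d : CData D Λ) (g : D) (v : Ell2 (Γ × ι)) :
    kp d _ g (Lp.constL 2 d.μ ℂ v) = Lp.constL 2 d.μ ℂ v := by
  refine Lp.ext ?_
  filter_upwards [kp_ae d g (Lp.constL 2 d.μ ℂ v), const_ae (μ := d.μ) v,
    ae_comp (d.mp g⁻¹) (const_ae (μ := d.μ) v)] with x h1 h2 h3
  rw [h1, h2, h3]

theorem lxt_mul (s t : Γ) : (lxt μ (s * t) : Lp (Ell2 (Γ × ι)) 2 μ →L[ℂ] _) =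
    lxt μ s * lxt μ t := by rw [lxt, lxt, lxt, lx_mul, comp_mul]

theorem lxt_one : (lxt μ (1 : Γ) : Lp (Ell2 (Γ × ι)) 2 μ →L[ℂ] _) = 1 := by
  rw [lxt, lx_one, comp_one]

theorem adjoint_lxt (s : Γ) :
    adjoint (lxt μ s : Lp (Ell2 (Γ × ι)) 2 μ →L[ℂ] _) = lxt μ s⁻¹ := by
  rw [lxt, comp_adjoint, adjoint_lx, lxt]

theorem lxt_ind (s : Γ) {S : Set X} (hS : MeasurableSet S) :
    lxt μ s * ind μ (Ell2 (Γ × ι)) S = ind μ _ S * lxt μ s := ind_comp hS _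

theorem lxt_const (s : Γ) (v : Ell2 (Γ × ι)) :
    lxt μ s (Lp.constL 2 μ ℂ v) = Lp.constL 2 μ ℂ (lx s v) := comp_const _ _

theorem RAt.adjoint {T : Lp (Ell2 (Γ × ι)) 2 μ →L[ℂ] Lp (Ell2 (Γ × ι)) 2 μ} (h : RAt μ T) :
    RAt μ (ContinuousLinearMap.adjoint T) := by
  constructor
  · intro s
    have h1 := congrArg ContinuousLinearMap.adjoint (h.1 s⁻¹)
    rw [adj_mul, adj_mul, adjoint_lxt, inv_inv] at h1
    exact h1.symm
  · intro S hS
    have h1 := congrArg ContinuousLinearMap.adjoint (h.2 S hS)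
    rw [adj_mul, adj_mul, adjoint_ind hS] at h1
    exact h1.symm

/-- Totality of the vectors `1_S λ_s ε_i`. -/
theorem ext_lxt {F : Type} [NormedAddCommGroup F] [InnerProductSpace ℂ F]
    {S T : Lp (Ell2 (Γ × ι)) 2 μ →L[ℂ] F}
    (h : ∀ (s : Γ) (A : Set X) (i : ι), MeasurableSet A →
      S (lxt μ s (ind μ _ A (ept μ i))) = T (lxt μ s (ind μ _ A (ept μ i)))) : S = T := by
  have h0 : ∀ (A : Set X) (c : Ell2 (Γ × ι)), MeasurableSet A →
      S (ind μ _ A (Lp.constL 2 μ ℂ c)) = T (ind μ _ A (Lp.constL 2 μ ℂ c)) := by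
    intro A c hA
    have h1 : S.comp ((ind μ _ A).comp (Lp.constL 2 μ ℂ)) =
        T.comp ((ind μ _ A).comp (Lp.constL 2 μ ℂ)) := by
      refine op_ext (X := Γ × ι) fun x => ?_
      have h2 := h x.1 A x.2 hA
      have h3 : lxt μ x.1 (ind μ _ A (ept μ x.2 : Lp (Ell2 (Γ × ι)) 2 μ)) =
          ind μ _ A (Lp.constL 2 μ ℂ (dl x)) := by
        have h4 := congrArg (fun T : Lp (Ell2 (Γ × ι)) 2 μ →L[ℂ] Lp (Ell2 (Γ × ι)) 2 μ =>
          T (ept μ x.2)) (lxt_ind (μ := μ) (ι := ι) x.1 hA)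
        simp only [mul_ap] at h4
        rw [h4, ept, lxt_const, lx_ep]
      rw [h3] at h2
      exact h2
    exact congrArg (fun T : Ell2 (Γ × ι) →L[ℂ] F => T c) h1
  refine ContinuousLinearMap.ext fun f => ?_
  refine Lp.induction (E := Ell2 (Γ × ι)) (p := 2) (μ := μ) (by simp) (fun f => S f = T f) ?_ ?_ ?_ f
  · intro c s hs hμs
    have h1 := h0 _ c hs
    have h2 : ind μ _ s (Lp.constL 2 μ ℂ c) = indicatorConstLp 2 hs hμs.ne c := by
      refine Lp.ext ?_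
      filter_upwards [ind_ae hs (Lp.constL 2 μ ℂ c), const_ae (μ := μ) c,
        indicatorConstLp_coeFn (p := 2) (hs := hs) (hμs := hμs.ne) (c := c)] with x h3 h4 h5
      rw [h3, h5]
      by_cases hx : x ∈ s
      · rw [Set.indicator_of_mem hx, Set.indicator_of_mem hx, h4]
      · rw [Set.indicator_of_notMem hx, Set.indicator_of_notMem hx]
    rw [h2] at h1
    exact h1
  · intro f g hf hg _ h1 h2
    rw [map_add, map_add, h1, h2]
  · exact isClosed_eq S.continuous T.continuous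

theorem RAt.ext {S T : Lp (Ell2 (Γ × ι)) 2 μ →L[ℂ] Lp (Ell2 (Γ × ι)) 2 μ} (hS : RAt μ S)
    (hT : RAt μ T) (h : ∀ i, S (ept μ i) = T (ept μ i)) : S = T := by
  refine ext_lxt fun s A i hA => ?_
  have e : ∀ {T : Lp (Ell2 (Γ × ι)) 2 μ →L[ℂ] Lp (Ell2 (Γ × ι)) 2 μ}, RAt μ T →
      T (lxt μ s (ind μ _ A (ept μ i))) = lxt μ s (ind μ _ A (T (ept μ i))) := by
    intro T hT
    have h1 := congrArg (fun T : Lp (Ell2 (Γ × ι)) 2 μ →L[ℂ] Lp (Ell2 (Γ × ι)) 2 μ =>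
      T (ind μ _ A (ept μ i))) (hT.1 s)
    have h2 := congrArg (fun T : Lp (Ell2 (Γ × ι)) 2 μ →L[ℂ] Lp (Ell2 (Γ × ι)) 2 μ =>
      T (ept μ i)) (hT.2 A hA)
    simp only [mul_ap] at h1 h2
    rw [h1, h2]
  rw [e hS, e hT, h]

end row

end Vale.Agent.P092.H790
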