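import Vale.Agent.P092.H790.Row

/-!
P092 (helper790): coefficient formula, trace property and approximation over a probability space.
-/

set_option linter.all false

open scoped InnerProductSpace ENNReal
open MeasureTheory Filter Topology ContinuousLinearMap

namespace Vale.Agent.P092.H790

open Vale.Agent.P092.H160 Vale.Agent.P092.H553 Vale.Agent.P092.H432

section pt

variable {Γ ι : Type} [Group Γ] [Fintype ι]

/-- the discrete identity behind the trace property -/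
theorem exch_pt {a a' b b' : ι → Ell2 (Γ × ι)}
    (h1 : ∀ g i j, a i (g, j) = (starRingEnd ℂ) (a' j (g⁻¹, i)))
    (h2 : ∀ g i j, b' i (g, j) = (starRingEnd ℂ) (b j (g⁻¹, i)))
    {q : Γ → ℝ} {C : ℝ} (hq : ∀ g, |q g| ≤ C) :
    ∑ i, ⟪a i, mp ι q (b i)⟫_ℂ = ∑ i, ⟪b' i, mp ι (fun g => q g⁻¹) (a' i)⟫_ℂ := by
  have e1 : HasSum (fun g : Γ => ∑ i, ∑ j, (q g : ℂ) * b i (g, j) * a' j (g⁻¹, i))
      (∑ i, ⟪a i, mp ι q (b i)⟫_ℂ) := by
    refine hasSum_sum fun i _ => ?_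
    have h := hasSum_inner' (a i) (mp ι q (b i))
    have h3 := HasSum.prod_fiberwise h fun g => hasSum_fintype _
    refine h3.congr_fun fun g => Finset.sum_congr rfl fun j _ => ?_
    rw [h1, Complex.conj_conj, mp, mo_apply (F := fun x : Γ × ι => q x.1) (fun x => hq _)]
  have e2 : HasSum (fun g : Γ => ∑ i, ∑ j, (q g⁻¹ : ℂ) * a' i (g, j) * b j (g⁻¹, i))
      (∑ i, ⟪b' i, mp ι (fun g => q g⁻¹) (a' i)⟫_ℂ) := by
    refine hasSum_sum fun i _ => ?_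
    have h := hasSum_inner' (b' i) (mp ι (fun g => q g⁻¹) (a' i))
    have h3 := HasSum.prod_fiberwise h fun g => hasSum_fintype _
    refine h3.congr_fun fun g => Finset.sum_congr rfl fun j _ => ?_
    rw [h2, Complex.conj_conj, mp, mo_apply (F := fun x : Γ × ι => q x.1⁻¹) (fun x => hq _)]
  rw [← (Equiv.inv Γ).hasSum_iff] at e2
  refine e1.unique (e2.congr_fun fun g => ?_)
  rw [Function.comp_apply, Equiv.inv_apply, inv_inv, Finset.sum_comm]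
  refine Finset.sum_congr rfl fun i _ => Finset.sum_congr rfl fun j _ => ?_
  ring

end pt

section row

variable {X : Type} [MeasurableSpace X] {μ : Measure X} [IsProbabilityMeasure μ]
  {Γ ι : Type} [Group Γ]

theorem RAt.ind_lxt {T : Lp (Ell2 (Γ × ι)) 2 μ →L[ℂ] Lp (Ell2 (Γ × ι)) 2 μ} (hT : RAt μ T) (s : Γ)
    {A : Set X} (hA : MeasurableSet A) (ξ : Lp (Ell2 (Γ × ι)) 2 μ) :
    T (ind μ _ A (lxt μ s ξ)) = ind μ _ A (lxt μ s (T ξ)) := by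
  have h1 := congrArg (fun T : Lp (Ell2 (Γ × ι)) 2 μ →L[ℂ] Lp (Ell2 (Γ × ι)) 2 μ =>
    T ξ) (hT.1 s)
  have h2 := congrArg (fun T : Lp (Ell2 (Γ × ι)) 2 μ →L[ℂ] Lp (Ell2 (Γ × ι)) 2 μ =>
    T (lxt μ s ξ)) (hT.2 A hA)
  simp only [mul_ap] at h1 h2
  rw [h2, h1]

theorem integrable_coord (ξ : Lp (Ell2 (Γ × ι)) 2 μ) (p : Γ × ι) :
    Integrable (fun x => (ξ x : Ell2 (Γ × ι)) p) μ := by
  have h1 := L2.integrable_inner (𝕜 := ℂ) (Lp.constL 2 μ ℂ (dl p) : Lp (Ell2 (Γ × ι)) 2 μ) ξ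
  refine h1.congr ?_
  filter_upwards [const_ae (μ := μ) (dl p : Ell2 (Γ × ι))] with x hx
  rw [hx, inner_dl]

theorem inner_ind_const (A : Set X) (hA : MeasurableSet A) (p : Γ × ι)
    (ξ : Lp (Ell2 (Γ × ι)) 2 μ) :
    ⟪ind μ _ A (Lp.constL 2 μ ℂ (dl p)), ξ⟫_ℂ = ∫ x in A, (ξ x : Ell2 (Γ × ι)) p ∂μ := by
  rw [L2.inner_def, ← integral_indicator hA]
  refine integral_congr_ae ?_
  filter_upwards [ind_ae hA (Lp.constL 2 μ ℂ (dl p : Ell2 (Γ × ι))),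
    const_ae (μ := μ) (dl p : Ell2 (Γ × ι))] with x h1 h2
  rw [h1]
  by_cases hx : x ∈ A
  · rw [Set.indicator_of_mem hx, Set.indicator_of_mem hx, h2, inner_dl]
  · rw [Set.indicator_of_notMem hx, Set.indicator_of_notMem hx, inner_zero_left]

/-- The coefficient formula. -/
theorem RAt.coef {T : Lp (Ell2 (Γ × ι)) 2 μ →L[ℂ] Lp (Ell2 (Γ × ι)) 2 μ} (hT : RAt μ T) (g : Γ)
    (i j : ι) : ∀ᵐ x ∂μ, (ContinuousLinearMap.adjoint T (ept μ i) x : Ell2 (Γ × ι)) (g, j) =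
      (starRingEnd ℂ) ((T (ept μ j) x : Ell2 (Γ × ι)) (g⁻¹, i)) := by
  have hi1 := integrable_coord (ContinuousLinearMap.adjoint T (ept μ i)) (g, j)
  have hi2 := integrable_coord (T (ept μ j)) (g⁻¹, i)
  have hi3 : Integrable (fun x => (starRingEnd ℂ) ((T (ept μ j) x : Ell2 (Γ × ι)) (g⁻¹, i))) μ :=
    (LinearIsometryEquiv.integrable_comp_iff
      (L := (Complex.conjLIE : ℂ ≃ₗᵢ[ℝ] ℂ))).mpr hi2
  refine Integrable.ae_eq_of_forall_setIntegral_eq _ _ hi1 hi3 fun A hA _ => ?_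
  rw [← inner_ind_const A hA, adjoint_inner_right]
  have h1 : (Lp.constL 2 μ ℂ (dl (g, j)) : Lp (Ell2 (Γ × ι)) 2 μ) = lxt μ g (ept μ j) := by
    rw [ept, lxt_const, lx_ep]
  rw [h1, hT.ind_lxt g hA]
  have h2 : ⟪ind μ _ A (lxt μ g (T (ept μ j))), (ept μ i : Lp (Ell2 (Γ × ι)) 2 μ)⟫_ℂ =
      ⟪T (ept μ j), ind μ _ A (Lp.constL 2 μ ℂ (dl (g⁻¹, i)))⟫_ℂ := by
    rw [← adjoint_inner_right, adjoint_ind hA]
    have h3 : ind μ _ A (ept μ i : Lp (Ell2 (Γ × ι)) 2 μ) =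
        lxt μ g (ind μ _ A (Lp.constL 2 μ ℂ (dl (g⁻¹, i)))) := by
      have h4 := congrArg (fun T : Lp (Ell2 (Γ × ι)) 2 μ →L[ℂ] Lp (Ell2 (Γ × ι)) 2 μ =>
        T (Lp.constL 2 μ ℂ (dl (g⁻¹, i)))) (lxt_ind (μ := μ) (ι := ι) g hA)
      simp only [mul_ap] at h4
      rw [h4, lxt_const, lx_dl, mul_inv_cancel, ept, ep]
    rw [h3, ← adjoint_inner_left (lxt μ g), adjoint_lxt]
    congr 1
    have h5 := congrArg (fun S : Lp (Ell2 (Γ × ι)) 2 μ →L[ℂ] Lp (Ell2 (Γ × ι)) 2 μ =>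
      S (T (ept μ j))) (lxt_mul (μ := μ) (ι := ι) g⁻¹ g)
    simp only [mul_ap] at h5
    rw [← h5, inv_mul_cancel, lxt_one]
    rfl
  rw [h2, ← inner_conj_symm, inner_ind_const A hA, ← integral_conj]

variable [Fintype ι]

/-- The trace property, with a weight. -/
theorem exch_row [Countable Γ] {S T : Lp (Ell2 (Γ × ι)) 2 μ →L[ℂ] Lp (Ell2 (Γ × ι)) 2 μ}
    (hS : RAt μ S) (hT : RAt μ T) {q : Γ → ℝ} {C : ℝ} (hq : ∀ g, |q g| ≤ C) :
    ∑ i, ⟪ContinuousLinearMap.adjoint S (ept μ i), mpt μ ι q (T (ept μ i))⟫_ℂ =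
      ∑ i, ⟪ContinuousLinearMap.adjoint T (ept μ i), mpt μ ι (fun g => q g⁻¹) (S (ept μ i))⟫_ℂ := by
  have e1 : ∀ (A B : ι → Lp (Ell2 (Γ × ι)) 2 μ), ∑ i, ⟪A i, B i⟫_ℂ =
      ∫ x, ∑ i, ⟪A i x, B i x⟫_ℂ ∂μ := by
    intro A B
    rw [integral_finsetSum _ fun i _ => L2.integrable_inner (𝕜 := ℂ) (A i) (B i)]
    refine Finset.sum_congr rfl fun i _ => ?_
    rw [L2.inner_def]
  rw [e1, e1]
  refine integral_congr_ae ?_
  have hc1 : ∀ᵐ x ∂μ, ∀ g i j, (ContinuousLinearMap.adjoint S (ept μ i) x : Ell2 (Γ × ι)) (g, j) =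
      (starRingEnd ℂ) ((S (ept μ j) x : Ell2 (Γ × ι)) (g⁻¹, i)) :=
    ae_all_iff.2 fun g => ae_all_iff.2 fun i => ae_all_iff.2 fun j => hS.coef g i j
  have hc2 : ∀ᵐ x ∂μ, ∀ g i j, (ContinuousLinearMap.adjoint T (ept μ i) x : Ell2 (Γ × ι)) (g, j) =
      (starRingEnd ℂ) ((T (ept μ j) x : Ell2 (Γ × ι)) (g⁻¹, i)) :=
    ae_all_iff.2 fun g => ae_all_iff.2 fun i => ae_all_iff.2 fun j => hT.coef g i j
  have hc3 : ∀ᵐ x ∂μ, ∀ i, (mpt μ ι q (T (ept μ i))) x = mp ι q ((T (ept μ i)) x) :=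
    ae_all_iff.2 fun i => fld_comp (mp ι q) _
  have hc4 : ∀ᵐ x ∂μ, ∀ i, (mpt μ ι (fun g => q g⁻¹) (S (ept μ i))) x =
      mp ι (fun g => q g⁻¹) ((S (ept μ i)) x) :=
    ae_all_iff.2 fun i => fld_comp (mp ι (fun g => q g⁻¹)) _
  filter_upwards [hc1, hc2, hc3, hc4] with x h1 h2 h3 h4
  have h5 := exch_pt (a := fun i => (ContinuousLinearMap.adjoint S (ept μ i)) x)
    (a' := fun i => (S (ept μ i)) x) (b := fun i => (T (ept μ i)) x)
    (b' := fun i => (ContinuousLinearMap.adjoint T (ept μ i)) x) h1 h2 hq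
  simp only [h3, h4]
  exact h5

end row

end Vale.Agent.P092.H790
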