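import Vale.Agent.P092.H790.Row2

/-!
P092 (helper790): totality and approximation over a probability space.
-/

set_option linter.all false

open scoped InnerProductSpace ENNReal
open MeasureTheory Filter Topology ContinuousLinearMap

namespace Vale.Agent.P092.H790

open Vale.Agent.P092.H160 Vale.Agent.P092.H553 Vale.Agent.P092.H432

section row

variable {X : Type} [MeasurableSpace X] {μ : Measure X} [IsProbabilityMeasure μ]
  {Γ ι : Type} [Group Γ]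

theorem total_row (ξ : Lp (Ell2 (Γ × ι)) 2 μ) (h : ∀ (s : Γ) (A : Set X) (i : ι), MeasurableSet A →
    ⟪lxt μ s (ind μ _ A (ept μ i)), ξ⟫_ℂ = 0) : ξ = 0 := by
  have h1 : innerSL ℂ ξ = 0 := by
    refine ext_lxt fun s A i hA => ?_
    rw [innerSL_apply_apply, ← inner_conj_symm, h s A i hA, map_zero, zero_apply]
  have h2 := congrArg (fun T : Lp (Ell2 (Γ × ι)) 2 μ →L[ℂ] ℂ => T ξ) h1
  simp only [innerSL_apply_apply, zero_apply] at h2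
  exact inner_self_eq_zero.mp h2

theorem lxt_ind_ept (s : Γ) {A : Set X} (hA : MeasurableSet A) (i : ι) :
    lxt μ s (ind μ _ A (ept μ i)) = ind μ _ A (Lp.constL 2 μ ℂ (dl (s, i) : Ell2 (Γ × ι))) := by
  have h4 := congrArg (fun T : Lp (Ell2 (Γ × ι)) 2 μ →L[ℂ] Lp (Ell2 (Γ × ι)) 2 μ =>
    T (ept μ i)) (lxt_ind (μ := μ) (ι := ι) s hA)
  simp only [mul_ap] at h4
  rw [h4, ept, lxt_const, lx_ep]

theorem dense_row : Dense ((Submodule.span ℂ {ξ : Lp (Ell2 (Γ × ι)) 2 μ | ∃ (p : Γ × ι) (A : Set X),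
    MeasurableSet A ∧ ξ = ind μ _ A (Lp.constL 2 μ ℂ (dl p))} :
      Submodule ℂ (Lp (Ell2 (Γ × ι)) 2 μ)) : Set (Lp (Ell2 (Γ × ι)) 2 μ)) := by
  rw [Submodule.dense_iff_topologicalClosure_eq_top, Submodule.topologicalClosure_eq_top_iff,
    Submodule.eq_bot_iff]
  intro ξ hξ
  refine total_row ξ fun s A i hA => ?_
  have h1 : lxt μ s (ind μ _ A (ept μ i)) ∈ Submodule.span ℂ {ξ : Lp (Ell2 (Γ × ι)) 2 μ |
      ∃ (p : Γ × ι) (A : Set X), MeasurableSet A ∧ ξ = ind μ _ A (Lp.constL 2 μ ℂ (dl p))} :=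
    Submodule.subset_span ⟨(s, i), A, hA, lxt_ind_ept s hA i⟩
  exact Submodule.inner_right_of_mem_orthogonal h1 hξ

/-- finite sums of operators of the right algebra which shift the functions -/
def Ap (Y : Lp (Ell2 (Γ × ι)) 2 μ →L[ℂ] Lp (Ell2 (Γ × ι)) 2 μ) : Prop :=
  ∃ (n : ℕ) (Z : Fin n → (Lp (Ell2 (Γ × ι)) 2 μ →L[ℂ] Lp (Ell2 (Γ × ι)) 2 μ)) (u : Fin n → Γ),
    (∀ j, RAt μ (Z j)) ∧ (∀ j, ∀ {F : Γ → ℝ} {C : ℝ}, (∀ g, |F g| ≤ C) →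
      mpt μ ι F * Z j = Z j * mpt μ ι (fun g => F (g * u j))) ∧ Y = ∑ j, Z j

theorem Ap.zero : Ap (0 : Lp (Ell2 (Γ × ι)) 2 μ →L[ℂ] Lp (Ell2 (Γ × ι)) 2 μ) :=
  ⟨0, Fin.elim0, Fin.elim0, fun j => j.elim0, fun j => j.elim0, by simp⟩

theorem Ap.add {Y Y' : Lp (Ell2 (Γ × ι)) 2 μ →L[ℂ] Lp (Ell2 (Γ × ι)) 2 μ} (h : Ap Y) (h' : Ap Y') :
    Ap (Y + Y') := by
  obtain ⟨n, Z, u, h1, h2, rfl⟩ := h
  obtain ⟨n', Z', u', h1', h2', rfl⟩ := h'
  refine ⟨n + n', Fin.append Z Z', Fin.append u u', fun j => ?_, fun j F C hF => ?_, ?_⟩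
  · refine Fin.addCases (fun i => ?_) (fun i => ?_) j
    · rw [Fin.append_left]; exact h1 i
    · rw [Fin.append_right]; exact h1' i
  · refine Fin.addCases (fun i => ?_) (fun i => ?_) j
    · rw [Fin.append_left, Fin.append_left]; exact h2 i hF
    · rw [Fin.append_right, Fin.append_right]; exact h2' i hF
  · rw [Fin.sum_univ_add]
    simp only [Fin.append_left, Fin.append_right]

theorem Ap.smul (c : ℂ) {Y : Lp (Ell2 (Γ × ι)) 2 μ →L[ℂ] Lp (Ell2 (Γ × ι)) 2 μ} (h : Ap Y) :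
    Ap (c • Y) := by
  obtain ⟨n, Z, u, h1, h2, rfl⟩ := h
  refine ⟨n, fun j => c • Z j, u, fun j => ⟨fun s => ?_, fun S hS => ?_⟩, fun j F C hF => ?_, ?_⟩
  · rw [smul_mul_assoc, (h1 j).1, mul_smul_comm]
  · rw [smul_mul_assoc, (h1 j).2 S hS, mul_smul_comm]
  · rw [mul_smul_comm, h2 j hF, smul_mul_assoc]
  · rw [Finset.smul_sum]

theorem Ap.sum {α : Type*} (s : Finset α)
    {f : α → Lp (Ell2 (Γ × ι)) 2 μ →L[ℂ] Lp (Ell2 (Γ × ι)) 2 μ} (h : ∀ a ∈ s, Ap (f a)) :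
    Ap (∑ a ∈ s, f a) := by
  classical
  induction s using Finset.induction_on with
  | empty => rw [Finset.sum_empty]; exact Ap.zero
  | insert a s ha ih =>
    rw [Finset.sum_insert ha]
    exact (h a (Finset.mem_insert_self a s)).add (ih fun b hb => h b (Finset.mem_insert_of_mem hb))

theorem Ap.single [DecidableEq ι] (i j : ι) (g : Γ) {A : Set X} (hA : MeasurableSet A) :
    Ap (ind μ _ A * (ex i j g : Ell2 (Γ × ι) →L[ℂ] Ell2 (Γ × ι)).compLpL 2 μ) := by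
  refine ⟨1, fun _ => ind μ _ A * (ex i j g : Ell2 (Γ × ι) →L[ℂ] Ell2 (Γ × ι)).compLpL 2 μ,
    fun _ => g, fun _ => ⟨fun s => ?_, fun S hS => ?_⟩, fun _ F C hF => ?_, ?_⟩
  · have h1 : (ex i j g : Ell2 (Γ × ι) →L[ℂ] Ell2 (Γ × ι)) * lx s = lx s * ex i j g := ex_ra i j g s
    rw [mul_assoc, lxt, ← comp_mul, h1, comp_mul, ← mul_assoc, ← ind_comp hA, mul_assoc]
  · rw [mul_assoc, ind_comp hS, ← mul_assoc, ← mul_assoc, ind_mul hA hS, ind_mul hS hA,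
      Set.inter_comm]
  · have h1 : mp ι F * ex i j g = ex i j g * mp ι (fun h => F (h * g)) := by
      refine ContinuousLinearMap.ext fun ξ => ?_
      rw [mul_ap, mul_ap]
      exact mp_ex hF i j g ξ
    rw [mul_assoc, mpt, mpt, ← comp_mul, ← h1, comp_mul, ← mul_assoc, ← mul_assoc, ind_comp hA]
  · simp

theorem ex_ept_self [DecidableEq ι] (i j : ι) (g : Γ) :
    (ex i j g : Ell2 (Γ × ι) →L[ℂ] Ell2 (Γ × ι)).compLpL 2 μ (ept μ i) =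
      Lp.constL 2 μ ℂ (dl (g, j)) := by
  rw [ept, comp_const, ex_ep_self]

theorem ex_ept_ne [DecidableEq ι] {i k : ι} (h : k ≠ i) (j : ι) (g : Γ) :
    (ex i j g : Ell2 (Γ × ι) →L[ℂ] Ell2 (Γ × ι)).compLpL 2 μ (ept μ k) = 0 := by
  rw [ept, comp_const, ex_ep_ne h, map_zero]

theorem exists_ap_of_mem [DecidableEq ι] (i : ι) {w : Lp (Ell2 (Γ × ι)) 2 μ}
    (hw : w ∈ Submodule.span ℂ {ξ : Lp (Ell2 (Γ × ι)) 2 μ | ∃ (p : Γ × ι) (A : Set X),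
      MeasurableSet A ∧ ξ = ind μ _ A (Lp.constL 2 μ ℂ (dl p))}) :
    ∃ Y : Lp (Ell2 (Γ × ι)) 2 μ →L[ℂ] Lp (Ell2 (Γ × ι)) 2 μ, Ap Y ∧ Y (ept μ i) = w ∧
      ∀ k, k ≠ i → Y (ept μ k) = 0 := by
  induction hw using Submodule.span_induction with
  | mem x hx =>
    obtain ⟨p, A, hA, rfl⟩ := hx
    refine ⟨_, Ap.single i p.2 p.1 hA, ?_, fun k hk => ?_⟩
    · rw [mul_ap, ex_ept_self]
    · rw [mul_ap, ex_ept_ne hk, map_zero]
  | zero => exact ⟨0, Ap.zero, rfl, fun _ _ => rfl⟩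
  | add x y _ _ hx hy =>
    obtain ⟨Y, h1, h2, h3⟩ := hx
    obtain ⟨Y', h1', h2', h3'⟩ := hy
    exact ⟨Y + Y', h1.add h1', by rw [add_apply, h2, h2'], fun k hk => by
      rw [add_apply, h3 k hk, h3' k hk, add_zero]⟩
  | smul c x _ hx =>
    obtain ⟨Y, h1, h2, h3⟩ := hx
    exact ⟨c • Y, h1.smul c, by rw [smul_apply, h2], fun k hk => by
      rw [smul_apply, h3 k hk, smul_zero]⟩

/-- Approximation in 2-norm. -/
theorem exists_ap [Fintype ι] (T : Lp (Ell2 (Γ × ι)) 2 μ →L[ℂ] Lp (Ell2 (Γ × ι)) 2 μ) {ε : ℝ}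
    (hε : 0 < ε) : ∃ Y : Lp (Ell2 (Γ × ι)) 2 μ →L[ℂ] Lp (Ell2 (Γ × ι)) 2 μ, Ap Y ∧
      ∑ i, ‖(T - Y) (ept μ i)‖ ^ 2 ≤ ε := by
  classical
  obtain ⟨δ, hδ0, hδ⟩ : ∃ δ : ℝ, 0 < δ ∧ (Fintype.card ι : ℝ) * δ ^ 2 ≤ ε := by
    refine ⟨Real.sqrt (ε / (Fintype.card ι + 1)), Real.sqrt_pos.mpr (by positivity), ?_⟩
    rw [Real.sq_sqrt (by positivity), mul_div_assoc', div_le_iff₀ (by positivity)]
    nlinarith
  have h1 : ∀ i : ι, ∃ Y : Lp (Ell2 (Γ × ι)) 2 μ →L[ℂ] Lp (Ell2 (Γ × ι)) 2 μ, Ap Y ∧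
      ‖T (ept μ i) - Y (ept μ i)‖ < δ ∧ ∀ k, k ≠ i → Y (ept μ k) = 0 := by
    intro i
    obtain ⟨w, hw, hd⟩ := Metric.mem_closure_iff.mp (dense_row (T (ept μ i))) δ hδ0
    obtain ⟨Y, h1, h2, h3⟩ := exists_ap_of_mem i hw
    refine ⟨Y, h1, ?_, h3⟩
    rw [h2, ← dist_eq_norm]
    exact hd
  choose Y hY1 hY2 hY3 using h1
  refine ⟨∑ i, Y i, Ap.sum _ fun i _ => hY1 i, ?_⟩
  have h2 : ∀ i, (∑ k, Y k) (ept μ i) = Y i (ept μ i) := by
    intro i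
    rw [ContinuousLinearMap.sum_apply, Finset.sum_eq_single i]
    · intro k _ hk
      exact hY3 k i hk.symm
    · intro h; exact absurd (Finset.mem_univ _) h
  calc ∑ i, ‖(T - ∑ k, Y k) (ept μ i)‖ ^ 2 ≤ ∑ i : ι, δ ^ 2 := by
        refine Finset.sum_le_sum fun i _ => ?_
        rw [sub_apply, h2]
        have := (hY2 i).le
        gcongr
    _ ≤ ε := by rw [Finset.sum_const, Finset.card_univ, nsmul_eq_mul]; exact hδ

end row

end Vale.Agent.P092.H790
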