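import Vale.Agent.P092.H790.MrgC
import Vale.Agent.P092.H790.TgtMrg
import Vale.Agent.P092.H933.PInst
import Vale.Agent.P092.H515.Places

/-!
P092 (helper790), project RP: closed groups of matrices over a non-archimedean local field with a
Cartan decomposition, up to bounded matrices, relative to an `r`-dimensional space of diagonal
matrices are target groups of rank `r`.
-/

set_option linter.all false

open Finset Module Matrix

namespace Vale.Agent.P092.H790.Mrg

open Vale.Agent.P092.H515 (GSys Tgt place_gsys finEmb)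
open Vale.Agent.P092.H933 (nr sz nu la gap sv InK Car PEmb nr_pos nr_nonneg nr_le entry_le_nr sv_pos
  norm_det_eq la_fin)

section ult
variable {k : Type} [NontriviallyNormedField k] [IsUltrametricDist k] {n : ℕ}

/-- Singular values of a diagonal matrix. -/
theorem exists_perm_diag {a : Fin n → k} (ha : ∀ i, a i ≠ 0) :
    ∃ σ : Equiv.Perm (Fin n), ∀ i : Fin n, la (diagonal a) (i : ℕ) = Real.log ‖a (σ i)‖ := by
  obtain ⟨c, hc⟩ : ∃ c : Car (diagonal a), c = H933.car (diagonal a) := ⟨_, rfl⟩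
  obtain ⟨σ, hσ⟩ := c.hv.exists_perm
  have hd : (diagonal a).det ≠ 0 := by
    rw [det_diagonal]
    exact Finset.prod_ne_zero_iff.mpr fun i _ => ha i
  have e1 : diagonal c.a * c.v = c.ui * diagonal a := by
    have e2 : c.ui * diagonal a = c.ui * (c.u * diagonal c.a * c.v) := by rw [← c.eq]
    rw [e2]
    calc diagonal c.a * c.v = (c.ui * c.u) * (diagonal c.a * c.v) := by
          rw [c.hu.mul', Matrix.one_mul]
      _ = _ := by simp only [Matrix.mul_assoc]
  have h1 : ∀ l, ‖c.a (σ l)‖ ≤ ‖a l‖ := fun l => by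
    have e := congrFun (congrFun e1 (σ l)) l
    rw [Matrix.diagonal_mul, Matrix.mul_diagonal] at e
    calc ‖c.a (σ l)‖ = ‖c.a (σ l) * c.v (σ l) l‖ := by rw [norm_mul, hσ l, mul_one]
      _ = ‖c.ui (σ l) l‖ * ‖a l‖ := by rw [e, norm_mul]
      _ ≤ 1 * ‖a l‖ := mul_le_mul_of_nonneg_right (c.hu.lei _ _) (norm_nonneg _)
      _ = ‖a l‖ := one_mul _
  have h2 : ∏ l, ‖c.a (σ l)‖ = ∏ l, ‖a l‖ := by
    have e3 := norm_det_eq (diagonal a)
    rw [det_diagonal, norm_prod] at e3
    rw [e3]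
    rw [Equiv.prod_comp σ (fun l => ‖c.a l‖)]
    refine Finset.prod_congr rfl fun l _ => ?_
    rw [hc]
    rfl
  have hpos : ∀ l, 0 < ‖c.a l‖ := fun l => by
    have := sv_pos hd l
    rw [sv, ← hc] at this
    exact this
  have h3 : ∀ l, ‖c.a (σ l)‖ = ‖a l‖ := by
    by_contra hne
    push Not at hne
    obtain ⟨l, hl⟩ := hne
    have h4 : ∏ l, ‖c.a (σ l)‖ < ∏ l, ‖a l‖ :=
      Finset.prod_lt_prod (fun l _ => hpos _) (fun l _ => h1 l)
        ⟨l, Finset.mem_univ _, lt_of_le_of_ne (h1 l) hl⟩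
    exact absurd h2 h4.ne
  refine ⟨σ.symm, fun i => ?_⟩
  rw [la_fin, sv, ← hc, ← h3 (σ.symm i), Equiv.apply_symm_apply]

theorem log_nr_le {A : Matrix (Fin n) (Fin n) k} (hA : A.det ≠ 0) (hn : 0 < n) {C : ℝ}
    (hC : 1 ≤ C) (h : ∀ i j, ‖A i j‖ ≤ C) : Real.log (nr A) ≤ Real.log C :=
  Real.log_le_log (nr_pos hA hn) (nr_le (by linarith) h)

/-- Bounded factors change the logarithms of the singular values by a bounded amount. -/
theorem la_bdd (hn : 0 < n) {A A' B B' D : Matrix (Fin n) (Fin n) k} {C : ℝ} (hC : 1 ≤ C)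
    (hA : A * A' = 1) (hB : B * B' = 1) (h1 : ∀ i j, ‖A i j‖ ≤ C) (h2 : ∀ i j, ‖A' i j‖ ≤ C)
    (h3 : ∀ i j, ‖B i j‖ ≤ C) (h4 : ∀ i j, ‖B' i j‖ ≤ C) (hD : D.det ≠ 0) (i : Fin n) :
    |la (A * D * B) (i : ℕ) - la D (i : ℕ)| ≤ 2 * Real.log C := by
  have dA : A.det ≠ 0 := by
    intro h
    have := congrArg Matrix.det hA
    rw [det_mul, h, zero_mul, det_one] at this
    exact zero_ne_one this
  have dB : B.det ≠ 0 := by
    intro h
    have := congrArg Matrix.det hB
    rw [det_mul, h, zero_mul, det_one] at this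
    exact zero_ne_one this
  have iA : A⁻¹ = A' := inv_eq_right_inv hA
  have iB : B⁻¹ = B' := inv_eq_right_inv hB
  have dA' : A'.det ≠ 0 := by rw [← iA]; exact H933.inv_det_ne dA
  have dB' : B'.det ≠ 0 := by rw [← iB]; exact H933.inv_det_ne dB
  have dAD : (A * D).det ≠ 0 := H933.mul_det_ne dA hD
  have e1 := H933.la_left_le dA hD i.2
  have e2 := H933.la_left_ge dA hD i.2
  have e3 := H933.la_right_le dAD dB i.2
  have e4 := H933.la_right_ge dAD dB i.2
  rw [iA] at e2
  rw [iB] at e4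
  have f1 := log_nr_le dA hn hC h1
  have f2 := log_nr_le dA' hn hC h2
  have f3 := log_nr_le dB hn hC h3
  have f4 := log_nr_le dB' hn hC h4
  rw [abs_le]
  constructor <;> linarith

/-- the gaps as linear functions -/
noncomputable def dv (j : Fin (n - 1)) : (Fin n → ℝ) →ₗ[ℝ] ℝ :=
  LinearMap.proj (R := ℝ) (φ := fun _ : Fin n => ℝ) (⟨j, by omega⟩ : Fin n) -
    LinearMap.proj (R := ℝ) (φ := fun _ : Fin n => ℝ) (⟨(j : ℕ) + 1, by omega⟩ : Fin n)

theorem dv_apply (j : Fin (n - 1)) (y : Fin n → ℝ) :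
    dv j y = y ⟨j, by omega⟩ - y ⟨(j : ℕ) + 1, by omega⟩ := rfl

theorem ker_dv (j : Fin (n - 1)) : LinearMap.ker (dv j) = LinearMap.ker (dl (n := n) j) := by
  ext y
  rw [LinearMap.mem_ker, LinearMap.mem_ker, dv_apply, dl_apply]
  constructor <;> intro h <;> linarith

/-- **Closed groups of matrices over a non-archimedean local field with a Cartan decomposition are
target groups.** -/
theorem tgt_ultra [ProperSpace k] {r : ℕ} (hn : 0 < n) {G : Type} [Group G] [TopologicalSpace G]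
    (m : G →* Matrix (Fin n) (Fin n) k) (hm : Topology.IsClosedEmbedding m)
    (hdet : ∀ g, ‖(m g).det‖ = 1) (E : Submodule ℝ (Fin n → ℝ)) (hr : finrank ℝ E ≤ r) (C : ℝ)
    (car : ∀ g, ∃ (A A' B B' : Matrix (Fin n) (Fin n) k) (a : Fin n → k) (x : Fin n → ℝ),
      x ∈ E ∧ A * A' = 1 ∧ B * B' = 1 ∧ (∀ i j, ‖A i j‖ ≤ C) ∧ (∀ i j, ‖A' i j‖ ≤ C) ∧
      (∀ i j, ‖B i j‖ ≤ C) ∧ (∀ i j, ‖B' i j‖ ≤ C) ∧ m g = A * diagonal a * B ∧
      ∀ i, |Real.log ‖a i‖ - x i| ≤ C) : Tgt G r := by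
  have hd : ∀ g, (m g).det ≠ 0 := fun g h => by
    have := hdet g
    rw [h, norm_zero] at this
    exact zero_ne_one this
  have hE : PEmb fun g : G => m g :=
    ⟨fun a b => ⟨1, one_ne_zero, by rw [map_mul, one_smul]⟩, hd⟩
  have hP := H933.place hn hE (finEmb n) (R0 := 0) fun l hl hj =>
    absurd rfl (hj ⟨l, by omega⟩)
  have hS := place_gsys hP
  have hdat : DatB (fun (j : Fin (n - 1)) g => gap (finEmb n j) (m g)) (fun g => fun i : Fin n =>
      la (m g) (i : ℕ)) dv (fam E) r := by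
    refine ⟨fun j g => ?_, fun j g => H933.gap_nonneg (hd g) _, fun a b => ?_, bot_fam E,
      fun M hM j => ?_, ?_⟩
    · have hj : (j : ℕ) + 1 < n := by omega
      show gap (j : ℕ) (m g) = _
      rw [gap, if_pos hj]
      rfl
    · obtain ⟨C1, hC1, hb⟩ : ∃ C1 : ℝ, 1 ≤ C1 ∧ ∀ i j, ‖m a i j‖ ≤ C1 ∧ ‖(m a)⁻¹ i j‖ ≤ C1 ∧
          ‖m b i j‖ ≤ C1 ∧ ‖(m b)⁻¹ i j‖ ≤ C1 := by
        refine ⟨1 + nr (m a) + nr (m a)⁻¹ + nr (m b) + nr (m b)⁻¹, ?_, fun i j => ?_⟩
        · linarith [nr_nonneg (m a), nr_nonneg (m a)⁻¹, nr_nonneg (m b), nr_nonneg (m b)⁻¹]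
        · have h1 := nr_nonneg (m a)
          have h2 := nr_nonneg (m a)⁻¹
          have h3 := nr_nonneg (m b)
          have h4 := nr_nonneg (m b)⁻¹
          have h5 := entry_le_nr (m a) i j
          have h6 := entry_le_nr (m a)⁻¹ i j
          have h7 := entry_le_nr (m b) i j
          have h8 := entry_le_nr (m b)⁻¹ i j
          refine ⟨?_, ?_, ?_, ?_⟩ <;> linarith
      refine ⟨2 * Real.log C1, fun g => ?_⟩
      rw [pi_norm_le_iff_of_nonneg (mul_nonneg zero_le_two (Real.log_nonneg hC1))]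
      intro i
      rw [Pi.sub_apply, Real.norm_eq_abs, map_mul, map_mul]
      exact la_bdd hn hC1 (H933.mul_inv_self (hd a)) (H933.mul_inv_self (hd b))
        (fun i j => (hb i j).1) (fun i j => (hb i j).2.1) (fun i j => (hb i j).2.2.1)
        (fun i j => (hb i j).2.2.2) (hd g) i
    · rw [ker_dv]
      exact cut_fam E M hM j
    · obtain ⟨C1, hC1, hCC⟩ : ∃ C1 : ℝ, 1 ≤ C1 ∧ C ≤ C1 :=
        ⟨max 1 C, le_max_left _ _, le_max_right _ _⟩
      refine ⟨2 * Real.log C1 + C1, fun g => ?_⟩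
      obtain ⟨A, A', B, B', a, x, hx, hA, hB, h1, h2, h3, h4, he, hxa⟩ := car g
      have hda : ∀ i, a i ≠ 0 := by
        intro i hi
        refine hd g ?_
        rw [he, det_mul, det_mul, det_diagonal, Finset.prod_eq_zero (Finset.mem_univ i) hi,
          mul_zero, zero_mul]
      have hdd : (diagonal a).det ≠ 0 := by
        rw [det_diagonal]
        exact Finset.prod_ne_zero_iff.mpr fun i _ => hda i
      obtain ⟨σ, hσ⟩ := exists_perm_diag hda
      have h5 := mem_fam E σ ∅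
      rw [Finset.inf_empty, inf_top_eq] at h5
      refine ⟨_, h5, (finrank_per E σ).trans hr, fun i => x (σ i), mem_per E hx fun i => rfl, ?_⟩
      rw [pi_norm_le_iff_of_nonneg (add_nonneg (mul_nonneg zero_le_two (Real.log_nonneg hC1))
        (by linarith))]
      intro i
      rw [Pi.sub_apply, Real.norm_eq_abs]
      have h6 := la_bdd hn hC1 hA hB (fun i j => (h1 i j).trans hCC)
        (fun i j => (h2 i j).trans hCC) (fun i j => (h3 i j).trans hCC)
        (fun i j => (h4 i j).trans hCC) hdd i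
      rw [← he] at h6
      have h7 : |la (diagonal a) (i : ℕ) - x (σ i)| ≤ C1 := by
        rw [hσ]
        exact (hxa _).trans hCC
      calc |la (m g) (i : ℕ) - x (σ i)|
          = |(la (m g) (i : ℕ) - la (diagonal a) (i : ℕ)) +
            (la (diagonal a) (i : ℕ) - x (σ i))| := by
            congr 1
            ring
        _ ≤ _ := (abs_add_le _ _).trans (add_le_add h6 h7)
  refine ⟨Fin r, inferInstance, _, _, fun j => j, ⟨gsysB hdat hS, fun R => ⟨R, fun i j hij g hg => ?_⟩,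
    fun R => ?_⟩⟩
  · have hij' : i = j := hij
    rw [← hij']
    exact hg
  · have hc : IsCompact (Set.univ.pi fun _ : Fin n => Set.univ.pi fun _ : Fin n =>
        Metric.closedBall (0 : k) R) :=
      isCompact_univ_pi fun _ => isCompact_univ_pi fun _ => isCompact_closedBall _ _
    refine ⟨_, hm.isCompact_preimage hc, fun g hg i _ j _ => ?_⟩
    rw [mem_closedBall_zero_iff]
    refine (entry_le_nr (m g) i j).trans ?_
    have e : sz (m g) = nr (m g) := by
      rw [sz, nu, hdet g, Real.one_rpow, div_one]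
    rw [← e]
    exact hg

end ult

end Vale.Agent.P092.H790.Mrg
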